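import Crest.Agent.N207.G.Hes
import Crest.Agent.N207.C.Lip
import Crest.Agent.N207.C.Dist
import Crest.Agent.N207.E.Cut
import Crest.Agent.N207.E.MV
import Crest.Agent.N207.C.Cutf
import Crest.Agent.N207.C.VolUp

-- ▼ part N207/G/Bas
section

/-!
# Row 207, block G, entropy half (helper23): basic scalar lemmas
-/

set_option autoImplicit false
set_option linter.dupNamespace false
set_option linter.unusedSectionVars false
open Set MeasureTheory Filter Topology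
open scoped ContDiff

noncomputable section

namespace Crest.Agent.N207.Ge

open HC

variable {M : Type*} [TopologicalSpace M] [CompactSpace M] [MeasurableSpace M] {H : HC M}

theorem Pc_nonneg (E : H.Evo) {t : ℝ} (ht : t ∈ Ioo 0 H.T) {u : M → ℝ} (hu : H.S0 u) (c : ℝ)
    (x : M) : 0 ≤ H.Pc c t u x := by
  have := E.lap_sq t ht hu x
  unfold Pc
  nlinarith [sq_nonneg (H.lap t u x - 4 * c)]

theorem lap_sub_sq (E : H.Evo) {t : ℝ} (ht : t ∈ Ioo 0 H.T) {u : M → ℝ} (hu : H.S0 u) (c : ℝ)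
    (x : M) : (H.lap t u x - 4 * c) ^ 2 ≤ 4 * H.Pc c t u x := by
  have := E.lap_sq t ht hu x
  unfold Pc
  nlinarith

theorem Pc_le_hh (E : H.Evo) {t : ℝ} (ht : t ∈ Ioo 0 H.T) {u : M → ℝ} (hu : H.S0 u) (c : ℝ)
    (x : M) : H.Pc c t u x ≤ 2 * H.hh t u x + 8 * c ^ 2 := by
  have := E.lap_sq t ht hu x
  unfold Pc
  nlinarith [sq_nonneg (H.lap t u x + 4 * c)]

theorem s0_Pc (A : H.Alg) {t : ℝ} (ht : t ∈ Ioo 0 H.T) {u : M → ℝ} (hu : H.S0 u) (c : ℝ) :
    H.S0 (H.Pc c t u) :=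
  A.s0_add (A.s0_sub (A.s0_hh ht hu) (A.s0_cmul (2 * c) (A.s0_lap ht hu))) (A.s0_const _)

theorem sm_Pc (A : H.Alg) {a b : ℝ} (hs : H.St a b) {u : ℝ → M → ℝ} (hu : H.Sm a b u) (c : ℝ) :
    H.Sm a b fun t => H.Pc c t (u t) :=
  A.sm_add (A.sm_sub (A.sm_hh hs hu) (A.sm_cmul (2 * c) (A.sm_lap hs hu))) (A.sm_const _)

theorem dt_unique {φ ψ : ℝ → ℝ} {a b t p q : ℝ} (hab : a < b) (ht : t ∈ Icc a b)
    (h1 : HasDerivWithinAt φ p (Icc a b) t) (h2 : HasDerivWithinAt ψ q (Icc a b) t)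
    (h : ∀ s ∈ Icc a b, φ s = ψ s) : p = q :=
  (uniqueDiffOn_Icc hab t ht).eq_deriv _ h1 (h2.congr h (h t ht))

theorem gam_local (A : H.Alg) {t : ℝ} (ht : t ∈ Ioo 0 H.T) {u v w w' : M → ℝ} (hu : H.S0 u)
    (hv : H.S0 v) (hw : H.S0 w) (hw' : H.S0 w') {x : M} (h : u =ᶠ[𝓝 x] v) (h' : w =ᶠ[𝓝 x] w') :
    H.gam t u w x = H.gam t v w' x := by
  rw [(A.local_eq ht hu hv h).2 w hw, A.gam_symm t ht hv hw, (A.local_eq ht hw hw' h').2 v hv,
    A.gam_symm t ht hw' hv]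

theorem hh_local (A : H.Alg) (E : H.Evo) {t : ℝ} (ht : t ∈ Ioo 0 H.T) {u v : M → ℝ}
    (hu : H.S0 u) (hv : H.S0 v) {x : M} (h : u =ᶠ[𝓝 x] v) : H.hh t u x = H.hh t v x := by
  obtain ⟨a, b, hs, htm⟩ := exists_st ht
  have h1 := E.dt_gam hs (A.sm_static hu) (HasDt.static u) t htm x
  have h2 := E.dt_gam hs (A.sm_static hv) (HasDt.static v) t htm x
  have h3 := dt_unique hs.2.1 htm h1 h2 fun s hs' =>
    gam_local A (hs.mem hs') hu hv hu hv h h
  have hev := h.eventuallyEq_nhds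
  have e1 : H.gam t u u =ᶠ[𝓝 x] H.gam t v v :=
    hev.mono fun y hy => gam_local A ht hu hv hu hv hy hy
  have e2 : (fun y => (0 : ℝ) - H.lap t u y) =ᶠ[𝓝 x] fun y => (0 : ℝ) - H.lap t v y :=
    hev.mono fun y hy => by simp only [(A.local_eq ht hu hv hy).1]
  have e3 := (A.local_eq ht (A.s0_gam ht hu hu) (A.s0_gam ht hv hv) e1).1
  have e4 := gam_local A ht hu hv (A.s0_sub (A.s0_const 0) (A.s0_lap ht hu))
    (A.s0_sub (A.s0_const 0) (A.s0_lap ht hv)) h e2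
  simp only at h3
  rw [e3, e4] at h3
  linarith

theorem Pc_local (A : H.Alg) (E : H.Evo) {t : ℝ} (ht : t ∈ Ioo 0 H.T) {u v : M → ℝ}
    (hu : H.S0 u) (hv : H.S0 v) (c : ℝ) {x : M} (h : u =ᶠ[𝓝 x] v) :
    H.Pc c t u x = H.Pc c t v x := by
  unfold Pc
  rw [hh_local A E ht hu hv h, (A.local_eq ht hu hv h).1]

theorem s0_aff (A : H.Alg) {u : M → ℝ} (hu : H.S0 u) (p q : ℝ) : H.S0 fun y => p * u y + q :=
  A.s0_add (A.s0_cmul p hu) (A.s0_const q)

theorem lap_aff (A : H.Alg) {t : ℝ} (ht : t ∈ Ioo 0 H.T) {u : M → ℝ} (hu : H.S0 u) (p q : ℝ)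
    (x : M) : H.lap t (fun y => p * u y + q) x = p * H.lap t u x := by
  rw [A.lap_add t ht (A.s0_cmul p hu) (A.s0_const q), A.lap_cmul ht p hu, A.lap_const ht]
  ring

theorem gam_aff (A : H.Alg) {t : ℝ} (ht : t ∈ Ioo 0 H.T) {u w : M → ℝ} (hu : H.S0 u)
    (hw : H.S0 w) (p q : ℝ) (x : M) : H.gam t (fun y => p * u y + q) w x = p * H.gam t u w x := by
  rw [A.gam_add t ht (A.s0_cmul p hu) (A.s0_const q) hw, A.gam_cmul ht p hu hw,
    A.gam_const ht q hw]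
  ring

theorem gam_aff2 (A : H.Alg) {t : ℝ} (ht : t ∈ Ioo 0 H.T) {u : M → ℝ} (hu : H.S0 u)
    (p q : ℝ) (x : M) :
    H.gam t (fun y => p * u y + q) (fun y => p * u y + q) x = p ^ 2 * H.gam t u u x := by
  rw [gam_aff A ht hu (s0_aff A hu p q), A.gam_symm t ht hu (s0_aff A hu p q), gam_aff A ht hu hu]
  ring

theorem hh_aff (A : H.Alg) (E : H.Evo) {t : ℝ} (ht : t ∈ Ioo 0 H.T) {u : M → ℝ}
    (hu : H.S0 u) (p q : ℝ) (x : M) : H.hh t (fun y => p * u y + q) x = p ^ 2 * H.hh t u x := by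
  obtain ⟨a, b, hs, htm⟩ := exists_st ht
  have hw := s0_aff A hu p q
  have h1 := E.dt_gam hs (A.sm_static hw) (HasDt.static _) t htm x
  have h2 := (E.dt_gam hs (A.sm_static hu) (HasDt.static u) t htm x).const_mul (p ^ 2)
  have h3 := dt_unique hs.2.1 htm h1 h2 fun s hs' => gam_aff2 A (hs.mem hs') hu p q x
  have e1 : H.gam t (fun y => p * u y + q) (fun y => p * u y + q) =
      fun y => p ^ 2 * H.gam t u u y := funext fun y => gam_aff2 A ht hu p q y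
  have hl := A.s0_sub (A.s0_const 0) (A.s0_lap ht hu)
  have e2 : (fun y => (0 : ℝ) - H.lap t (fun y => p * u y + q) y) =
      fun y => p * ((0 : ℝ) - H.lap t u y) := funext fun y => by rw [lap_aff A ht hu]; ring
  simp only at h3
  rw [e1, e2, A.lap_cmul ht _ (A.s0_gam ht hu hu), gam_aff A ht hu (A.s0_cmul p hl),
    A.gam_cmul' ht p hl hu] at h3
  linarith

theorem rh_aff (A : H.Alg) (E : H.Evo) {t : ℝ} (ht : t ∈ Ioo 0 H.T) {u : M → ℝ}
    (hu : H.S0 u) (p q : ℝ) (x : M) : H.rh t (fun y => p * u y + q) x = p * H.rh t u x := by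
  obtain ⟨a, b, hs, htm⟩ := exists_st ht
  have hw := s0_aff A hu p q
  have h1 := E.dt_lap hs (A.sm_static hw) (HasDt.static _) t htm x
  have h2 := (E.dt_lap hs (A.sm_static hu) (HasDt.static u) t htm x).const_mul p
  have h3 := dt_unique hs.2.1 htm h1 h2 fun s hs' => lap_aff A (hs.mem hs') hu p q x
  simp only at h3
  rw [A.lap_const ht] at h3
  linarith

theorem Pc_add_const (A : H.Alg) (E : H.Evo) {t : ℝ} (ht : t ∈ Ioo 0 H.T) {u : M → ℝ}
    (hu : H.S0 u) (c q : ℝ) (x : M) : H.Pc c t (fun y => 1 * u y + q) x = H.Pc c t u x := by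
  unfold Pc
  rw [hh_aff A E ht hu, lap_aff A ht hu]
  ring

/-- `|Hess (4τ f) - 2 g|² ≤ 32 τ² (sol + |Ric|²)` -/
theorem Pc_le_sol (A : H.Alg) (E : H.Evo) {t τ : ℝ} (ht : t ∈ Ioo 0 H.T) (hτ : 0 < τ)
    {f : M → ℝ} (hf : H.S0 f) (x : M) :
    H.Pc 2 t (fun y => 4 * τ * f y + 0) x ≤ 32 * τ ^ 2 * (H.sol t τ f x + H.Q 0 t x) := by
  have h1 := E.sol_nonneg t ht (2 * τ) (by positivity) (s0_aff A hf (1 / 2) 0) x
  unfold sol at h1 ⊢
  unfold Pc
  rw [hh_aff A E ht hf, lap_aff A ht hf] at h1 ⊢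
  rw [rh_aff A E ht hf] at h1
  have h2 := mul_nonneg (by positivity : (0 : ℝ) ≤ 64 * τ ^ 2) h1
  have e : 32 * τ ^ 2 * (H.hh t f x + 2 * H.rh t f x + H.Q 0 t x - (H.R t x + H.lap t f x) / τ +
      1 / τ ^ 2 + H.Q 0 t x) - ((4 * τ) ^ 2 * H.hh t f x - 2 * 2 * (4 * τ * H.lap t f x) +
      4 * 2 ^ 2) = 64 * τ ^ 2 * ((1 / 2) ^ 2 * H.hh t f x + 2 * (1 / 2 * H.rh t f x) + H.Q 0 t x -
      (H.R t x + 1 / 2 * H.lap t f x) / (2 * τ) + 1 / (2 * τ) ^ 2) := by
    field_simp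
    ring
  linarith

/-- `|φ'| ≤ k φ` gives `φ s ≤ e^{k |s - t|} φ t` -/
theorem le_exp_mul {φ φ' : ℝ → ℝ} {a b k : ℝ}
    (hd : ∀ t ∈ Icc a b, HasDerivWithinAt φ (φ' t) (Icc a b) t)
    (h : ∀ t ∈ Icc a b, |φ' t| ≤ k * φ t) {s t : ℝ} (hs : s ∈ Icc a b) (ht : t ∈ Icc a b) :
    φ s ≤ Real.exp (k * |s - t|) * φ t := by
  have hd1 : ∀ (c : ℝ), ∀ r ∈ Icc a b, HasDerivWithinAt (fun r => Real.exp (c * r) * φ r)
      (Real.exp (c * r) * (c * φ r + φ' r)) (Icc a b) r := by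
    intro c r hr
    have h1 : HasDerivAt (fun r => Real.exp (c * r)) (Real.exp (c * r) * c) r := by
      simpa using ((hasDerivAt_id r).const_mul c).exp
    refine (h1.hasDerivWithinAt.mul (hd r hr)).congr_deriv ?_
    ring
  rcases le_total s t with hst | hst
  · have hm := mono_of_deriv (hd1 k) fun r hr => mul_nonneg (Real.exp_pos _).le (by
      have := h r (Ioo_subset_Icc_self hr); have := neg_abs_le (φ' r); linarith)
    have h2 := hm hs ht hst
    simp only at h2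
    rw [abs_of_nonpos (by linarith)]
    have e : Real.exp (k * -(s - t)) * φ t = Real.exp (-(k * s)) * (Real.exp (k * t) * φ t) := by
      rw [← mul_assoc, ← Real.exp_add]; ring_nf
    rw [e]
    calc φ s = Real.exp (-(k * s)) * (Real.exp (k * s) * φ s) := by
          rw [← mul_assoc, ← Real.exp_add]; simp
      _ ≤ _ := mul_le_mul_of_nonneg_left h2 (Real.exp_pos _).le
  · have hm := anti_of_deriv (hd1 (-k)) fun r hr => mul_nonpos_of_nonneg_of_nonpos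
      (Real.exp_pos _).le (by
        have := h r (Ioo_subset_Icc_self hr); have := le_abs_self (φ' r); linarith)
    have h2 := hm ht hs hst
    simp only at h2
    rw [abs_of_nonneg (by linarith)]
    have e : Real.exp (k * (s - t)) * φ t = Real.exp (k * s) * (Real.exp (-k * t) * φ t) := by
      rw [← mul_assoc, ← Real.exp_add]; ring_nf
    rw [e]
    calc φ s = Real.exp (k * s) * (Real.exp (-k * s) * φ s) := by
          rw [← mul_assoc, ← Real.exp_add]; simp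
      _ ≤ _ := mul_le_mul_of_nonneg_left h2 (Real.exp_pos _).le

/-- gradients of a static function at two times of a window where `Ric` is small -/
theorem gam_cmp (A : H.Alg) (E : H.Evo) {a b k : ℝ} (hs : H.St a b) {u : M → ℝ} (hu : H.S0 u)
    {x : M} (hk : ∀ t ∈ Icc a b, √(H.Q 0 t x) ≤ k) (hkb : k * (b - a) ≤ 1 / 2) {s t : ℝ}
    (hs' : s ∈ Icc a b) (ht : t ∈ Icc a b) : H.gam s u u x ≤ 4 * H.gam t u u x := by
  have hd := E.dt_gam hs (A.sm_static hu) (HasDt.static u)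
  have hk0 : 0 ≤ k := (Real.sqrt_nonneg _).trans (hk s hs')
  have h1 := le_exp_mul (k := 2 * k) (fun r hr => hd r hr x) (fun r hr => by
    have h2 := E.dt_gam_static hs hu hd r hr x
    have h3 := A.gam_nonneg r (hs.mem hr) hu x
    refine h2.trans ?_
    have := hk r hr
    nlinarith) hs' ht
  have h4 : |s - t| ≤ b - a := abs_le.2 ⟨by linarith [hs'.1, ht.2], by linarith [hs'.2, ht.1]⟩
  have h5 : Real.exp (2 * k * |s - t|) ≤ 4 := by
    have : 2 * k * |s - t| ≤ 1 := by nlinarith [abs_nonneg (s - t)]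
    exact (Real.exp_le_exp.2 this).trans (by linarith [Real.exp_one_lt_d9])
  exact h1.trans (mul_le_mul_of_nonneg_right h5 (A.gam_nonneg t (hs.mem ht) hu x))

theorem gam_psi (A : H.Alg) {t : ℝ} (ht : t ∈ Ioo 0 H.T) {U : M → ℝ} (hU : H.S0 U) {ψ : ℝ → ℝ}
    (hψ : ContDiff ℝ ∞ ψ) (p q : ℝ) {w : M → ℝ} (hw : H.S0 w) (x : M) :
    H.gam t (fun y => ψ (p * U y + q)) w x = deriv ψ (p * U x + q) * p * H.gam t U w x := by
  rw [A.gam_compU ht hψ (s0_aff A hU p q) hw, gam_aff A ht hU hw]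
  ring

theorem gam_psi2 (A : H.Alg) {t : ℝ} (ht : t ∈ Ioo 0 H.T) {U : M → ℝ} (hU : H.S0 U) {ψ : ℝ → ℝ}
    (hψ : ContDiff ℝ ∞ ψ) (p q : ℝ) (x : M) :
    H.gam t (fun y => ψ (p * U y + q)) (fun y => ψ (p * U y + q)) x =
      deriv ψ (p * U x + q) ^ 2 * p ^ 2 * H.gam t U U x := by
  rw [A.gam_compU2 ht hψ (s0_aff A hU p q), gam_aff2 A ht hU]
  ring

/-- small balls at an other time of a window where `Ric` is small -/
theorem ball_cmp (A : H.Alg) (E : H.Evo) (D : H.Dist) {a b k ρ : ℝ} (hs : H.St a b) {x : M}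
    {s t : ℝ} (hs' : s ∈ Icc a b) (ht : t ∈ Icc a b) (hρ : 0 < ρ)
    (hk : ∀ y, H.d t x y < 4 * ρ → ∀ r ∈ Icc a b, √(H.Q 0 r y) ≤ k) (hkb : k * (b - a) ≤ 1 / 2)
    {y : M} (hy : H.d s x y < ρ) : H.d t x y ≤ 3 * ρ := by
  obtain ⟨U, hU, hU1, hU2⟩ := D.approx t (hs.mem ht) x (ρ / 4) (by positivity)
  obtain ⟨ψ, hψ, hψ1, hψ2, hψ3, hψ4⟩ := Dist.exists_psi (ε := ρ / 4) (by positivity)
  have hw := A.s0_compU hψ (s0_aff A hU (-1) (3 * ρ))
  have hl := A.lip_glob D (hs.mem hs') (s0_aff A hw (1 / 2) 0) (fun z => by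
    rw [gam_aff2 A (hs.mem hs') hw, gam_psi2 A (hs.mem hs') hU hψ]
    by_cases hz : -1 * U z + 3 * ρ ≤ 0
    · rw [hψ2 _ hz]; norm_num
    · have h1 : H.d t x z < 4 * ρ := by have := abs_le.1 (hU2 z); linarith [this.1]
      have h2 := gam_cmp A E hs hU (hk z h1) hkb hs' ht
      have h3 := hψ1 (-1 * U z + 3 * ρ)
      have h4 := hU1 z
      have h5 := A.gam_nonneg s (hs.mem hs') hU z
      have h6 : deriv ψ (-1 * U z + 3 * ρ) ^ 2 ≤ 1 := by nlinarith [h3.1, h3.2]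
      nlinarith) x y
  have h1 := abs_le.1 (hU2 x)
  have h2 := abs_le.1 (hU2 y)
  rw [D.self t (hs.mem ht)] at h1
  have h3 := (hψ4 (-1 * U x + 3 * ρ)).1
  have h4 := (hψ4 (-1 * U y + 3 * ρ)).2
  have h5 := (abs_le.1 hl).1
  have h6 := le_max_left (-1 * U x + 3 * ρ) 0
  rcases max_cases (-1 * U y + 3 * ρ) 0 with h7 | h7 <;> rw [h7.1] at h4 <;> linarith

/-- almost midpoints -/
theorem mid (A : H.Alg) (D : H.Dist) {t : ℝ} (ht : t ∈ Ioo 0 H.T) {x y : M} {a b : ℝ}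
    (ha : 0 < a) (hb : 0 < b) (h : H.d t x y < a + b) :
    ∃ z, H.d t x z < a ∧ H.d t y z < b := by
  by_contra hn
  push Not at hn
  obtain ⟨ε, hε, hε1⟩ : ∃ ε, 0 < ε ∧ H.d t x y + 8 * ε < a + b :=
    ⟨(a + b - H.d t x y) / 9, by linarith, by linarith⟩
  obtain ⟨U, hU, hU1, hU2⟩ := D.approx t ht x ε hε
  obtain ⟨V, hV, hV1, hV2⟩ := D.approx t ht y ε hε
  obtain ⟨ψ, hψ, hψ1, hψ2, hψ3, hψ4⟩ := Dist.exists_psi hε
  have hp := A.s0_compU hψ (s0_aff A hU (-1) (a - 2 * ε))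
  have hq := A.s0_compU hψ (s0_aff A hV (-1) (b - 2 * ε))
  have hl := A.lip_glob D ht (A.s0_sub hp hq) (fun z => by
    rw [A.gam_sub ht hp hq (A.s0_sub hp hq), A.gam_sub' ht hp hq hp, A.gam_sub' ht hp hq hq,
      gam_psi2 A ht hU hψ, gam_psi2 A ht hV hψ, gam_psi A ht hU hψ _ _ hq,
      gam_psi A ht hV hψ _ _ hp]
    have g1 := hψ1 (-1 * U z + (a - 2 * ε))
    have g2 := hψ1 (-1 * V z + (b - 2 * ε))
    by_cases hz : H.d t x z < a
    · have h1 : -1 * V z + (b - 2 * ε) ≤ 0 := by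
        have := hn z hz; have := abs_le.1 (hV2 z); linarith [this.1]
      rw [A.gam_symm t ht hU hq, gam_psi A ht hV hψ _ _ hU, hψ2 _ h1]
      have := hU1 z; have := A.gam_nonneg t ht hU z
      have h6 : deriv ψ (-1 * U z + (a - 2 * ε)) ^ 2 ≤ 1 := by nlinarith [g1.1, g1.2]
      nlinarith
    · have h1 : -1 * U z + (a - 2 * ε) ≤ 0 := by
        have := abs_le.1 (hU2 z); linarith [this.1, not_lt.1 hz]
      rw [A.gam_symm t ht hV hp, gam_psi A ht hU hψ _ _ hV, hψ2 _ h1]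
      have := hV1 z; have := A.gam_nonneg t ht hV z
      have h6 : deriv ψ (-1 * V z + (b - 2 * ε)) ^ 2 ≤ 1 := by nlinarith [g2.1, g2.2]
      nlinarith) x y
  have hx : b ≤ H.d t y x := hn x (by rw [D.self t ht]; exact ha)
  have hy : a ≤ H.d t x y := by
    by_contra hc
    have := hn y (not_le.1 hc)
    rw [D.self t ht] at this
    linarith
  have h1 := abs_le.1 (hU2 x)
  have h2 := abs_le.1 (hV2 y)
  have h3 := abs_le.1 (hU2 y)
  have h4 := abs_le.1 (hV2 x)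
  rw [D.self t ht] at h1 h2
  rw [hψ3 (-1 * U y + (a - 2 * ε)) (by linarith), hψ3 (-1 * V x + (b - 2 * ε)) (by linarith)] at hl
  have h5 := (hψ4 (-1 * U x + (a - 2 * ε))).1
  have h6 := (hψ4 (-1 * V y + (b - 2 * ε))).1
  have h7 := le_max_left (-1 * U x + (a - 2 * ε)) 0
  have h8 := le_max_left (-1 * V y + (b - 2 * ε)) 0
  have h9 := (abs_le.1 hl).1
  linarith

/-- a function with gradient at least one on a ball goes down by the radius -/
theorem descent (A : H.Alg) (D : H.Dist) {t : ℝ} (ht : t ∈ Ioo 0 H.T) {w : M → ℝ} (hw : H.S0 w)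
    {x : M} {r ε : ℝ} (hr : 0 < r) (hε : 0 < ε)
    (h : ∀ y, H.d t x y < r → 1 ≤ H.gam t w w y) : ∃ y, H.d t x y ≤ r ∧ w y ≤ w x - r + ε := by
  obtain ⟨κ, hκ0, hκ1, hκ2⟩ : ∃ κ : ℝ, 0 < κ ∧ κ < 1 ∧ (1 - κ) * r ≤ ε / 2 := by
    refine ⟨1 - min (1 / 2) (ε / (2 * r)), by linarith [min_le_left (1 / 2 : ℝ) (ε / (2 * r))],
      by linarith [lt_min (by norm_num : (0 : ℝ) < 1 / 2) (by positivity : 0 < ε / (2 * r))], ?_⟩
    have h1 := min_le_right (1 / 2 : ℝ) (ε / (2 * r))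
    have h2 : ε / (2 * r) * r = ε / 2 := by field_simp
    nlinarith
  obtain ⟨U, hU, hU1, hU2⟩ := D.approx t ht x (ε / 4) (by positivity)
  have hK : IsCompact {y | H.d t x y ≤ r} :=
    (isClosed_le (D.cont t ht x) continuous_const).isCompact
  have hF := A.s0_add hw (A.s0_cmul κ hU)
  obtain ⟨y, hy, hmin⟩ := hK.exists_isMinOn ⟨x, by simp [D.self t ht, hr.le]⟩
    (A.s0_cont hF).continuousOn
  refine ⟨y, hy, ?_⟩
  have hyr : ¬ H.d t x y < r := by
    intro hlt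
    have hloc : IsLocalMin (fun y => w y + κ * U y) y :=
      hmin.isLocalMin (mem_of_superset
        ((isOpen_lt (D.cont t ht x) continuous_const).mem_nhds hlt) fun z hz => show H.d t x z ≤ r from le_of_lt hz)
    have h1 := A.gam_eq_zero ht hF hw (A.at_min ht hF hloc).2
    rw [A.gam_add t ht hw (A.s0_cmul κ hU) hw, A.gam_cmul ht κ hU hw] at h1
    have h2 := A.gam_sq ht hU hw y
    have h3 := h y hlt
    have h4 := hU1 y
    have h5 : H.gam t U w y ^ 2 ≤ H.gam t w w y := by nlinarith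
    have h6 : H.gam t w w y ^ 2 = κ ^ 2 * H.gam t U w y ^ 2 := by
      rw [show H.gam t w w y = -(κ * H.gam t U w y) by linarith]; ring
    have h7 : κ ^ 2 < 1 := by nlinarith
    nlinarith [sq_nonneg (H.gam t U w y)]
  have h1 : w y + κ * U y ≤ w x + κ * U x := hmin (by simp [D.self t ht, hr.le])
  have h2 := abs_le.1 (hU2 x)
  have h3 := abs_le.1 (hU2 y)
  rw [D.self t ht] at h2
  have h4 : r ≤ H.d t x y := not_lt.1 hyr
  nlinarith

/-- Lipschitz bound on a ball, with a constant -/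
theorem lip_ball (A : H.Alg) (D : H.Dist) {t : ℝ} (ht : t ∈ Ioo 0 H.T) {u : M → ℝ} (hu : H.S0 u)
    {x y : M} {r L : ℝ} (hL : 0 < L) (h : ∀ z, H.d t x z < r → H.gam t u u z ≤ L ^ 2)
    (hy : H.d t x y < r) : |u y - u x| ≤ L * H.d t x y := by
  have h1 := D.lip t ht (s0_aff A hu L⁻¹ 0) (fun z hz => by
    rw [gam_aff2 A ht hu, inv_pow]
    exact (inv_mul_le_one₀ (by positivity)).2 (h z hz)) hy
  have e : L⁻¹ * u y + 0 - (L⁻¹ * u x + 0) = L⁻¹ * (u y - u x) := by ring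
  rw [e, abs_mul, abs_of_pos (inv_pos.2 hL)] at h1
  exact (inv_mul_le_iff₀ hL).1 h1

end Crest.Agent.N207.Ge

end
end

-- ▼ part N207/G/EnB
section

/-!
# Row 207, block G, entropy half (helper23): Gronwall, weights, global heat estimates
-/

set_option autoImplicit false
set_option linter.dupNamespace false
set_option linter.unusedSectionVars false
open Set MeasureTheory Filter Topology
open scoped ContDiff

noncomputable section

namespace Crest.Agent.N207.Ge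

open HC

/-- Gronwall with a second quantity that pays the source `p` -/
theorem gron {y y' g g' p q : ℝ → ℝ} {a b k K m e : ℝ} (hk : 0 ≤ k) (hK : 0 ≤ K)
    (hm : 0 ≤ m) (he : 0 ≤ e)
    (hy : ∀ t ∈ Icc a b, HasDerivWithinAt y (y' t) (Icc a b) t)
    (hg : ∀ t ∈ Icc a b, HasDerivWithinAt g (g' t) (Icc a b) t)
    (y0 : ∀ t ∈ Icc a b, 0 ≤ y t) (g0 : ∀ t ∈ Icc a b, 0 ≤ g t) (p0 : ∀ t ∈ Icc a b, 0 ≤ p t)
    (q0 : ∀ t ∈ Icc a b, 0 ≤ q t)
    (h1 : ∀ t ∈ Icc a b, y' t ≤ k * y t + m * p t + e - q t)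
    (h2 : ∀ t ∈ Icc a b, g' t ≤ K * g t - 2 * p t) :
    (∀ t ∈ Icc a b, y t ≤ Real.exp (k * (b - a)) *
      (y a + m * Real.exp (K * (b - a)) * g a + e * (b - a))) ∧
    ∀ a1, a ≤ a1 → a1 < b → ∃ t ∈ Icc a1 b, (b - a1) * q t ≤ Real.exp (k * (b - a)) *
      (y a + m * Real.exp (K * (b - a)) * g a + 2 * e * (b - a)) := by
  set Φ : ℝ → ℝ := fun t => Real.exp (-k * (t - a)) * y t + m * Real.exp (K * (b - t)) * g t -
    e * (t - a) with hΦ
  have hd : ∀ t ∈ Icc a b, HasDerivWithinAt Φ (Real.exp (-k * (t - a)) * (y' t - k * y t) +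
      m * Real.exp (K * (b - t)) * (g' t - K * g t) - e) (Icc a b) t := by
    intro t ht
    have e1 : HasDerivAt (fun t => Real.exp (-k * (t - a))) (Real.exp (-k * (t - a)) * (-k)) t := by
      simpa using (((hasDerivAt_id t).sub_const a).const_mul (-k)).exp
    have e2 : HasDerivAt (fun t => m * Real.exp (K * (b - t)))
        (m * (Real.exp (K * (b - t)) * (-K))) t := by
      simpa using ((((hasDerivAt_id t).const_sub b).const_mul K).exp).const_mul m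
    have e3 : HasDerivAt (fun t => e * (t - a)) e t := by
      simpa using ((hasDerivAt_id t).sub_const a).const_mul e
    refine (((e1.hasDerivWithinAt.mul (hy t ht)).add (e2.hasDerivWithinAt.mul (hg t ht))).sub
      e3.hasDerivWithinAt).congr_deriv ?_
    ring
  have hb : ∀ t ∈ Icc a b, Real.exp (-k * (t - a)) * (y' t - k * y t) +
      m * Real.exp (K * (b - t)) * (g' t - K * g t) - e ≤ -(Real.exp (-k * (b - a)) * q t) := by
    intro t ht
    have a1 : Real.exp (-k * (t - a)) ≤ 1 := Real.exp_le_one_iff.2 (by nlinarith [ht.1])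
    have a2 : 1 ≤ Real.exp (K * (b - t)) := Real.one_le_exp (by nlinarith [ht.2])
    have a3 : Real.exp (-k * (b - a)) ≤ Real.exp (-k * (t - a)) :=
      Real.exp_le_exp.2 (by nlinarith [ht.2])
    have a4 := Real.exp_pos (-k * (t - a))
    have a5 : Real.exp (-k * (t - a)) * (y' t - k * y t) ≤
        Real.exp (-k * (t - a)) * (m * p t + e - q t) :=
      mul_le_mul_of_nonneg_left (by linarith [h1 t ht]) a4.le
    have a6 : m * Real.exp (K * (b - t)) * (g' t - K * g t) ≤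
        m * Real.exp (K * (b - t)) * (-2 * p t) :=
      mul_le_mul_of_nonneg_left (by linarith [h2 t ht]) (by positivity)
    have a7 := mul_nonneg hm (p0 t ht)
    have a8 := q0 t ht
    nlinarith [mul_nonneg (sub_nonneg.2 a1) a7, mul_nonneg (sub_nonneg.2 a2) a7,
      mul_nonneg (sub_nonneg.2 a1) he, mul_nonneg (sub_nonneg.2 a3) a8]
  have hanti := anti_of_deriv hd fun t ht => (hb t (Ioo_subset_Icc_self ht)).trans
    (neg_nonpos.2 (mul_nonneg (Real.exp_pos _).le (q0 t (Ioo_subset_Icc_self ht))))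
  have hΦa : Φ a = y a + m * Real.exp (K * (b - a)) * g a := by simp [hΦ]
  have hee : Real.exp (k * (b - a)) * Real.exp (-k * (b - a)) = 1 := by
    rw [← Real.exp_add]; simp
  refine ⟨fun t ht => ?_, fun a1 ha1 hb1 => ?_⟩
  · have h3 : Φ t ≤ Φ a := hanti (left_mem_Icc.2 (ht.1.trans ht.2)) ht ht.1
    have h4 : 0 ≤ m * Real.exp (K * (b - t)) * g t := mul_nonneg (by positivity) (g0 t ht)
    have h5 : Real.exp (-k * (b - a)) * y t ≤ Real.exp (-k * (t - a)) * y t :=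
      mul_le_mul_of_nonneg_right (Real.exp_le_exp.2 (by nlinarith [ht.2])) (y0 t ht)
    have h6 : Real.exp (-k * (b - a)) * y t ≤
        y a + m * Real.exp (K * (b - a)) * g a + e * (b - a) := by
      rw [hΦa] at h3
      simp only [hΦ] at h3
      nlinarith [ht.2]
    calc y t = Real.exp (k * (b - a)) * (Real.exp (-k * (b - a)) * y t) := by
          rw [← mul_assoc, hee, one_mul]
      _ ≤ _ := mul_le_mul_of_nonneg_left h6 (Real.exp_pos _).le
  · have hsub : Icc a1 b ⊆ Icc a b := Icc_subset_Icc_left ha1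
    obtain ⟨t, ht, hts⟩ := exists_hasDerivAt_eq_slope Φ _ hb1
      (fun t ht => ((hd t (hsub ht)).continuousWithinAt).mono hsub)
      (fun t ht => (hd t (hsub (Ioo_subset_Icc_self ht))).hasDerivAt
        (Icc_mem_nhds (lt_of_le_of_lt ha1 ht.1) ht.2))
    refine ⟨t, Ioo_subset_Icc_self ht, ?_⟩
    have ht' := hsub (Ioo_subset_Icc_self ht)
    have hb' : b ∈ Icc a b := right_mem_Icc.2 (ha1.trans hb1.le)
    have h3 := hb t ht'
    rw [hts, div_le_iff₀ (by linarith)] at h3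
    have h4 : Φ a1 ≤ Φ a := hanti (left_mem_Icc.2 (ha1.trans hb1.le)) ⟨ha1, hb1.le⟩ ha1
    have h5 : -(e * (b - a)) ≤ Φ b := by
      have := mul_nonneg (Real.exp_pos (-k * (b - a))).le (y0 b hb')
      have := mul_nonneg (by positivity : 0 ≤ m * Real.exp (K * (b - b))) (g0 b hb')
      simp only [hΦ]
      linarith
    have h6 : Real.exp (-k * (b - a)) * ((b - a1) * q t) ≤
        y a + m * Real.exp (K * (b - a)) * g a + 2 * e * (b - a) := by
      have := mul_nonneg he (sub_nonneg.2 (ha1.trans hb1.le))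
      rw [hΦa] at h4
      nlinarith
    calc (b - a1) * q t = Real.exp (k * (b - a)) * (Real.exp (-k * (b - a)) * ((b - a1) * q t)) := by
          rw [← mul_assoc, hee, one_mul]
      _ ≤ _ := mul_le_mul_of_nonneg_left h6 (Real.exp_pos _).le

/-- the one-dimensional weight: a plateau, exponential decay and a cutoff -/
theorem exists_weight : ∃ K : ℝ, 0 < K ∧ ∀ r l lam : ℝ, 0 < l → 0 ≤ lam → ∃ Ξ : ℝ → ℝ,
    ContDiff ℝ ∞ Ξ ∧ (∀ x, 0 ≤ Ξ x ∧ Ξ x ≤ 1) ∧ (∀ x ≤ r + l / 16, Ξ x = 1) ∧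
      (∀ x, r + 3 * l / 4 ≤ x → Ξ x = 0) ∧ (∀ x, r + 3 * l / 4 < x → deriv Ξ x = 0) ∧
      ∀ x, deriv Ξ x ^ 2 ≤ 2 * lam ^ 2 * Ξ x ^ 2 + K / l ^ 2 * Real.exp (-(lam * l / 2)) := by
  obtain ⟨K, hK, hK1, -⟩ := E.zeta_bounds
  refine ⟨32 * K ^ 2 + 1, by positivity, fun r l lam hl hlam => ?_⟩
  obtain ⟨ψ, hψ, hψ1, hψ2, hψ3, hψ4⟩ := Dist.exists_psi (ε := l / 16) (by positivity)
  have c1 : ContDiff ℝ ∞ fun x : ℝ => E.zeta (4 / l * (x - r) - 1) :=
    E.zeta_cd.comp (by fun_prop)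
  have c2 : ContDiff ℝ ∞ fun x : ℝ => Real.exp (-lam * ψ (x - (r + l / 16))) :=
    (contDiff_const.mul (hψ.comp (by fun_prop))).exp
  have hz : ∀ x, r + 3 * l / 4 ≤ x → E.zeta (4 / l * (x - r) - 1) = 0 := fun x hx => by
    refine E.zeta_zero ?_
    have : 4 / l * (3 * l / 4) ≤ 4 / l * (x - r) :=
      mul_le_mul_of_nonneg_left (by linarith) (by positivity)
    have e : 4 / l * (3 * l / 4) = 3 := by field_simp
    linarith
  have hp0 : ∀ x, 0 ≤ ψ x := fun x => by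
    rcases le_total x 0 with h | h
    · rw [hψ3 x h]
    · have hm : Monotone ψ := monotone_of_deriv_nonneg (hψ.differentiable (by simp))
        fun s => (hψ1 s).1
      have := hm h
      rwa [hψ3 0 le_rfl] at this
  have he1 : ∀ x, Real.exp (-lam * ψ x) ≤ 1 := fun x =>
    Real.exp_le_one_iff.2 (by nlinarith [hp0 x])
  have hd : ∀ x, HasDerivAt (fun x : ℝ => E.zeta (4 / l * (x - r) - 1) *
      Real.exp (-lam * ψ (x - (r + l / 16))))
      (deriv E.zeta (4 / l * (x - r) - 1) * (4 / l) * Real.exp (-lam * ψ (x - (r + l / 16))) +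
        E.zeta (4 / l * (x - r) - 1) * (Real.exp (-lam * ψ (x - (r + l / 16))) *
          (-lam * deriv ψ (x - (r + l / 16))))) x := by
    intro x
    have a1 : HasDerivAt (fun x : ℝ => 4 / l * (x - r) - 1) (4 / l) x := by
      simpa using (((hasDerivAt_id x).sub_const r).const_mul (4 / l)).sub_const 1
    have a2 := ((E.zeta_cd.differentiable (by simp)) (4 / l * (x - r) - 1)).hasDerivAt.comp x a1
    have a3 := (((hψ.differentiable (by simp)) (x - (r + l / 16))).hasDerivAt.comp x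
      ((hasDerivAt_id x).sub_const (r + l / 16)))
    have a4 := (a3.const_mul (-lam)).exp
    refine (a2.mul a4).congr_deriv ?_
    simp
  refine ⟨_, c1.mul c2, fun x => ⟨mul_nonneg (E.zeta_nonneg _) (Real.exp_pos _).le,
    mul_le_one₀ (E.zeta_le_one _) (Real.exp_pos _).le (he1 _)⟩, fun x hx => ?_,
    fun x hx => by simp only [hz x hx, zero_mul], fun x hx => ?_, fun x => ?_⟩
  · have : 4 / l * (x - r) ≤ 4 / l * (l / 16) :=
      mul_le_mul_of_nonneg_left (by linarith) (by positivity)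
    have e : 4 / l * (l / 16) = 1 / 4 := by field_simp; norm_num
    rw [E.zeta_one (by linarith), hψ3 _ (by linarith)]
    simp
  · have : (fun x : ℝ => E.zeta (4 / l * (x - r) - 1) * Real.exp (-lam * ψ (x - (r + l / 16))))
        =ᶠ[𝓝 x] fun _ => 0 :=
      (lt_mem_nhds hx).mono fun y hy => by simp only [hz y hy.le, zero_mul]
    rw [this.deriv_eq, deriv_const]
  · rw [(hd x).deriv]
    set Z := E.zeta (4 / l * (x - r) - 1)
    set Z' := deriv E.zeta (4 / l * (x - r) - 1) with hZ'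
    set X := Real.exp (-lam * ψ (x - (r + l / 16))) with hX
    set p := deriv ψ (x - (r + l / 16))
    have hp : p ^ 2 ≤ 1 := by have := hψ1 (x - (r + l / 16)); nlinarith [this.1, this.2]
    have b1 : (Z' * (4 / l) * X) ^ 2 ≤ 16 * K ^ 2 / l ^ 2 * Real.exp (-(lam * l / 2)) := by
      by_cases hx : x < r + l / 2
      · have : Z' = 0 := (E.deriv_vanish (fun s hs => E.zeta_one hs.le)
          (fun s hs => E.zeta_zero hs.le)).1 _ (by
            have : 4 / l * (x - r) < 4 / l * (l / 2) :=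
              mul_lt_mul_of_pos_left (by linarith) (by positivity)
            have e : 4 / l * (l / 2) = 2 := by field_simp; norm_num
            linarith)
        rw [this]
        simp only [zero_mul, ne_eq, OfNat.ofNat_ne_zero, not_false_eq_true, zero_pow]
        positivity
      · have h1 : l / 4 ≤ ψ (x - (r + l / 16)) := by
          have := (hψ4 (x - (r + l / 16))).1
          have := le_max_left (x - (r + l / 16)) 0
          linarith [not_lt.1 hx]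
        have h2 : X ^ 2 ≤ Real.exp (-(lam * l / 2)) := by
          rw [hX, sq, ← Real.exp_add]
          exact Real.exp_le_exp.2 (by nlinarith)
        have h3 : Z' ^ 2 ≤ K ^ 2 := sq_le_sq' (abs_le.1 (hK1 _)).1 (abs_le.1 (hK1 _)).2
        have e : (Z' * (4 / l) * X) ^ 2 = 16 * Z' ^ 2 / l ^ 2 * X ^ 2 := by field_simp; ring
        rw [e]
        gcongr
    have b2 : (Z * (X * (-lam * p))) ^ 2 ≤ lam ^ 2 * (Z * X) ^ 2 := by
      have e : (Z * (X * (-lam * p))) ^ 2 = lam ^ 2 * (Z * X) ^ 2 * p ^ 2 := by ring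
      rw [e]
      exact mul_le_of_le_one_right (by positivity) hp
    have b3 : 2 * (16 * K ^ 2 / l ^ 2 * Real.exp (-(lam * l / 2))) ≤
        (32 * K ^ 2 + 1) / l ^ 2 * Real.exp (-(lam * l / 2)) := by
      have e : 2 * (16 * K ^ 2 / l ^ 2 * Real.exp (-(lam * l / 2))) =
          32 * K ^ 2 / l ^ 2 * Real.exp (-(lam * l / 2)) := by ring
      rw [e]
      gcongr
      linarith
    nlinarith [sq_nonneg (Z' * (4 / l) * X - Z * (X * (-lam * p)))]

variable {M : Type*} [TopologicalSpace M] [CompactSpace M] [MeasurableSpace M]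
  [OpensMeasurableSpace M] {H : HC M}

theorem int_add (A : H.Alg) (I : H.Intg) {t : ℝ} (ht : t ∈ Ioo 0 H.T) {u v : M → ℝ}
    (hu : H.S0 u) (hv : H.S0 v) :
    ∫ x, (u x + v x) ∂H.vol t = ∫ x, u x ∂H.vol t + ∫ x, v x ∂H.vol t :=
  integral_add (A.integrable I ht hu) (A.integrable I ht hv)

theorem int_sub (A : H.Alg) (I : H.Intg) {t : ℝ} (ht : t ∈ Ioo 0 H.T) {u v : M → ℝ}
    (hu : H.S0 u) (hv : H.S0 v) :
    ∫ x, (u x - v x) ∂H.vol t = ∫ x, u x ∂H.vol t - ∫ x, v x ∂H.vol t :=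
  integral_sub (A.integrable I ht hu) (A.integrable I ht hv)

theorem int_mono (A : H.Alg) (I : H.Intg) {t : ℝ} (ht : t ∈ Ioo 0 H.T) {u v : M → ℝ}
    (hu : H.S0 u) (hv : H.S0 v) (h : ∀ x, u x ≤ v x) :
    ∫ x, u x ∂H.vol t ≤ ∫ x, v x ∂H.vol t :=
  integral_mono (A.integrable I ht hu) (A.integrable I ht hv) h

theorem dt_gam_heat (A : H.Alg) (E : H.Evo) {a b : ℝ} (hs : H.St a b) {u : ℝ → M → ℝ}
    (hu : H.Heat a b u) : HasDt a b (fun t => H.gam t (u t) (u t)) fun t x =>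
      H.lap t (H.gam t (u t) (u t)) x - 2 * H.hh t (u t) x :=
  (E.dt_gam hs hu.1 hu.2).congr_d fun t ht x => by
    simp only [sub_self]
    rw [A.gam_const' (hs.mem ht) 0 (A.sm_s0 hu.1 t ht)]
    ring

/-- reverse Bernstein estimate -/
theorem rev_bern (A : H.Alg) (E : H.Evo) {a b m : ℝ} (hs : H.St a b) {u : ℝ → M → ℝ}
    (hu : H.Heat a b u) (h0 : ∀ x, |u a x| ≤ m) :
    ∀ t ∈ Icc a b, ∀ x, 2 * (t - a) * H.gam t (u t) (u t) x + u t x ^ 2 ≤ m ^ 2 := by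
  have hg := A.sm_gam hs hu.1 hu.1
  have hc : H.Sm a b fun t (_ : M) => 2 * (t - a) := A.sm_timeU (by fun_prop)
  have hf := A.sm_add (A.sm_mul hc hg) (A.sm_mul hu.1 hu.1)
  have hd := ((HasDt.time (M := M) (a := a) (b := b) (c := fun t => 2 * (t - a)) (c' := fun _ => 2)
    fun t _ => by simpa using ((hasDerivAt_id t).sub_const a).const_mul 2).mul
    (dt_gam_heat A E hs hu)).add (hu.2.mul hu.2)
  have := A.sub_le hs hf hd (m := m ^ 2) (c := 0) (fun x => by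
    have := h0 x
    have := abs_nonneg (u a x)
    have := sq_abs (u a x)
    simp only [sub_self, mul_zero, zero_mul, zero_add]
    nlinarith) (fun t ht x => by
    have ht' := Ioc_subset_Icc_self ht
    have htm := hs.mem ht'
    have hut := A.sm_s0 hu.1 t ht'
    have hgt := A.s0_gam htm hut hut
    rw [A.lap_add t htm (A.s0_cmul _ hgt) (A.s0_mul hut hut), A.lap_cmul htm _ hgt,
      A.lap_mul t htm hut hut]
    have := mul_nonneg (sub_nonneg.2 ht.1.le) (E.hh_nonneg t htm hut x)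
    nlinarith)
  intro t ht x
  have h1 := this t ht x
  simp only [zero_mul, add_zero] at h1
  nlinarith

/-- the global Bochner inequality -/
theorem int_gam_dt (A : H.Alg) (I : H.Intg) (E : H.Evo) {a b K : ℝ} (hs : H.St a b)
    (hK : ∀ t ∈ Ioo 0 H.T, ∀ x, |H.R t x| ≤ K) {u : ℝ → M → ℝ} (hu : H.Heat a b u) :
    ∃ g' : ℝ → ℝ, (∀ t ∈ Icc a b, HasDerivWithinAt
      (fun t => ∫ x, H.gam t (u t) (u t) x ∂H.vol t) (g' t) (Icc a b) t) ∧
      ∀ t ∈ Icc a b, g' t ≤ K * ∫ x, H.gam t (u t) (u t) x ∂H.vol t -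
        2 * ∫ x, H.hh t (u t) x ∂H.vol t := by
  refine ⟨_, I.int_dt hs (A.sm_gam hs hu.1 hu.1) (dt_gam_heat A E hs hu), fun t ht => ?_⟩
  have htm := hs.mem ht
  have hut := A.sm_s0 hu.1 t ht
  have hgt := A.s0_gam htm hut hut
  have i1 := A.integrable I htm (A.s0_lap htm hgt)
  have i2 := A.integrable I htm (A.s0_hh htm hut)
  have i3 := A.integrable I htm hgt
  have h1 : ∫ x, (H.lap t (H.gam t (u t) (u t)) x - 2 * H.hh t (u t) x -
      H.R t x * H.gam t (u t) (u t) x) ∂H.vol t ≤ ∫ x, (H.lap t (H.gam t (u t) (u t)) x +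
      (K * H.gam t (u t) (u t) x - 2 * H.hh t (u t) x)) ∂H.vol t := by
    refine integral_mono ((i1.sub (i2.const_mul 2)).sub (A.integrable I htm
      (A.s0_mul (A.s0_R htm) hgt))) (i1.add ((i3.const_mul K).sub (i2.const_mul 2))) fun x => ?_
    have := A.gam_nonneg t htm hut x
    have := (abs_le.1 (hK t htm x)).1
    simp only
    nlinarith
  rw [int_add A I htm (A.s0_lap htm hgt) (A.s0_sub (A.s0_cmul K hgt)
    (A.s0_cmul 2 (A.s0_hh htm hut))), I.int_lap t htm hgt,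
    integral_sub (i3.const_mul K) (i2.const_mul 2), integral_const_mul, integral_const_mul,
    zero_add] at h1
  exact h1

theorem int_nonneg' {μ : Measure M} {f : M → ℝ} (h : ∀ x, 0 ≤ f x) : 0 ≤ ∫ x, f x ∂μ :=
  integral_nonneg h

/-- the heat flow moves little in `L²` -/
theorem l2_move (A : H.Alg) (I : H.Intg) (E : H.Evo) {a b K : ℝ} (hs : H.St a b) (hK0 : 0 ≤ K)
    (hK : ∀ t ∈ Ioo 0 H.T, ∀ x, |H.R t x| ≤ K) (hb : b - a ≤ 1) {u : ℝ → M → ℝ}
    (hu : H.Heat a b u) : ∀ t ∈ Icc a b, ∫ x, (u t x - u a x) ^ 2 ∂H.vol t ≤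
      4 * Real.exp (1 + 2 * K) * (b - a) * ∫ x, H.gam a (u a) (u a) x ∂H.vol a := by
  obtain ⟨g', hg1, hg2⟩ := int_gam_dt A I E hs hK hu
  have hab := sub_pos.2 hs.2.1
  have ha : a ∈ Icc a b := left_mem_Icc.2 hs.2.1.le
  have hua := A.sm_s0 hu.1 a ha
  have hw := A.sm_sub hu.1 (A.sm_static (a := a) (b := b) hua)
  have hd := (hu.2.sub (HasDt.static (u a))).mul (hu.2.sub (HasDt.static (u a)))
  have hy := I.int_dt hs (A.sm_mul hw hw) hd
  have key := (gron (k := (b - a)⁻¹ + K) (m := 4 * (b - a)) (e := 0) (q := fun _ => 0)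
    (p := fun t => ∫ x, H.hh t (u t) x ∂H.vol t) (by positivity) hK0 (by positivity) le_rfl hy hg1
    (fun t _ => int_nonneg' fun x => mul_self_nonneg _)
    (fun t ht => int_nonneg' fun x => A.gam_nonneg t (hs.mem ht) (A.sm_s0 hu.1 t ht) x)
    (fun t ht => int_nonneg' fun x => E.hh_nonneg t (hs.mem ht) (A.sm_s0 hu.1 t ht) x)
    (fun _ _ => le_rfl) (fun t ht => ?_) hg2).1
  · intro t ht
    have h1 := key t ht
    simp only [sub_self, mul_zero, integral_zero, zero_add, zero_mul, add_zero] at h1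
    simp only [sq]
    refine h1.trans ?_
    have h2 : 0 ≤ ∫ x, H.gam a (u a) (u a) x ∂H.vol a :=
      int_nonneg' fun x => A.gam_nonneg a (hs.mem ha) hua x
    have h3 : Real.exp (((b - a)⁻¹ + K) * (b - a)) * Real.exp (K * (b - a)) ≤
        Real.exp (1 + 2 * K) := by
      rw [← Real.exp_add]
      refine Real.exp_le_exp.2 ?_
      rw [add_mul, inv_mul_cancel₀ hab.ne']
      nlinarith
    calc _ = 4 * (Real.exp (((b - a)⁻¹ + K) * (b - a)) * Real.exp (K * (b - a))) * (b - a) *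
          ∫ x, H.gam a (u a) (u a) x ∂H.vol a := by ring
      _ ≤ _ := by gcongr
  · have htm := hs.mem ht
    have hut := A.sm_s0 hu.1 t ht
    have hwt := A.s0_sub hut hua
    have i1 := A.integrable I htm (A.s0_mul hwt hwt)
    have i2 := A.integrable I htm (A.s0_hh htm hut)
    have hl := A.s0_sub (A.s0_lap htm hut) (A.s0_const 0)
    rw [← integral_const_mul, ← integral_const_mul, ← integral_add (i1.const_mul _)
      (i2.const_mul _), add_zero, sub_zero]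
    refine integral_mono (A.integrable I htm (A.s0_sub (A.s0_add (A.s0_mul hl hwt)
      (A.s0_mul hwt hl)) (A.s0_mul (A.s0_R htm) (A.s0_mul hwt hwt))))
      ((i1.const_mul _).add (i2.const_mul _)) fun x => ?_
    have h1 := E.lap_sq t htm hut x
    have h2 := (abs_le.1 (hK t htm x)).1
    set w := u t x - u a x
    set l := H.lap t (u t) x
    have h3 : 2 * l * w ≤ (b - a)⁻¹ * (w * w) + (b - a) * l ^ 2 := by
      have h4 : 0 ≤ (b - a)⁻¹ * (w - (b - a) * l) ^ 2 := by positivity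
      have e : (b - a)⁻¹ * (w - (b - a) * l) ^ 2 =
          (b - a)⁻¹ * (w * w) + (b - a) * l ^ 2 - 2 * l * w := by field_simp; ring
      linarith
    have h5 := mul_le_mul_of_nonneg_left h1 hab.le
    have h6 := mul_self_nonneg w
    simp only
    nlinarith

end Crest.Agent.N207.Ge

end
end

-- ▼ part N207/G/EnC
section

/-!
# Row 207, block G, entropy half (helper23): the Hessian of the smoothed potential
-/

set_option autoImplicit false
set_option linter.dupNamespace false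
set_option linter.unusedSectionVars false
open Set MeasureTheory Filter Topology
open scoped ContDiff

noncomputable section

namespace Crest.Agent.N207.Ge

open HC

variable {M : Type*} [TopologicalSpace M] [CompactSpace M] [MeasurableSpace M]
  [OpensMeasurableSpace M] {H : HC M}

/-- the data of the smoothing step -/
structure HD (H : HC M) (t s σ θ F B δ η : ℝ) (χ : M → ℝ) (u : ℝ → M → ℝ) : Prop where
  st : H.St (t - 2 * s ^ 2) t
  s0 : 0 < s
  s1 : s ≤ 1 / 2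
  σ1 : σ ∈ Icc (t - 2 * s ^ 2) (t - s ^ 2)
  θ0 : 0 < θ
  θ1 : θ ≤ 1 / 2
  heat : H.Heat σ (σ + θ * s ^ 2) u
  δ0 : 0 ≤ δ
  δ1 : δ ≤ 1 / 4
  η0 : 0 ≤ η
  reg : H.Reg t s B δ {x | χ x ≠ 0}
  sχ : H.S0 χ
  χ0 : ∀ x, 0 ≤ χ x
  bd : ∀ x, |u σ x| ≤ F * s ^ 2
  en : ∫ x, H.gam σ (u σ) (u σ) x ∂H.vol σ ≤ F * s ^ 6
  vol : ∀ r ∈ Icc (t - 2 * s ^ 2) t, ∫ x, χ x ∂H.vol r ≤ F * s ^ 4
  ini : ∀ φ : M → ℝ, H.S0 φ → (∀ x, 0 ≤ φ x ∧ φ x ≤ 1) →
    (∀ x, φ x ≠ 0 → χ =ᶠ[𝓝 x] fun _ => 1) →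
      ∫ x, φ x ^ 2 * H.Pc 2 σ (u σ) x ∂H.vol σ ≤ η * s ^ 4

/-- the third derivatives of a heat solution -/
structure HG (H : HC M) (C a b : ℝ) (u G P' : ℝ → M → ℝ) : Prop where
  sG : H.Sm a b G
  G0 : ∀ t ∈ Icc a b, ∀ x, 0 ≤ G t x
  ric : ∀ t ∈ Icc a b, ∀ x, H.N 0 t x * H.gam t (u t) (u t) x ≤
    C * (G t x + H.Q 0 t x * H.gam t (u t) (u t) x)
  kato : ∀ t ∈ Icc a b, ∀ x,
    H.gam t (H.Pc 2 t (u t)) (H.Pc 2 t (u t)) x ≤ 4 * H.Pc 2 t (u t) x * G t x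
  dP : HasDt a b (fun t => H.Pc 2 t (u t)) P'
  ev : ∀ t ∈ Icc a b, ∀ x, P' t x - H.lap t (H.Pc 2 t (u t)) x ≤ -2 * G t x +
    C * (√(H.N 0 t x) * H.Pc 2 t (u t) x + 2 * √(H.Q 0 t x) * √(H.Pc 2 t (u t) x))

theorem exists_HG (A : H.Alg) (He : H.Hes) : ∃ C, 0 ≤ C ∧ ∀ {a b : ℝ} {u : ℝ → M → ℝ},
    H.St a b → H.Heat a b u → ∃ G P', HG H C a b u G P' := by
  obtain ⟨C, hC0, hC⟩ := He.heat
  refine ⟨C, hC0, fun hs hu => ?_⟩
  obtain ⟨G, g1, g2, g3, g4⟩ := hC hs hu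
  obtain ⟨P', -, hP⟩ := A.sm_dt hs.2.1 (sm_Pc A hs hu.1 2)
  exact ⟨G, P', g1, g2, g3, (g4 2).1, hP, fun t ht x => by
    simpa using (g4 2).2 P' hP t ht x⟩

namespace HD

variable {t s σ θ F B δ η : ℝ} {χ : M → ℝ} {u : ℝ → M → ℝ}

theorem win (D : HD H t s σ θ F B δ η χ u) : σ < σ + θ * s ^ 2 ∧ σ + θ * s ^ 2 < t ∧
    θ * s ^ 2 ≤ 1 := by
  have := D.s0; have := D.θ0; have := D.θ1; have := D.s1; have := D.σ1.2
  have h : 0 < θ * s ^ 2 := by positivity
  refine ⟨by linarith, by nlinarith, by nlinarith⟩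

theorem st' (D : HD H t s σ θ F B δ η χ u) : H.St σ (σ + θ * s ^ 2) :=
  D.st.mono D.σ1.1 D.win.1 D.win.2.1.le

theorem sub (D : HD H t s σ θ F B δ η χ u) : Icc σ (σ + θ * s ^ 2) ⊆ Icc (t - 2 * s ^ 2) t :=
  Icc_subset_Icc D.σ1.1 D.win.2.1.le

theorem tm (D : HD H t s σ θ F B δ η χ u) : t ∈ Icc (t - 2 * s ^ 2) t :=
  right_mem_Icc.2 D.st.2.1.le

theorem kb (D : HD H t s σ θ F B δ η χ u) : δ / s ^ 2 * (t - (t - 2 * s ^ 2)) ≤ 1 / 2 := by
  have := D.s0
  have e : δ / s ^ 2 * (t - (t - 2 * s ^ 2)) = 2 * δ := by field_simp; ring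
  linarith [D.δ1]

theorem gam_cmp (A : H.Alg) (E : H.Evo) (D : HD H t s σ θ F B δ η χ u) {w : M → ℝ} (hw : H.S0 w)
    {x : M} (hx : χ x ≠ 0) {r r' : ℝ} (hr : r ∈ Icc (t - 2 * s ^ 2) t)
    (hr' : r' ∈ Icc (t - 2 * s ^ 2) t) : H.gam r w w x ≤ 4 * H.gam r' w w x :=
  Ge.gam_cmp A E D.st hw (fun ρ hρ => (D.reg ρ hρ x hx).2.1) D.kb hr hr'

theorem src (D : HD H t s σ θ F B δ η χ u) {x : M} (hx : χ x ≠ 0) {r P : ℝ}
    (hr : r ∈ Icc (t - 2 * s ^ 2) t) (hP : 0 ≤ P) :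
    √(H.N 0 r x) * P + 2 * √(H.Q 0 r x) * √P ≤ (B + 1) / s ^ 2 * P + δ / s ^ 2 := by
  obtain ⟨h1, h2, -⟩ := D.reg r hr x hx
  have hs := D.s0
  have h3 : 2 * √P ≤ P + 1 := by nlinarith [Real.sq_sqrt hP, sq_nonneg (√P - 1)]
  have h4 : √(H.Q 0 r x) * (2 * √P) ≤ δ / s ^ 2 * (P + 1) :=
    mul_le_mul h2 h3 (by positivity) (div_nonneg D.δ0 (by positivity))
  have h5 : δ / s ^ 2 * P ≤ 1 / s ^ 2 * P := by gcongr; linarith [D.δ1]
  have h6 := mul_le_mul_of_nonneg_right h1 hP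
  have e : (B + 1) / s ^ 2 * P = B / s ^ 2 * P + 1 / s ^ 2 * P := by ring
  nlinarith

/-- gradient bound in the second half of the window -/
theorem gam_le (A : H.Alg) (E : H.Evo) (D : HD H t s σ θ F B δ η χ u) {r : ℝ}
    (hr : r ∈ Icc (σ + θ * s ^ 2 / 2) (σ + θ * s ^ 2)) (x : M) :
    H.gam r (u r) (u r) x ≤ F ^ 2 / θ * s ^ 2 := by
  have hs := D.s0
  have hθ := D.θ0
  have h0 : 0 < θ * s ^ 2 := by positivity
  have hr' : r ∈ Icc σ (σ + θ * s ^ 2) := ⟨by linarith [hr.1], hr.2⟩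
  have h1 := rev_bern A E D.st' D.heat D.bd r hr' x
  have h2 := A.gam_nonneg r (D.st'.mem hr') (A.sm_s0 D.heat.1 r hr') x
  have h3 : θ * s ^ 2 * H.gam r (u r) (u r) x ≤ (F * s ^ 2) ^ 2 := by
    nlinarith [hr.1, sq_nonneg (u r x)]
  rw [div_mul_eq_mul_div, le_div_iff₀ hθ]
  have h4 : s ^ 2 * (H.gam r (u r) (u r) x * θ) ≤ s ^ 2 * (F ^ 2 * s ^ 2) := by nlinarith
  exact le_of_mul_le_mul_left h4 (by positivity)

end HD

theorem pw1 {φ c γ P G : ℝ} (γ0 : 0 ≤ γ) (p0 : 0 ≤ P) (g0 : 0 ≤ G)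
    (h3 : c ^ 2 ≤ γ * (4 * P * G)) : -(2 * φ * c) ≤ φ ^ 2 * G + 4 * γ * P := by
  have h2 : (2 * φ * c) ^ 2 ≤ (φ ^ 2 * G + 4 * γ * P) ^ 2 := by
    nlinarith [mul_le_mul_of_nonneg_left h3 (sq_nonneg φ), sq_nonneg (φ ^ 2 * G - 4 * γ * P)]
  exact (neg_le_abs _).trans (abs_le_of_sq_le_sq' h2 (by positivity) |> abs_le.2)

theorem pw2 {φ γ P a m hh d g g' : ℝ} (p0 : 0 ≤ P) (m0 : 0 ≤ m) (g0 : 0 ≤ g) (hγ : γ = d ^ 2 * g)
    (h1 : g ≤ 4 * g') (h2 : g' ≤ 1) (h3 : d ^ 2 ≤ 2 * a * φ ^ 2 + m)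
    (h4 : P ≤ 2 * hh + 8 * 2 ^ 2) :
    4 * γ * P ≤ 32 * a * (φ ^ 2 * P) + 32 * m * hh + 512 * m * 1 := by
  have h5 : γ ≤ 4 * (2 * a * φ ^ 2 + m) := by rw [hγ]; nlinarith [sq_nonneg d]
  nlinarith [mul_le_mul_of_nonneg_right h5 p0, mul_le_mul_of_nonneg_left h4 m0]

theorem pw3 {φ D G C S k1 k2 P : ℝ} (hC : 0 ≤ C) (hk2 : 0 ≤ k2) (φ0 : 0 ≤ φ) (φ1 : φ ≤ 1)
    (h1 : D ≤ -2 * G + C * S) (h2 : S ≤ k1 * P + k2) :
    φ ^ 2 * D ≤ -2 * (φ ^ 2 * G) + C * k1 * (φ ^ 2 * P) + C * k2 * 1 := by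
  have h3 : D ≤ -2 * G + C * (k1 * P + k2) := by nlinarith [mul_le_mul_of_nonneg_left h2 hC]
  have h4 := mul_le_mul_of_nonneg_left h3 (sq_nonneg φ)
  have h5 : φ ^ 2 ≤ 1 := by nlinarith
  nlinarith [mul_le_mul_of_nonneg_left h5 (mul_nonneg hC hk2)]

theorem pw4 {φ c γ P G l P' R χ hh a m k1 k2 K : ℝ} (p0 : 0 ≤ P) (hR : -K ≤ R)
    (b1 : -(2 * φ * c) ≤ φ ^ 2 * G + 4 * γ * P)
    (b2 : 4 * γ * P ≤ a * (φ ^ 2 * P) + 32 * m * hh + 512 * m * χ)
    (b3 : φ ^ 2 * (P' - l) ≤ -2 * (φ ^ 2 * G) + k1 * (φ ^ 2 * P) + k2 * χ) :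
    0 * P + φ ^ 2 * P' - R * (φ ^ 2 * P) ≤ φ ^ 2 * l + 2 * φ * c +
      ((a + k1 + K) * (φ ^ 2 * P) + 32 * m * hh + (512 * m + k2) * χ - φ ^ 2 * G) := by
  have b4 : 0 ≤ φ ^ 2 * P := by positivity
  nlinarith [mul_le_mul_of_nonneg_right hR b4]

set_option maxHeartbeats 1000000 in
/-- the weighted energy estimate for `|Hess u - 2 g|²` -/
theorem wen (h : H.Ok) {C F B l : ℝ} (hC : 0 ≤ C) (hF : 0 ≤ F) (hB : 0 ≤ B) (hl : 0 < l) :
    ∃ F', 1 ≤ F' ∧ ∀ {t s σ θ δ η : ℝ} {χ : M → ℝ} {u G P' : ℝ → M → ℝ},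
      HD H t s σ θ F B δ η χ u → HG H C σ (σ + θ * s ^ 2) u G P' → ∀ (x0 : M) (r : ℝ),
      (∀ y, H.d t x0 y < r + l * s → χ y = 1) →
      ∃ φ : M → ℝ, H.S0 φ ∧ (∀ x, 0 ≤ φ x ∧ φ x ≤ 1) ∧ (∀ x, H.d t x0 x < r → φ x = 1) ∧
        (∀ x, φ x ≠ 0 → χ x = 1) ∧
        (∀ ρ ∈ Icc σ (σ + θ * s ^ 2), ∫ x, φ x ^ 2 * H.Pc 2 ρ (u ρ) x ∂H.vol ρ ≤
          F' * (η + δ + Real.exp (-(l / (2 * √θ)))) * s ^ 4) ∧
        ∃ ρ ∈ Icc (σ + θ * s ^ 2 / 2) (σ + θ * s ^ 2), ∫ x, φ x ^ 2 * G ρ x ∂H.vol ρ ≤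
          F' * (η + δ + Real.exp (-(l / (2 * √θ)))) / θ * s ^ 2 := by
  have A := h.alg
  have I := h.int
  have E := h.evo
  obtain ⟨K, hK⟩ := E.R_bd
  obtain ⟨Kw, hKw, hW⟩ := exists_weight
  have hK' : ∀ t ∈ Ioo 0 H.T, ∀ x, |H.R t x| ≤ |K| := fun t ht x => (hK t ht x).trans (le_abs_self K)
  set k0 := 32 + C * (B + 1) + |K| with hk0
  set F1 := 1 + 32 * Kw / l ^ 2 * Real.exp |K| * F + 2 * (512 * Kw / l ^ 2 * F + C * F) with hF1
  have hF1' : 1 ≤ F1 := by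
    have : 0 ≤ 32 * Kw / l ^ 2 * Real.exp |K| * F + 2 * (512 * Kw / l ^ 2 * F + C * F) := by
      positivity
    linarith
  refine ⟨2 * Real.exp k0 * F1, by nlinarith [Real.one_le_exp (show 0 ≤ k0 by positivity)], ?_⟩
  intro t s σ θ δ η χ u G P' D g x0 r hχ
  have hs := D.s0
  have hθ := D.θ0
  have hδ := D.δ0
  have hη := D.η0
  have hsq : 0 < √θ := Real.sqrt_pos.2 hθ
  have htm := D.st.mem D.tm
  obtain ⟨U, hU, hU1, hU2⟩ := h.dist.approx t htm x0 (l * s / 16) (by positivity)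
  obtain ⟨Ξ, c1, c2, c3, c4, c5, c6⟩ := hW r (l * s) (1 / (√θ * s)) (by positivity) (by positivity)
  set X := Real.exp (-(l / (2 * √θ))) with hX
  have hX0 : 0 < X := Real.exp_pos _
  have eX : Real.exp (-(1 / (√θ * s) * (l * s) / 2)) = X := by
    rw [hX]; congr 2; field_simp
  have hlam : (1 / (√θ * s)) ^ 2 = 1 / (θ * s ^ 2) := by
    rw [div_pow, mul_pow, Real.sq_sqrt hθ.le, one_pow]
  rw [eX, hlam] at c6
  have hφ : H.S0 fun x => Ξ (U x) := A.s0_compU c1 hU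
  have hin : ∀ x, U x ≤ r + 3 * (l * s) / 4 → H.d t x0 x < r + l * s := fun x hx => by
    have := (abs_le.1 (hU2 x)).1
    have : 0 < l * s := by positivity
    linarith
  have hne : ∀ x, Ξ (U x) ≠ 0 → H.d t x0 x < r + l * s := fun x hx =>
    hin x (le_of_lt (not_le.1 fun hc => hx (c4 _ hc)))
  have hini := D.ini _ hφ (fun x => c2 _) fun x hx =>
    Filter.mem_of_superset ((isOpen_lt (h.dist.cont t htm x0) continuous_const).mem_nhds
      (hne x hx)) fun y hy => hχ y hy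
  have hφ2 := A.s0_pow 2 hφ
  have hsP := sm_Pc A D.st' D.heat.1 2
  have hy := I.int_dt D.st' (A.sm_mul (A.sm_static hφ2) hsP) ((HasDt.static _).mul g.dP)
  obtain ⟨g', hg1, hg2⟩ := int_gam_dt A I E D.st' hK' D.heat
  set m' := Kw / (l * s) ^ 2 * X with hm'
  have hm0 : 0 ≤ m' := by positivity
  set k := 32 / (θ * s ^ 2) + C * ((B + 1) / s ^ 2) + |K| with hk
  set e := (512 * m' + C * (δ / s ^ 2)) * (F * s ^ 4) with he
  have key := gron (k := k) (m := 32 * m') (e := e)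
    (q := fun ρ => ∫ x, Ξ (U x) ^ 2 * G ρ x ∂H.vol ρ)
    (p := fun ρ => ∫ x, H.hh ρ (u ρ) x ∂H.vol ρ) (by positivity) (abs_nonneg K) (by positivity)
    (by positivity) hy hg1
    (fun ρ hρ => int_nonneg' fun x => mul_nonneg (sq_nonneg _)
      (Pc_nonneg E (D.st'.mem hρ) (A.sm_s0 D.heat.1 ρ hρ) 2 x))
    (fun ρ hρ => int_nonneg' fun x => A.gam_nonneg ρ (D.st'.mem hρ) (A.sm_s0 D.heat.1 ρ hρ) x)
    (fun ρ hρ => int_nonneg' fun x => E.hh_nonneg ρ (D.st'.mem hρ) (A.sm_s0 D.heat.1 ρ hρ) x)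
    (fun ρ hρ => int_nonneg' fun x => mul_nonneg (sq_nonneg _) (g.G0 ρ hρ x))
    (fun ρ hρ => by
      have hm := D.st'.mem hρ
      have huρ := A.sm_s0 D.heat.1 ρ hρ
      have hP := s0_Pc A hm huρ 2
      have hG := A.sm_s0 g.sG ρ hρ
      have hP' := A.sm_s0 (A.sm_of_dt D.win.1 hsP g.dP) ρ hρ
      have hibp := I.ibp ρ hm hφ2 hP
      have s1 := A.s0_mul hφ2 (A.s0_lap hm hP)
      have s2 := A.s0_gam hm hφ2 hP
      have s3 := A.s0_cmul k (A.s0_mul hφ2 hP)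
      have s4 := A.s0_cmul (32 * m') (A.s0_hh hm huρ)
      have s5 := A.s0_cmul (512 * m' + C * (δ / s ^ 2)) D.sχ
      have s6 := A.s0_mul hφ2 hG
      have h1 := int_mono A I hm (A.s0_sub (A.s0_add (A.s0_mul (A.s0_const 0) hP)
        (A.s0_mul hφ2 hP')) (A.s0_mul (A.s0_R hm) (A.s0_mul hφ2 hP)))
        (A.s0_add (A.s0_add s1 s2) (A.s0_sub (A.s0_add (A.s0_add s3 s4) s5) s6)) fun x => by
          have p0 := Pc_nonneg E hm huρ 2 x
          have g0 := g.G0 ρ hρ x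
          have χ0 := D.χ0 x
          have hh0 := E.hh_nonneg ρ hm huρ x
          have hR := (abs_le.1 (hK' ρ hm x)).1
          have e1 : H.gam ρ (fun x => Ξ (U x) ^ 2) (H.Pc 2 ρ (u ρ)) x =
              2 * Ξ (U x) * H.gam ρ (fun x => Ξ (U x)) (H.Pc 2 ρ (u ρ)) x := by
            simp only [sq]
            rw [A.gam_mul ρ hm hφ hφ hP]
            ring
          rw [e1]
          have cs := A.gam_sq hm hφ hP x
          have γ0 := A.gam_nonneg ρ hm hφ x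
          refine pw4 p0 hR (pw1 γ0 p0 g0
            (cs.trans (mul_le_mul_of_nonneg_left (g.kato ρ hρ x) γ0))) ?_ ?_
          · by_cases hx : U x ≤ r + 3 * (l * s) / 4
            · have hχ1 := hχ x (hin x hx)
              have h2 := D.gam_cmp A E hU (x := x) (by rw [hχ1]; norm_num) (D.sub hρ) D.tm
              rw [hχ1, div_eq_mul_one_div 32]
              exact pw2 p0 hm0 (A.gam_nonneg ρ hm hU x) (A.gam_compU2 hm c1 hU x) h2 (hU1 x)
                (c6 (U x)) (Pc_le_hh E hm huρ 2 x)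
            · rw [A.gam_compU2 hm c1 hU, c5 _ (not_le.1 hx)]
              simp only [ne_eq, OfNat.ofNat_ne_zero, not_false_eq_true, zero_pow, zero_mul,
                mul_zero]
              positivity
          · by_cases hx : Ξ (U x) = 0
            · rw [hx]
              simp only [ne_eq, OfNat.ofNat_ne_zero, not_false_eq_true, zero_pow,
                zero_mul, mul_zero, add_zero, zero_add]
              positivity
            · have hχ1 := hχ x (hne x hx)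
              rw [hχ1]
              exact pw3 hC (by positivity) (c2 _).1 (c2 _).2 (g.ev ρ hρ x)
                (D.src (x := x) (by rw [hχ1]; norm_num) (D.sub hρ) p0)
      rw [int_add A I hm (A.s0_add s1 s2) (A.s0_sub (A.s0_add (A.s0_add s3 s4) s5) s6),
        int_add A I hm s1 s2, hibp, int_sub A I hm (A.s0_add (A.s0_add s3 s4) s5) s6,
        int_add A I hm (A.s0_add s3 s4) s5, int_add A I hm s3 s4, integral_const_mul,
        integral_const_mul, integral_const_mul] at h1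
      have h7 := mul_le_mul_of_nonneg_left (D.vol ρ (D.sub hρ))
        (show 0 ≤ 512 * m' + C * (δ / s ^ 2) by positivity)
      linarith) hg2
  have hw := D.win
  have e0 : σ + θ * s ^ 2 - σ = θ * s ^ 2 := by ring
  rw [e0] at key
  have hθs : 0 < θ * s ^ 2 := by positivity
  have hek : Real.exp (k * (θ * s ^ 2)) ≤ Real.exp k0 := by
    refine Real.exp_le_exp.2 ?_
    have e1 : k * (θ * s ^ 2) = 32 + C * (B + 1) * θ + |K| * (θ * s ^ 2) := by
      rw [hk]; field_simp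
    have := mul_le_mul_of_nonneg_left hw.2.2 (abs_nonneg K)
    have : C * (B + 1) * θ ≤ C * (B + 1) * 1 := by gcongr; linarith [D.θ1]
    linarith
  have heK : Real.exp (|K| * (θ * s ^ 2)) ≤ Real.exp |K| :=
    Real.exp_le_exp.2 (by nlinarith [abs_nonneg K, hw.2.2])
  have hg0 : 0 ≤ ∫ x, H.gam σ (u σ) (u σ) x ∂H.vol σ := int_nonneg' fun x =>
    A.gam_nonneg σ (D.st'.mem (left_mem_Icc.2 hw.1.le))
      (A.sm_s0 D.heat.1 σ (left_mem_Icc.2 hw.1.le)) x
  have he0 : 0 ≤ e := by positivity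
  have tot : ∫ x, Ξ (U x) ^ 2 * H.Pc 2 σ (u σ) x ∂H.vol σ + 32 * m' * Real.exp (|K| * (θ * s ^ 2)) *
      ∫ x, H.gam σ (u σ) (u σ) x ∂H.vol σ + 2 * e * (θ * s ^ 2) ≤ F1 * (η + δ + X) * s ^ 4 := by
    have a1 : 32 * m' * Real.exp (|K| * (θ * s ^ 2)) * ∫ x, H.gam σ (u σ) (u σ) x ∂H.vol σ ≤
        32 * m' * Real.exp |K| * (F * s ^ 6) := by gcongr; exact D.en
    have a2 : 2 * e * (θ * s ^ 2) ≤ 2 * e * (1 * s ^ 2) := by gcongr; linarith [D.θ1]
    have a3 : 32 * m' * Real.exp |K| * (F * s ^ 6) =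
        32 * Kw / l ^ 2 * Real.exp |K| * F * X * s ^ 4 := by rw [hm']; field_simp
    have a4 : 2 * e * (1 * s ^ 2) = 2 * (512 * Kw / l ^ 2 * F * X + C * F * δ) * s ^ 4 := by
      rw [he, hm']; field_simp
    have a5 : η + 32 * Kw / l ^ 2 * Real.exp |K| * F * X + 2 * (512 * Kw / l ^ 2 * F * X +
        C * F * δ) ≤ F1 * (η + δ + X) := by
      have b1 : 0 ≤ 32 * Kw / l ^ 2 * Real.exp |K| * F := by positivity
      have b2 : 0 ≤ 512 * Kw / l ^ 2 * F := by positivity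
      have b3 : 0 ≤ C * F := by positivity
      rw [hF1]
      nlinarith [mul_nonneg b1 hη, mul_nonneg b1 hδ, mul_nonneg b2 hη, mul_nonneg b2 hδ,
        mul_nonneg b3 hη, mul_nonneg b3 hX0.le]
    have a6 := mul_le_mul_of_nonneg_right a5 (by positivity : 0 ≤ s ^ 4)
    nlinarith
  have hpos : 0 ≤ F1 * (η + δ + X) * s ^ 4 := by positivity
  refine ⟨_, hφ, fun x => c2 _, fun x hx => c3 _ (by linarith [(abs_le.1 (hU2 x)).2]),
    fun x hx => hχ x (hne x hx), fun ρ hρ => ?_, ?_⟩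
  · refine (key.1 ρ hρ).trans ?_
    calc _ ≤ Real.exp k0 * (F1 * (η + δ + X) * s ^ 4) :=
          mul_le_mul hek (by nlinarith [mul_nonneg he0 hθs.le]) (by
            have := int_nonneg' (μ := H.vol σ) fun x => mul_nonneg (sq_nonneg (Ξ (U x)))
              (Pc_nonneg E (D.st'.mem (left_mem_Icc.2 hw.1.le))
                (A.sm_s0 D.heat.1 σ (left_mem_Icc.2 hw.1.le)) 2 x)
            positivity) (Real.exp_pos _).le
      _ ≤ _ := by nlinarith [mul_nonneg (Real.exp_pos k0).le hpos]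
  · obtain ⟨ρ, hρ, h1⟩ := key.2 (σ + θ * s ^ 2 / 2) (by linarith) (by linarith)
    refine ⟨ρ, hρ, ?_⟩
    have h2 := h1.trans (mul_le_mul hek tot (by
      have := int_nonneg' (μ := H.vol σ) fun x => mul_nonneg (sq_nonneg (Ξ (U x)))
        (Pc_nonneg E (D.st'.mem (left_mem_Icc.2 hw.1.le))
          (A.sm_s0 D.heat.1 σ (left_mem_Icc.2 hw.1.le)) 2 x)
      positivity) (Real.exp_pos _).le)
    rw [div_mul_eq_mul_div, le_div_iff₀ hθ]
    refine le_of_mul_le_mul_left (a := s ^ 2 / 2) ?_ (by positivity)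
    nlinarith

end Crest.Agent.N207.Ge

end
end

-- ▼ part N207/G/EnP
section

/-!
# Row 207, block G, entropy half (helper23): pointwise smallness of `Hess u - 2 g`
-/

set_option autoImplicit false
set_option linter.dupNamespace false
set_option linter.unusedSectionVars false
open Set MeasureTheory Filter Topology
open scoped ContDiff

noncomputable section

namespace Crest.Agent.N207.Ge

open HC

variable {M : Type*} [TopologicalSpace M] [CompactSpace M] [MeasurableSpace M]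
  [OpensMeasurableSpace M] {H : HC M}

theorem exists_uc (h : H.Ok) (hk : H.KerC) {t0 : ℝ} (h0 : 0 < t0) : ∃ C, 0 ≤ C ∧ H.UC t0 C := by
  obtain ⟨C, hC, hU⟩ := hk t0 h0
  exact ⟨C, hC.le, fun ha hs hv hp s hs' y =>
    ⟨h.alg.conj_nonneg h.evo hs hv hp s (Ico_subset_Icc_self hs') y, hU ha hs hv hp s hs' y⟩⟩

set_option maxHeartbeats 1000000 in
/-- mean value step: pointwise bound in the second half of the window -/
theorem pt1 (h : H.Ok) (hk : H.KerC) {t0 C F B l : ℝ} (h0 : 0 < t0) (hC : 0 ≤ C) (hF : 0 ≤ F)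
    (hB : 0 ≤ B) (hl : 0 < l) : ∃ F' θ0, 1 ≤ F' ∧ 0 < θ0 ∧
    ∀ {t s σ θ δ η : ℝ} {χ : M → ℝ} {u G P' : ℝ → M → ℝ}, HD H t s σ θ F B δ η χ u →
      HG H C σ (σ + θ * s ^ 2) u G P' → t0 ≤ t - 2 * s ^ 2 → θ ≤ θ0 → ∀ x0 : M,
      (∀ y, H.d t x0 y < l * s → χ y = 1) → ∀ ρ ∈ Icc (σ + θ * s ^ 2 / 2) (σ + θ * s ^ 2),
        H.Pc 2 ρ (u ρ) x0 ≤ F' * (η + δ + Real.exp (-(l / (4 * √θ)))) / θ ^ 2 := by
  have A := h.alg
  have I := h.int
  have E := h.evo
  obtain ⟨Cu, hCu, hU⟩ := exists_uc h hk h0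
  obtain ⟨Km, hKm, hmv⟩ := N207.E.mv A I h.solv hCu hU (Λ0 := C * (B + 2)) (by positivity)
  obtain ⟨C1, hC1, hlip⟩ := A.exists_lipheat E h.solv h.dist
  obtain ⟨F1, hF1, hw⟩ := wen h hC hF hB (half_pos hl)
  refine ⟨4 * Km * (F1 + F) + 1, (l / (8 * (4 + 2 * C1))) ^ 2, ?_, by positivity, ?_⟩
  · have : 0 ≤ 4 * Km * (F1 + F) := by positivity
    linarith
  intro t s σ θ δ η χ u G P' D g ht0 hθ0 x0 hχ ρ hρ
  have hs := D.s0
  have hθ := D.θ0
  have hδ := D.δ0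
  have hη := D.η0
  have hsq : 0 < √θ := Real.sqrt_pos.2 hθ
  have hθs : 0 < θ * s ^ 2 := by positivity
  have hsq1 : √θ ≤ l / (8 * (4 + 2 * C1)) := Real.sqrt_le_iff.2 ⟨by positivity, hθ0⟩
  have hsq2 : √(θ * s ^ 2) = √θ * s := by
    rw [Real.sqrt_mul hθ.le, Real.sqrt_sq hs.le]
  obtain ⟨φ, sφ, φ01, φ1, φχ, hE, -⟩ := hw D g x0 (l / 2 * s) fun y hy => hχ y (by linarith)
  have eX : l / 2 / (2 * √θ) = l / (4 * √θ) := by field_simp; norm_num
  rw [eX] at hE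
  set X := Real.exp (-(l / (4 * √θ)))
  have hX0 : 0 < X := Real.exp_pos _
  obtain ⟨w, w1, w2, -, -, w5, -⟩ := hlip D.st' x0 (√θ * s) (by positivity)
  have hσm : σ ∈ Icc (t - 2 * s ^ 2) t := ⟨D.σ1.1, by nlinarith [D.σ1.2]⟩
  have hsqle : ∀ r ∈ Icc σ (σ + θ * s ^ 2), √(r - σ) ≤ √θ * s := fun r hr => by
    rw [← hsq2]; exact Real.sqrt_le_sqrt (by linarith [hr.2])
  have hr4 : 4 * ((4 + 2 * C1) * (√θ * s)) ≤ l / 2 * s := by
    have h1 : 8 * (4 + 2 * C1) * √θ ≤ l := by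
      rwa [le_div_iff₀ (by positivity), mul_comm] at hsq1
    nlinarith
  have hφ : ∀ r ∈ Icc σ (σ + θ * s ^ 2), ∀ y, w r y ≤ (2 + C1) * (√θ * s) → φ y = 1 := by
    intro r hr y hy
    have h1 := (abs_le.1 (w5 r hr y)).1
    have h2 := mul_le_mul_of_nonneg_left (hsqle r hr) hC1.le
    have h3 : 0 < √θ * s := by positivity
    have h4 := ball_cmp A E h.dist D.st (ρ := (4 + 2 * C1) * (√θ * s)) hσm D.tm (by positivity)
      (fun z hz r' hr' => (D.reg r' hr' z (by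
        show χ z ≠ 0
        rw [hχ z (by nlinarith)]; norm_num)).2.1) D.kb (y := y) (by nlinarith)
    exact φ1 y (by nlinarith)
  have hsP := sm_Pc A D.st' D.heat.1 2
  have L : N207.E.Loc H σ (σ + θ * s ^ 2) ((2 + C1) * (√θ * s)) w (fun _ x => φ x ^ 2)
      (fun r x => H.Pc 2 r (u r) x + δ) (fun r x => P' r x + 0) G :=
    { st := D.st'
      heat := w1
      lip := w2
      sΦ := A.sm_static (A.s0_pow 2 sφ)
      Φ0 := fun _ _ _ => sq_nonneg _
      Φ1 := fun r hr y hy => by rw [hφ r hr y hy]; norm_num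
      sP := A.sm_add hsP (A.sm_const δ)
      dP := g.dP.add (HasDt.static fun _ => δ)
      P0 := fun r hr y => add_nonneg (Pc_nonneg E (D.st'.mem hr) (A.sm_s0 D.heat.1 r hr) 2 y) hδ
      G0 := g.G0
      kato := fun r hr y => by
        have hm := D.st'.mem hr
        have hP := s0_Pc A hm (A.sm_s0 D.heat.1 r hr) 2
        have e := gam_aff2 A hm hP 1 δ y
        simp only [one_mul, one_pow] at e
        rw [e]
        have := g.kato r hr y
        have := mul_nonneg hδ (g.G0 r hr y)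
        nlinarith }
  have key := hmv (Λ := C * ((B + 2) / s ^ 2)) L (by linarith [D.σ1.1]) (by positivity) (by
      have e : C * ((B + 2) / s ^ 2) * (σ + θ * s ^ 2 - σ) = C * (B + 2) * θ := by
        field_simp; ring
      rw [e]
      exact mul_le_of_le_one_right (by positivity) (by linarith [D.θ1]))
    (fun r hr y hy => by
      have hm := D.st'.mem hr
      have hur := A.sm_s0 D.heat.1 r hr
      have hP := s0_Pc A hm hur 2
      have p0 := Pc_nonneg E hm hur 2 y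
      have e := lap_aff A hm hP 1 δ y
      simp only [one_mul] at e
      rw [e]
      have h1 : χ y ≠ 0 := by rw [φχ y (by rw [hφ r hr y hy]; norm_num)]; norm_num
      have h2 := mul_le_mul_of_nonneg_left (D.src h1 (D.sub hr) p0) hC
      have h3 := g.ev r hr y
      have h4 : (B + 1) / s ^ 2 * H.Pc 2 r (u r) y + δ / s ^ 2 ≤
          (B + 2) / s ^ 2 * (H.Pc 2 r (u r) y + δ) := by
        have e1 : (B + 2) / s ^ 2 * (H.Pc 2 r (u r) y + δ) - ((B + 1) / s ^ 2 *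
          H.Pc 2 r (u r) y + δ / s ^ 2) = (H.Pc 2 r (u r) y + (B + 1) * δ) / s ^ 2 := by
          field_simp; ring
        have : 0 ≤ (H.Pc 2 r (u r) y + (B + 1) * δ) / s ^ 2 := by positivity
        linarith
      have h5 := mul_le_mul_of_nonneg_left h4 hC
      nlinarith)
    ρ ⟨by linarith [hρ.1], hρ.2⟩ x0 (√(θ / 2) * s) (by positivity) (by
      have hρ' : ρ ∈ Icc σ (σ + θ * s ^ 2) := ⟨by linarith [hρ.1], hρ.2⟩
      have h1 := (abs_le.1 (w5 ρ hρ' x0)).2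
      rw [h.dist.self σ (D.st.mem hσm)] at h1
      have h2 := mul_le_mul_of_nonneg_left (hsqle ρ hρ') hC1.le
      have h3 : √(θ / 2) * s ≤ √θ * s := by gcongr; linarith
      linarith) (by
      rw [mul_pow, Real.sq_sqrt (by positivity)]; linarith [hρ.1])
  have k2 := key.2 ((F1 + F) * (η + δ + X) * s ^ 4) fun r hr => by
    have hm := D.st'.mem hr
    have hur := A.sm_s0 D.heat.1 r hr
    have hP := s0_Pc A hm hur 2
    have h1 := int_mono A I hm (A.s0_mul (A.s0_pow 2 sφ) (A.s0_add hP (A.s0_const δ)))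
      (A.s0_add (A.s0_mul (A.s0_pow 2 sφ) hP) (A.s0_cmul δ D.sχ)) fun x => by
        by_cases hx : φ x = 0
        · rw [hx]; have := mul_nonneg hδ (D.χ0 x); nlinarith
        · rw [φχ x hx]
          have := φ01 x
          have : φ x ^ 2 ≤ 1 := by nlinarith [this.1, this.2]
          nlinarith
    rw [int_add A I hm (A.s0_mul (A.s0_pow 2 sφ) hP) (A.s0_cmul δ D.sχ), integral_const_mul] at h1
    have h2 := mul_le_mul_of_nonneg_left (D.vol r (D.sub hr)) hδ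
    have h3 := hE r hr
    have h4 : δ * (F * s ^ 4) ≤ F * (η + δ + X) * s ^ 4 := by
      have : 0 ≤ F * (η + X) * s ^ 4 := by positivity
      nlinarith
    nlinarith
  have e4 : (√(θ / 2) * s) ^ 4 = θ ^ 2 / 4 * s ^ 4 := by
    rw [mul_pow, show √(θ / 2) ^ 4 = (√(θ / 2) ^ 2) ^ 2 by ring, Real.sq_sqrt (by positivity)]
    ring
  rw [e4] at k2
  rw [le_div_iff₀ (by positivity)]
  refine le_of_mul_le_mul_right (a := s ^ 4 / 4) ?_ (by positivity)
  have h5 : 0 ≤ θ ^ 2 / 4 * s ^ 4 * δ := by positivity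
  have h6 : 0 ≤ (η + δ + X) * (s ^ 4 / 4) := by positivity
  nlinarith

/-- static transfer of the bound on the Hessian to the time `t` -/
theorem transfer (h : H.Ok) (He : H.Hes) : ∃ C', 1 ≤ C' ∧
    ∀ {t s r δ Λ : ℝ} {w : M → ℝ} {x : M}, H.St r t → 0 < s → t - r ≤ 2 * s ^ 2 → 0 ≤ δ → δ ≤ 1 →
      0 ≤ Λ → H.S0 w → (∀ ρ ∈ Icc r t, √(H.Q 0 ρ x) ≤ δ / s ^ 2 ∧ √(H.Q 1 ρ x) ≤ δ / s ^ 3 ∧
        H.gam ρ w w x ≤ Λ * s ^ 2) → H.Pc 2 t w x ≤ C' * (H.Pc 2 r w x + δ * (Λ + 1)) := by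
  have A := h.alg
  have E := h.evo
  obtain ⟨C, hC, hst⟩ := He.stat
  refine ⟨Real.exp (4 * C) * (1 + 8 * C), by
    nlinarith [Real.one_le_exp (show 0 ≤ 4 * C by positivity)], ?_⟩
  intro t s r δ Λ w x hs s0 htr δ0 δ1 Λ0 hw hb
  obtain ⟨P', -, hP⟩ := A.sm_dt hs.2.1 (sm_Pc A hs (A.sm_static hw) 2)
  have key := (gron (y := fun ρ => H.Pc 2 ρ w x) (g := fun _ => 0) (g' := fun _ => 0)
    (p := fun _ => 0) (q := fun _ => 0) (k := 2 * C / s ^ 2) (K := 0) (m := 0)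
    (e := 4 * C * δ * (Λ + 1) / s ^ 2) (by positivity) le_rfl le_rfl (by positivity)
    (fun ρ hρ => hP ρ hρ x) (fun ρ _ => hasDerivWithinAt_const _ _ _)
    (fun ρ hρ => Pc_nonneg E (hs.mem hρ) hw 2 x) (fun _ _ => le_rfl) (fun _ _ => le_rfl)
    (fun _ _ => le_rfl) (fun ρ hρ => by
      obtain ⟨b1, b2, b3⟩ := hb ρ hρ
      have h1 := (le_abs_self _).trans (hst 2 hs hw hP ρ hρ x)
      have p0 := Pc_nonneg E (hs.mem hρ) hw 2 x
      set P := H.Pc 2 ρ w x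
      have b4 : √(H.gam ρ w w x) ≤ √Λ * s := by
        rw [← Real.sqrt_sq s0.le, ← Real.sqrt_mul Λ0]; exact Real.sqrt_le_sqrt b3
      have b5 : √(H.Q 1 ρ x) * √(H.gam ρ w w x) + √(H.Q 0 ρ x) * (√P + |2|) ≤
          δ / s ^ 2 * (√P + (√Λ + 2)) := by
        have c1 : √(H.Q 1 ρ x) * √(H.gam ρ w w x) ≤ δ / s ^ 3 * (√Λ * s) :=
          mul_le_mul b2 b4 (Real.sqrt_nonneg _) (by positivity)
        have c2 : √(H.Q 0 ρ x) * (√P + |2|) ≤ δ / s ^ 2 * (√P + |2|) :=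
          mul_le_mul_of_nonneg_right b1 (by positivity)
        have e : δ / s ^ 3 * (√Λ * s) = δ / s ^ 2 * √Λ := by field_simp
        rw [abs_two] at c2 ⊢
        nlinarith
      have b6 : √P * (√P + (√Λ + 2)) ≤ 2 * P + 4 * (Λ + 1) := by
        nlinarith [Real.sq_sqrt p0, Real.sq_sqrt Λ0, sq_nonneg (√P - √Λ), sq_nonneg (√P - 2),
          Real.sqrt_nonneg P, Real.sqrt_nonneg Λ]
      have b7 : C * √P * (δ / s ^ 2 * (√P + (√Λ + 2))) ≤ C * δ / s ^ 2 * (2 * P + 4 * (Λ + 1)) := by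
        have e : C * √P * (δ / s ^ 2 * (√P + (√Λ + 2))) =
          C * δ / s ^ 2 * (√P * (√P + (√Λ + 2))) := by ring
        rw [e]
        exact mul_le_mul_of_nonneg_left b6 (by positivity)
      have b8 := mul_le_mul_of_nonneg_left b5 (show 0 ≤ C * √P by positivity)
      have b9 : C * δ / s ^ 2 * (2 * P) ≤ 2 * C / s ^ 2 * P := by
        have e : 2 * C / s ^ 2 * P - C * δ / s ^ 2 * (2 * P) = 2 * C * (1 - δ) * P / s ^ 2 := by
          field_simp
        have : 0 ≤ 2 * C * (1 - δ) * P / s ^ 2 := by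
          have := sub_nonneg.2 δ1
          positivity
        linarith
      have e2 : C * δ / s ^ 2 * (2 * P + 4 * (Λ + 1)) =
        C * δ / s ^ 2 * (2 * P) + 4 * C * δ * (Λ + 1) / s ^ 2 := by ring
      have b10 := h1.trans (b8.trans b7)
      rw [e2] at b10
      simp only [mul_zero, add_zero, sub_zero]
      exact b10.trans (add_le_add_left b9 _)) (fun _ _ => by simp)).1 t (right_mem_Icc.2 hs.2.1.le)
  simp only [zero_mul, mul_zero, add_zero] at key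
  have p0 := Pc_nonneg E (hs.mem (left_mem_Icc.2 hs.2.1.le)) hw 2 x
  have h1 : Real.exp (2 * C / s ^ 2 * (t - r)) ≤ Real.exp (4 * C) := by
    refine Real.exp_le_exp.2 ?_
    calc 2 * C / s ^ 2 * (t - r) ≤ 2 * C / s ^ 2 * (2 * s ^ 2) := by gcongr
      _ = 4 * C := by field_simp; ring
  have h2 : 4 * C * δ * (Λ + 1) / s ^ 2 * (t - r) ≤ 8 * C * (δ * (Λ + 1)) := by
    calc _ ≤ 4 * C * δ * (Λ + 1) / s ^ 2 * (2 * s ^ 2) := by gcongr
      _ = _ := by field_simp; ring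
  have h3 : 0 ≤ δ * (Λ + 1) := by positivity
  have h4 : 0 ≤ 4 * C * δ * (Λ + 1) / s ^ 2 * (t - r) :=
    mul_nonneg (by positivity) (sub_nonneg.2 hs.2.1.le)
  calc _ ≤ _ := key
    _ ≤ Real.exp (4 * C) * ((1 + 8 * C) * (H.Pc 2 r w x + δ * (Λ + 1))) :=
        mul_le_mul h1 (by nlinarith [mul_nonneg hC p0]) (by positivity) (Real.exp_pos _).le
    _ = _ := by ring

/-- pointwise bounds at the time `t` -/
theorem pt (h : H.Ok) (He : H.Hes) (hk : H.KerC) {t0 C F B l : ℝ} (h0 : 0 < t0) (hC : 0 ≤ C)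
    (hF : 0 ≤ F) (hB : 0 ≤ B) (hl : 0 < l) : ∃ F' θ0, 1 ≤ F' ∧ 0 < θ0 ∧
    ∀ {t s σ θ δ η : ℝ} {χ : M → ℝ} {u G P' : ℝ → M → ℝ}, HD H t s σ θ F B δ η χ u →
      HG H C σ (σ + θ * s ^ 2) u G P' → t0 ≤ t - 2 * s ^ 2 → θ ≤ θ0 → ∀ x0 : M,
      (∀ y, H.d t x0 y < l * s → χ y = 1) → ∀ ρ ∈ Icc (σ + θ * s ^ 2 / 2) (σ + θ * s ^ 2),
        H.Pc 2 t (u ρ) x0 ≤ F' * (η + δ + Real.exp (-(l / (4 * √θ)))) / θ ^ 2 ∧
          H.gam t (u ρ) (u ρ) x0 ≤ F' / θ * s ^ 2 := by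
  obtain ⟨F1, θ0, hF1, hθ0, h1⟩ := pt1 h hk h0 hC hF hB hl
  obtain ⟨C', hC', h2⟩ := transfer h He
  refine ⟨C' * (F1 + 4 * F ^ 2 + 1), θ0, by nlinarith [sq_nonneg F], hθ0, ?_⟩
  intro t s σ θ δ η χ u G P' D g ht0 hθ x0 hχ ρ hρ
  have hs := D.s0
  have θ0' := D.θ0
  have hδ := D.δ0
  have hη := D.η0
  have hθs : 0 < θ * s ^ 2 := by positivity
  have hρ' : ρ ∈ Icc σ (σ + θ * s ^ 2) := ⟨by linarith [hρ.1], hρ.2⟩
  have hx : χ x0 ≠ 0 := by
    rw [hχ x0 (by rw [h.dist.self t (D.st.mem D.tm)]; positivity)]; norm_num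
  have hur := h.alg.sm_s0 D.heat.1 ρ hρ'
  have hg : ∀ r ∈ Icc (t - 2 * s ^ 2) t, H.gam r (u ρ) (u ρ) x0 ≤ 4 * F ^ 2 / θ * s ^ 2 :=
    fun r hr => by
      have := D.gam_cmp h.alg h.evo hur hx hr (D.sub hρ')
      have := D.gam_le h.alg h.evo hρ x0
      have e : 4 * F ^ 2 / θ * s ^ 2 = 4 * (F ^ 2 / θ * s ^ 2) := by ring
      linarith
  have hρt : ρ < t := lt_of_le_of_lt hρ.2 D.win.2.1
  have hsub : Icc ρ t ⊆ Icc (t - 2 * s ^ 2) t := Icc_subset_Icc_left (D.sub hρ').1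
  have k1 := h2 (D.st.mono (D.sub hρ').1 hρt le_rfl) hs (by linarith [(D.sub hρ').1]) hδ
    (by linarith [D.δ1]) (Λ := 4 * F ^ 2 / θ) (by positivity) hur fun r hr =>
      ⟨(D.reg r (hsub hr) x0 hx).2.1, (D.reg r (hsub hr) x0 hx).2.2, hg r (hsub hr)⟩
  have k2 := h1 D g ht0 hθ x0 hχ ρ hρ
  set om := η + δ + Real.exp (-(l / (4 * √θ))) with hom
  have hom0 : δ ≤ om := by have := Real.exp_pos (-(l / (4 * √θ))); linarith
  refine ⟨k1.trans ?_, (hg t D.tm).trans ?_⟩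
  · have k3 : δ * (4 * F ^ 2 / θ + 1) ≤ (4 * F ^ 2 + 1) * om / θ ^ 2 := by
      rw [le_div_iff₀ (by positivity)]
      have e : δ * (4 * F ^ 2 / θ + 1) * θ ^ 2 = δ * (4 * F ^ 2 * θ + θ ^ 2) := by field_simp
      rw [e, mul_comm]
      have θ1 := D.θ1
      exact mul_le_mul (by nlinarith [sq_nonneg F]) hom0 hδ (by positivity)
    calc _ ≤ C' * (F1 * om / θ ^ 2 + (4 * F ^ 2 + 1) * om / θ ^ 2) := by gcongr
      _ = _ := by ring
  · have k4 : 4 * F ^ 2 ≤ C' * (F1 + 4 * F ^ 2 + 1) := by nlinarith [sq_nonneg F]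
    exact mul_le_mul_of_nonneg_right (div_le_div_of_nonneg_right k4 θ0'.le) (by positivity)

end Crest.Agent.N207.Ge

end
end

-- ▼ part N207/G/EnA
section

/-!
# Row 207, block G (a): lower bounds for heat and conjugate heat solutions
-/

set_option autoImplicit false
set_option linter.dupNamespace false
set_option linter.unusedSectionVars false
open Set MeasureTheory Filter Topology
open scoped ContDiff

noncomputable section

namespace Crest.Agent.N207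

namespace HC

variable {M : Type*} [TopologicalSpace M] [CompactSpace M] [MeasurableSpace M]
  [OpensMeasurableSpace M] {H : HC M}

theorem Cutf.mono (A : H.Alg) {a b r L a' b' : ℝ} {ψ ψ' : ℝ → M → ℝ} (c : H.Cutf a b r L ψ ψ')
    (ha : a ≤ a') (hb : b' ≤ b) : H.Cutf a' b' r L ψ ψ' :=
  have s := Icc_subset_Icc ha hb
  ⟨A.sm_mono c.sm ha hb, c.dt.mono ha hb, fun t ht => c.nn t (s ht), fun t ht => c.le t (s ht),
    fun t ht => c.bt t (s ht), fun t ht => c.bl t (s ht), fun t ht => c.bg t (s ht),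
    fun t ht => c.vol t (s ht)⟩

/-- the mass of a heat solution stays near a cutoff -/
theorem mass_stays (A : H.Alg) (I : H.Intg) {K m a b r L : ℝ} {ψ ψ' u : ℝ → M → ℝ} (K0 : 0 ≤ K)
    (hK : ∀ t ∈ Ioo 0 H.T, ∀ x, |H.R t x| ≤ K) (hs : H.St a b) (hL : 0 ≤ L)
    (c : H.Cutf a b r L ψ ψ') (hu : H.Heat a b u) (h0 : ∀ x, 0 ≤ u a x)
    (hm : ∀ t ∈ Icc a b, ∫ x, u t x ∂H.vol t ≤ m) :
    ∫ x, ψ a x * u a x ∂H.vol a - (2 * L / r ^ 2 + K) * m * (b - a) ≤
      ∫ x, ψ b x * u b x ∂H.vol b := by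
  have hp := A.heat_ge hs hu h0
  have hd := I.int_dt hs (A.sm_mul c.sm hu.1) (c.dt.mul hu.2)
  have s' := A.sm_of_dt hs.2.1 c.sm c.dt
  set q := (2 * L / r ^ 2 + K) with hq
  have q0 : 0 ≤ q := by positivity
  have hl : ∀ t ∈ Icc a b, HasDerivWithinAt (fun t => -(q * m) * t) (-(q * m)) (Icc a b) t :=
    fun t _ => by simpa using ((hasDerivAt_id t).const_mul (-(q * m))).hasDerivWithinAt
  have := sub_le_of_deriv hl hd (fun t ht => by
    have ht' := Ioo_subset_Icc_self ht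
    have hT := hs.mem ht'
    have su := A.sm_s0 hu.1 t ht'
    have sψ := A.sm_s0 c.sm t ht'
    have i1 := A.integrable I hT (A.s0_mul sψ (A.s0_lap hT su))
    have i2 := A.integrable I hT (A.s0_mul (A.s0_lap hT sψ) su)
    have i3 := A.integrable I hT (A.s0_sub (A.s0_mul (A.sm_s0 s' t ht') su)
      (A.s0_mul (A.s0_R hT) (A.s0_mul sψ su)))
    have e : ∀ x, ψ' t x * u t x + ψ t x * H.lap t (u t) x - H.R t x * (ψ t x * u t x) =
        (ψ' t x * u t x - H.R t x * (ψ t x * u t x)) + ψ t x * H.lap t (u t) x := fun x => by ring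
    simp only [e]
    rw [integral_add i3 i1, A.ibp2 I hT sψ su, ← integral_add i3 i2]
    have k1 : -(q * m) ≤ ∫ x, -q * u t x ∂H.vol t := by
      rw [integral_const_mul]; nlinarith [hm t ht']
    refine k1.trans (integral_mono (A.integrable I hT (A.s0_cmul _ su)) (i3.add i2) fun x => ?_)
    have r1 : √(ψ t x) ≤ 1 := Real.sqrt_le_one.2 (c.le t ht' x)
    have r2 : L / r ^ 2 * √(ψ t x) ≤ L / r ^ 2 := mul_le_of_le_one_right (by positivity) r1
    have b1 := (abs_le.1 ((c.bt t ht' x).trans r2)).1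
    have b2 := (abs_le.1 ((c.bl t ht' x).trans r2)).1
    have b3 : H.R t x * ψ t x ≤ K := by
      nlinarith [abs_le.1 (hK t hT x), c.nn t ht' x, c.le t ht' x]
    have b4 : -q ≤ ψ' t x - H.R t x * ψ t x + H.lap t (ψ t) x := by
      have : 2 * L / r ^ 2 = L / r ^ 2 + L / r ^ 2 := by ring
      linarith
    nlinarith [mul_le_mul_of_nonneg_right b4 (hp t ht' x)])
    ⟨le_rfl, hs.2.1.le⟩ ⟨hs.2.1.le, le_rfl⟩ hs.2.1.le
  linarith

theorem heat_big_pt (h : H.Ok) (hU : H.DistUp) (hV : H.VolUp) {t0 : ℝ} (h0 : 0 < t0) {A : ℝ}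
    (hA : 1 ≤ A) : ∃ Λ c1 s0 : ℝ, 0 < Λ ∧ 0 < c1 ∧ 0 < s0 ∧ ∀ {a b s : ℝ} (y : M), t0 ≤ a →
      H.St a b → 0 < s → s ≤ s0 → b - a ≤ A * s ^ 2 → ∃ ψ, H.S0 ψ ∧ (∀ x, ψ x ≤ 1) ∧ ψ y = 1 ∧
        ∀ u, H.Heat a b u → (∀ x, 0 ≤ u a x) → ∫ x, u a x ∂H.vol a ≤ 1 →
          1 / 2 ≤ ∫ x, ψ x * u a x ∂H.vol a → ∃ x0 ∈ H.B b y (Λ * s), c1 / s ^ 4 ≤ u b x0 := by
  have Al := h.alg
  obtain ⟨θ, lam, L, r0, hθ, hlam, hL, -, hr0, -, -, h1⟩ := exists_cutf h hU hV h0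
  obtain ⟨K0, hK0⟩ := h.evo.R_bd
  have hK : ∀ t ∈ Ioo 0 H.T, ∀ x, |H.R t x| ≤ |K0| + 1 := fun t ht x =>
    (hK0 t ht x).trans (by linarith [le_abs_self K0])
  have K0' : 0 < |K0| + 1 := by positivity
  generalize |K0| + 1 = K at hK K0'
  obtain ⟨m, hm⟩ : ∃ m, m = Real.exp (K * H.T) := ⟨_, rfl⟩
  have m0 : 0 < m := hm ▸ Real.exp_pos _
  obtain ⟨Λ, hΛ⟩ : ∃ Λ, Λ = A / θ + 16 * L * A * m + 1 := ⟨_, rfl⟩
  have p1 : 0 < A / θ := by positivity
  have p2 : 0 < 16 * L * A * m := by positivity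
  have Λ1 : 1 ≤ Λ := by linarith
  obtain ⟨c1, hc1⟩ : ∃ c1, c1 = 1 / (8 * L * Λ ^ 4) := ⟨_, rfl⟩
  have c0 : 0 < c1 := by rw [hc1]; positivity
  refine ⟨Λ, c1, min (r0 / Λ) (min 1 (1 / (8 * K * A * m))), by positivity, c0, by positivity,
    fun {a b s} y ha hs s0 s1 l2 => ?_⟩
  have s2 : Λ * s ≤ r0 := by
    have := s1.trans (min_le_left _ _); rwa [le_div_iff₀ (by positivity), mul_comm] at this
  have s3 : s ≤ 1 := s1.trans ((min_le_right _ _).trans (min_le_left _ _))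
  have s4 : 8 * K * A * m * s ≤ 1 := by
    have := s1.trans ((min_le_right _ _).trans (min_le_right _ _))
    rwa [le_div_iff₀ (by positivity), mul_comm] at this
  have hb : b ∈ Icc a b := ⟨hs.2.1.le, le_rfl⟩
  have ha' : a ∈ Icc a b := ⟨le_rfl, hs.2.1.le⟩
  obtain ⟨ψ, ψ', hs', c, c2, c3⟩ := h1 b ⟨ha.trans hs.2.1.le, hs.2.2⟩ y (Λ * s) (by positivity) s2 b
    le_rfl (le_add_of_nonneg_right (by positivity)) hs.2.2
  have w1 : b - 2 * θ * (Λ * s) ^ 2 ≤ a := by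
    have e1 : A ≤ θ * Λ := by
      have : θ * (A / θ) = A := by field_simp
      nlinarith
    have e2 : θ * Λ ≤ 2 * θ * Λ ^ 2 := by nlinarith [mul_pos hθ (by linarith : 0 < Λ)]
    nlinarith [mul_le_mul_of_nonneg_right (e1.trans e2) (sq_nonneg s)]
  have cm := c.mono Al w1 le_rfl
  refine ⟨ψ a, Al.sm_s0 cm.sm a ha', cm.le a ha', c2 a ⟨w1, hs.2.1.le⟩ y
    (h.dist.mem_B (hs.mem ha') y (by positivity)), fun u hu u0 u1 u2 => ?_⟩
  have up := Al.heat_ge hs hu u0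
  have k1 := mass_stays Al h.int K0'.le hK hs (by linarith) cm hu u0 (m := m) fun t ht =>
    (Al.heat_mass h.int hK hs hu u0 t ht).trans (by
      rw [hm]
      refine (mul_le_of_le_one_right (Real.exp_pos _).le u1).trans (Real.exp_le_exp.2 ?_)
      have : t - a ≤ H.T := by linarith [hs.1, ht.2, hs.2.2]
      gcongr)
  have k2 : (2 * L / (Λ * s) ^ 2 + K) * m * (b - a) ≤ 1 / 4 := by
    refine (mul_le_mul_of_nonneg_left l2 (by positivity)).trans ?_
    have e : (2 * L / (Λ * s) ^ 2 + K) * m * (A * s ^ 2) =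
        2 * L * A * m / Λ ^ 2 + K * A * m * s * s := by field_simp
    have e1 : 2 * L * A * m / Λ ^ 2 ≤ 1 / 8 := by
      rw [div_le_iff₀ (by positivity)]; nlinarith
    have e2 : K * A * m * s * s ≤ K * A * m * s := mul_le_of_le_one_right (by positivity) s3
    linarith
  have sb := Al.sm_s0 hu.1 b hb
  have sψ := Al.sm_s0 cm.sm b hb
  obtain ⟨x0, hx0, k3⟩ : ∃ x0, ψ b x0 ≠ 0 ∧ c1 / s ^ 4 ≤ u b x0 := by
    by_contra hc
    push Not at hc
    have k4 := int_cut_le Al h.int (hs.mem hb) (Al.s0_mul sψ sb) (B := {x | ψ b x ≠ 0})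
      (isOpen_ne_fun (Al.s0_cont sψ) continuous_const).measurableSet (c := c1 / s ^ 4)
      (fun z => by
        by_cases hz : ψ b z = 0
        · rw [hz, zero_mul]; positivity
        · exact (mul_le_of_le_one_left (up b hb z) (cm.le b hb z)).trans (hc z hz).le)
      (fun z hz => by rw [not_not.1 hz, zero_mul])
    have k5 := mul_le_mul_of_nonneg_left (cm.vol b hb) (by positivity : 0 ≤ c1 / s ^ 4)
    have e : c1 / s ^ 4 * (L * (Λ * s) ^ 4) = 1 / 8 := by rw [hc1]; field_simp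
    linarith
  exact ⟨x0, c3 b ⟨w1.trans hs.2.1.le, le_rfl⟩ x0 hx0, k3⟩

/-- uniform diameter bound -/
theorem diam_bd (h : H.Ok) (hU : H.DistUp) {t0 : ℝ} (h0 : 0 < t0) :
    ∃ D, 0 < D ∧ ∀ t ∈ Ico t0 H.T, ∀ x y, H.d t x y ≤ D := by
  by_cases hT : t0 < H.T
  swap
  · exact ⟨1, one_pos, fun t ht => absurd (ht.1.trans_lt ht.2) hT⟩
  rcases isEmpty_or_nonempty M with hM | ⟨⟨p⟩⟩
  · exact ⟨1, one_pos, fun _ _ x => isEmptyElim x⟩
  obtain ⟨A, hA, h1⟩ := hU t0 h0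
  obtain ⟨B, hB⟩ := isCompact_univ.exists_bound_of_continuousOn
    (h.dist.cont t0 ⟨h0, hT⟩ p).continuousOn
  refine ⟨A * (2 * |B| + √H.T + 1), by positivity, fun t ht x y =>
    (h1 t0 t le_rfl ht.1 ht.2 x y).trans (mul_le_mul_of_nonneg_left ?_ hA.le)⟩
  have a1 := h.dist.tri t0 ⟨h0, hT⟩ x p y
  rw [h.dist.symm t0 ⟨h0, hT⟩ x p] at a1
  have a2 : √(t - t0) ≤ √H.T := Real.sqrt_le_sqrt (by linarith [ht.2])
  have a3 := (le_abs_self _).trans ((hB x (mem_univ _)).trans (le_abs_self B))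
  have a4 := (le_abs_self _).trans ((hB y (mem_univ _)).trans (le_abs_self B))
  linarith

theorem heat_big_pt' (h : H.Ok) (hU : H.DistUp) (hV : H.VolUp) {t0 : ℝ} (h0 : 0 < t0) {A : ℝ}
    (hA : 1 ≤ A) (S : ℝ) : ∃ Λ c1 : ℝ, 0 < Λ ∧ 0 < c1 ∧ ∀ {a b s : ℝ} (y : M), t0 ≤ a →
      H.St a b → 0 < s → s ≤ S → b - a ≤ A * s ^ 2 → ∃ ψ, H.S0 ψ ∧ (∀ x, ψ x ≤ 1) ∧ ψ y = 1 ∧
        ∀ u, H.Heat a b u → (∀ x, 0 ≤ u a x) → ∫ x, u a x ∂H.vol a ≤ 1 →
          1 / 2 ≤ ∫ x, ψ x * u a x ∂H.vol a → ∃ x0 ∈ H.B b y (Λ * s), c1 / s ^ 4 ≤ u b x0 := by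
  have Al := h.alg
  obtain ⟨Λ, c1, s0, Λ0, c0, hs0, h1⟩ := heat_big_pt h hU hV h0 hA
  obtain ⟨D, hD, h2⟩ := diam_bd h hU h0
  obtain ⟨V, hV0, h3⟩ := vol_tot Al h.int h.evo h0
  obtain ⟨K0, hK0⟩ := h.evo.R_bd
  have hK : ∀ t ∈ Ioo 0 H.T, ∀ x, |H.R t x| ≤ |K0| := fun t ht x =>
    (hK0 t ht x).trans (le_abs_self K0)
  have K0' := abs_nonneg K0
  generalize |K0| = K at hK K0'
  obtain ⟨e, he⟩ : ∃ e, e = Real.exp (-K * H.T) := ⟨_, rfl⟩
  have e0 : 0 < e := he ▸ Real.exp_pos _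
  refine ⟨Λ + 2 * D / s0, min c1 (e / (4 * V) * s0 ^ 4), by positivity, by positivity,
    fun {a b s} y ha hs s1 _ l2 => ?_⟩
  have p1 : 0 < 2 * D / s0 := by positivity
  rcases le_total s s0 with hc | hc
  · obtain ⟨ψ, sψ, ψ1, ψy, h4⟩ := h1 y ha hs s1 hc l2
    refine ⟨ψ, sψ, ψ1, ψy, fun u hu u0 u1 u2 => ?_⟩
    obtain ⟨x0, hx0, k⟩ := h4 u hu u0 u1 u2
    exact ⟨x0, B_mono b y (by nlinarith) hx0, le_trans (by gcongr; exact min_le_left _ _) k⟩
  refine ⟨fun _ => 1, Al.s0_const 1, fun _ => le_rfl, rfl, fun u hu u0 u1 u2 => ?_⟩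
  have hb : b ∈ Icc a b := ⟨hs.2.1.le, le_rfl⟩
  have ha' : a ∈ Icc a b := ⟨le_rfl, hs.2.1.le⟩
  have hb' : b ∈ Ico t0 H.T := ⟨ha.trans hs.2.1.le, hs.2.2⟩
  obtain ⟨v, hv, ev⟩ := h.solv.conj hs (Al.s0_const 1)
  have k1 := Al.dual h.int hs hu hv ha' hb
  have k2 := Al.conj_ge hs hv hK zero_le_one (fun x => by rw [ev]) a ha'
  simp only [ev, mul_one, one_mul] at k1 k2 u2
  have sa := Al.sm_s0 hu.1 a ha'
  have k3 : ∫ x, e * u a x ∂H.vol a ≤ ∫ x, u a x * v a x ∂H.vol a :=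
    integral_mono (Al.integrable h.int (hs.mem ha') (Al.s0_cmul e sa))
      (Al.integrable h.int (hs.mem ha') (Al.s0_mul sa (Al.sm_s0 hv.1 a ha'))) fun x => by
      have : e ≤ Real.exp (-K * (b - a)) := by
        rw [he]; refine Real.exp_le_exp.2 ?_
        nlinarith [hs.1, hs.2.2]
      simp only [mul_comm e]
      exact mul_le_mul_of_nonneg_left (this.trans (k2 x)) (u0 x)
  rw [integral_const_mul] at k3
  obtain ⟨x0, k4⟩ : ∃ x0, e / (4 * V) ≤ u b x0 := by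
    by_contra! hn
    have k4 := int_cut_le Al h.int (hs.mem hb) (Al.sm_s0 hu.1 b hb) MeasurableSet.univ
      (fun z => (hn z).le) (fun z hz => absurd (mem_univ z) hz)
    have k5 := mul_le_mul_of_nonneg_left (h3 b hb') (by positivity : 0 ≤ e / (4 * V))
    have k6 : e / (4 * V) * V = e / 4 := by field_simp
    nlinarith
  refine ⟨x0, (h2 b hb' y x0).trans_lt ?_, le_trans ?_ k4⟩
  · have : 2 * D / s0 * s0 = 2 * D := by field_simp
    nlinarith [mul_le_mul_of_nonneg_left hc p1.le, mul_pos Λ0 s1]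
  · rw [div_le_iff₀ (by positivity)]
    exact (min_le_right _ _).trans (by gcongr)

theorem heat_lower0 (h : H.Ok) (hU : H.DistUp) (hV : H.VolUp) {t0 : ℝ} (h0 : 0 < t0) {A : ℝ}
    (hA : 1 ≤ A) (s0 : ℝ) : ∃ κ : ℝ, 0 < κ ∧ ∀ {a b s : ℝ} (y : M), t0 ≤ a → H.St a b → 0 < s →
      s ≤ s0 → s ^ 2 / A ≤ b - a → b - a ≤ A * s ^ 2 → ∃ ψ, H.S0 ψ ∧ (∀ x, ψ x ≤ 1) ∧ ψ y = 1 ∧
        ∀ u, H.Heat a b u → (∀ x, 0 ≤ u a x) → ∫ x, u a x ∂H.vol a ≤ 1 →
          1 / 2 ≤ ∫ x, ψ x * u a x ∂H.vol a → ∀ x ∈ H.B b y (2 * A * s), κ / s ^ 4 ≤ u b x := by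
  have Al := h.alg
  obtain ⟨Λ, c1, Λ0, c0, h1⟩ := heat_big_pt' h hU hV h0 hA s0
  obtain ⟨C, hC, h2⟩ := h.kerH t0 h0
  obtain ⟨Z, hZ⟩ : ∃ Z, Z = √(1 + Real.log (8 * C * A ^ 2) - Real.log c1) + (Λ + 2 * A) * A :=
    ⟨_, rfl⟩
  refine ⟨4 * C * A ^ 2 * Real.exp (-Z ^ 2), by positivity,
    fun {a b s} y ha hs s0 s1 l1 l2 => ?_⟩
  obtain ⟨ψ, sψ, ψ1, ψy, h3⟩ := h1 y ha hs s0 s1 l2
  refine ⟨ψ, sψ, ψ1, ψy, fun u hu u0 u1 u2 x hx => ?_⟩
  obtain ⟨x0, hx0, k3⟩ := h3 u hu u0 u1 u2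
  have hb : b ∈ Icc a b := ⟨hs.2.1.le, le_rfl⟩
  have up := Al.heat_ge hs hu u0
  obtain ⟨δ, hδ⟩ : ∃ δ, δ = 4 * C * A ^ 2 * Real.exp (-Z ^ 2) / s ^ 4 := ⟨_, rfl⟩
  have δ0 : 0 < δ := by rw [hδ]; positivity
  have δ1 : δ ≤ 4 * C * A ^ 2 / s ^ 4 := by
    rw [hδ]
    exact div_le_div_of_nonneg_right (mul_le_of_le_one_right (by positivity)
      (Real.exp_le_one_iff.2 (neg_nonpos.2 (sq_nonneg Z)))) (by positivity)
  clear h1 h3
  have hba := sub_pos.2 hs.2.1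
  have hm1 : a ≤ (a + b) / 2 := by linarith
  have hs2 : H.St ((a + b) / 2) b := hs.mono hm1 (by linarith) le_rfl
  have hU' : H.Heat ((a + b) / 2) b fun t z => u t z + δ := by
    have hu' := Al.heat_mono hu hm1 le_rfl
    refine ⟨Al.sm_add hu'.1 (Al.sm_const δ), ?_⟩
    refine (hu'.2.add (HasDt.static fun _ => δ)).congr_d fun t ht z => ?_
    rw [Al.lap_add t (hs2.mem ht) (Al.sm_s0 hu'.1 t ht) (Al.s0_const δ), Al.lap_const (hs2.mem ht)]
  have k4 := Al.harnack h.evo h.dist hs2 hU' (m := 8 * C * A ^ 2 / s ^ 4)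
    (fun t ht z => by linarith [up t ⟨hm1.trans ht.1, ht.2⟩ z]) (fun z => by
      have k := h2 ha hs hu u0 ((a + b) / 2) ⟨by linarith, by linarith⟩ z
      have k' : C / ((a + b) / 2 - a) ^ 2 ≤ C / (s ^ 2 / A / 2) ^ 2 := by
        gcongr; linarith
      have e : C / (s ^ 2 / A / 2) ^ 2 = 4 * C * A ^ 2 / s ^ 4 := by field_simp; ring
      have k'' := mul_le_of_le_one_right (by positivity : 0 ≤ C / ((a + b) / 2 - a) ^ 2) u1
      have e2 : 8 * C * A ^ 2 / s ^ 4 = 2 * (4 * C * A ^ 2 / s ^ 4) := by ring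
      linarith) (t := b) ⟨by linarith, le_rfl⟩ x0 x
  have hT := hs.mem hb
  have d1 : H.d b x0 x ≤ (Λ + 2 * A) * s := by
    have a1 : H.d b y x0 < Λ * s := hx0
    have a2 : H.d b y x < 2 * A * s := hx
    have a3 := h.dist.tri b hT x0 y x
    rw [h.dist.symm b hT x0 y] at a3
    linarith
  have d2 : H.d b x0 x / (2 * √(b - (a + b) / 2)) ≤ (Λ + 2 * A) * A := by
    have a1 : s / (2 * A) ≤ √(b - (a + b) / 2) := by
      refine Real.le_sqrt_of_sq_le (le_trans ?_ (by linarith : s ^ 2 / A / 2 ≤ _))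
      rw [div_pow, div_div]
      gcongr; nlinarith
    have a2 : 0 < s / (2 * A) := by positivity
    rw [div_le_iff₀ (by linarith)]
    have a3 : (Λ + 2 * A) * A * (2 * (s / (2 * A))) = (Λ + 2 * A) * s := by field_simp
    nlinarith [mul_le_mul_of_nonneg_left a1 (by positivity : 0 ≤ (Λ + 2 * A) * A)]
  have d3 : √(1 + Real.log (8 * C * A ^ 2 / s ^ 4) - Real.log (u b x0 + δ)) ≤
      √(1 + Real.log (8 * C * A ^ 2) - Real.log c1) := by
    refine Real.sqrt_le_sqrt ?_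
    have a1 := Real.log_le_log (by positivity) (k3.trans (le_add_of_nonneg_right δ0.le))
    rw [Real.log_div c0.ne' (by positivity)] at a1
    rw [Real.log_div (by positivity) (by positivity)]
    linarith
  have d4 : 1 + Real.log (8 * C * A ^ 2 / s ^ 4) - Real.log (u b x + δ) ≤ Z ^ 2 :=
    (Real.sqrt_le_iff.1 (k4.trans ((add_le_add d3 d2).trans_eq hZ.symm))).2
  have d5 : 2 * δ ≤ u b x + δ := by
    have e : 2 * δ = Real.exp (Real.log (8 * C * A ^ 2 / s ^ 4) + -Z ^ 2) := by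
      rw [Real.exp_add, Real.exp_log (by positivity), hδ]; ring
    rw [e, ← Real.le_log_iff_exp_le (by linarith [up b hb x])]
    linarith
  linarith

/-- (a) lower bound for conjugate solutions -/
theorem conj_lower (h : H.Ok) (hU : H.DistUp) (hV : H.VolUp) {t0 : ℝ} (h0 : 0 < t0) {A : ℝ}
    (hA : 1 ≤ A) (s0 : ℝ) : ∃ κ : ℝ, 0 < κ ∧ ∀ {a b s : ℝ} {v : ℝ → M → ℝ} (z : M), t0 ≤ a →
      H.St a b → 0 < s → s ≤ s0 → s ^ 2 / A ≤ b - a → b - a ≤ A * s ^ 2 → H.Conj a b v →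
      (∀ x, 0 ≤ v b x) → ∀ y ∈ H.B b z (A * s),
        κ / s ^ 4 * ∫ x in H.B b z (A * s), v b x ∂H.vol b ≤ v a y := by
  have Al := h.alg
  obtain ⟨κ, hκ, h1⟩ := heat_lower0 h hU hV h0 hA s0
  refine ⟨κ, hκ, fun {a b s v} z ha hs s1 s2 l1 l2 hv v0 y hy => ?_⟩
  obtain ⟨ψ, sψ, ψ1, ψy, h2⟩ := h1 y ha hs s1 s2 l1 l2
  have hb : b ∈ Icc a b := ⟨hs.2.1.le, le_rfl⟩
  have ha' : a ∈ Icc a b := ⟨le_rfl, hs.2.1.le⟩
  have vp := Al.conj_nonneg h.evo hs hv v0
  have sa := Al.sm_s0 hv.1 a ha'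
  have sb := Al.sm_s0 hv.1 b hb
  refine le_of_forall_pos_le_add fun δ hδ => ?_
  set q := 2 * (v a y + δ) with hq
  have q0 : 0 < q := by linarith [vp a ha' y]
  obtain ⟨w, sw, w0, w1, hw⟩ := E.exists_bump Al h.int (hs.mem ha')
    (Al.s0_sub (Al.s0_cmul q sψ) sa) y hδ
  have i1 := Al.integrable h.int (hs.mem ha') (Al.s0_mul sψ sw)
  have i2 := Al.integrable h.int (hs.mem ha') (Al.s0_mul sw sa)
  have e : ∀ x, (q * ψ x - v a x) * w x = q * (ψ x * w x) - w x * v a x := fun x => by ring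
  simp only [e, ψy] at hw
  rw [integral_sub (i1.const_mul q) i2, integral_const_mul] at hw
  have j1 : ∫ x, ψ x * w x ∂H.vol a ≤ 1 := by
    rw [← w1]
    exact integral_mono i1 (Al.integrable h.int (hs.mem ha') sw) fun x =>
      mul_le_of_le_one_left (w0 x) (ψ1 x)
  have j2 : 0 ≤ ∫ x, w x * v a x ∂H.vol a := integral_nonneg fun x => mul_nonneg (w0 x) (vp a ha' x)
  obtain ⟨u, hu, rfl⟩ := h.solv.heat hs sw
  have k1 := h2 u hu w0 w1.le (by
    by_contra hc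
    nlinarith [mul_lt_mul_of_pos_left (not_le.1 hc) q0])
  have k2 := Al.dual h.int hs hu hv ha' hb
  have hT := hs.mem hb
  have k3 := setInt_le_wt h hT (h.dist.isOpen_B hT z (A * s))
    (Al.s0_cmul (s ^ 4 / κ) (Al.sm_s0 hu.1 b hb)) sb
    (fun x => mul_nonneg (by positivity) (Al.heat_ge hs hu w0 b hb x)) v0 fun x hx => by
      have a1 : H.d b z x < A * s := hx
      have a2 : H.d b z y < A * s := hy
      have a3 := h.dist.tri b hT y z x
      rw [h.dist.symm b hT y z] at a3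
      have a4 := k1 x (show H.d b y x < 2 * A * s by linarith)
      rw [div_le_iff₀ (by positivity)] at a4
      rw [div_mul_eq_mul_div, le_div_iff₀ hκ]; linarith
  simp only [mul_assoc] at k3
  rw [integral_const_mul] at k3
  have k4 := mul_le_mul_of_nonneg_left k3 (by positivity : 0 ≤ κ / s ^ 4)
  rw [← mul_assoc, show κ / s ^ 4 * (s ^ 4 / κ) = 1 by field_simp, one_mul] at k4
  nlinarith [mul_le_mul_of_nonneg_left j1 q0.le]

/-- the mass of a bump in a ball -/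
theorem CS.mass_ball (h : H.Ok) {a t ε τ0 : ℝ} {z : M} {v : ℝ → M → ℝ} (c : H.CS a t z ε τ0 v)
    {r : ℝ} (hr : ε ≤ r) : 1 - ε ≤ ∫ x in H.B t z r, v t x ∂H.vol t := by
  have hb : t ∈ Icc a t := ⟨c.st.2.1.le, le_rfl⟩
  have hT := c.st.mem hb
  have i := h.alg.integrable h.int hT (h.alg.sm_s0 c.conj.1 t hb)
  have k1 := integral_add_compl (h.dist.meas_B hT z r) i
  have k2 : ∫ x in (H.B t z r)ᶜ, v t x ∂H.vol t ≤ ∫ y in {y | ε ≤ H.d t z y}, v t y ∂H.vol t :=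
    setIntegral_mono_set i.integrableOn (Eventually.of_forall fun x => (c.pos x).le)
      (LE.le.eventuallyLE fun x hx => hr.trans (not_lt.1 hx))
  linarith [c.mass, c.conc]

theorem gLow (h : H.Ok) (C : H.COut) : H.GLow := fun t0 h0 A hA => by
  obtain ⟨κ, hκ, h1⟩ := conj_lower h C.dup C.up h0 (A := 2 * A) (by linarith) 1
  refine ⟨κ / 2, by positivity, fun {a t ε τ0 z v} ha c σ hσ l1 l2 l3 y hy => ?_⟩
  have p := sub_pos.2 hσ.2
  have q := Real.sqrt_pos.2 p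
  have e := Real.sq_sqrt p.le
  have k := h1 z (ha.trans hσ.1) (c.st.mono hσ.1 hσ.2 le_rfl) q (Real.sqrt_le_one.2 l1)
    (by rw [e]; exact div_le_self p.le (by linarith)) (by rw [e]; nlinarith)
    (h.alg.conj_mono c.conj hσ.1 le_rfl) (fun x => (c.pos x).le) y
    (show H.d t z y < _ by nlinarith)
  have k2 := c.mass_ball h (r := 2 * A * √(t - σ)) (by nlinarith)
  have e4 : √(t - σ) ^ 4 = (t - σ) ^ 2 := by rw [← e]; ring_nf; simp
  rw [e4] at k
  refine le_trans ?_ k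
  rw [div_right_comm, div_eq_mul_one_div (κ / _)]
  gcongr; linarith

end HC

end Crest.Agent.N207

end
end

-- ▼ part N207/G/EnA2

/-!
# Row 207, block G: tightness and the Gaussian Poincaré inequality
-/

set_option autoImplicit false
set_option linter.dupNamespace false
set_option linter.unusedSectionVars false
open Set MeasureTheory Filter Topology
open scoped ContDiff

noncomputable section

namespace Crest.Agent.N207

namespace HC

variable {M : Type*} [TopologicalSpace M] [CompactSpace M] [MeasurableSpace M]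
  [OpensMeasurableSpace M] {H : HC M}

theorem setInt_le_int (h : H.Ok) {t : ℝ} (ht : t ∈ Ioo 0 H.T) {S : Set M} (hS : MeasurableSet S)
    {P Q : M → ℝ} (iP : Integrable P (H.vol t)) (sQ : H.S0 Q) (h0 : ∀ y, 0 ≤ Q y)
    (h1 : ∀ y ∈ S, P y ≤ Q y) : ∫ y in S, P y ∂H.vol t ≤ ∫ y, Q y ∂H.vol t :=
  have i1 := h.alg.integrable h.int ht sQ
  le_trans (setIntegral_mono_on iP.integrableOn i1.integrableOn hS h1)
    (setIntegral_le_integral i1 (Eventually.of_forall h0))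

theorem vol_real_le2 (I : H.Intg) {K : ℝ} (hK : ∀ t ∈ Ioo 0 H.T, ∀ x, |H.R t x| ≤ K) {s t : ℝ}
    (hs : s ∈ Ioo 0 H.T) (ht : t ∈ Ioo 0 H.T) (B : Set M) :
    (H.vol t).real B ≤ Real.exp (K * |t - s|) * (H.vol s).real B := by
  have := I.fin s hs
  have k := I.vol_le hK s hs t ht B
  rw [Measure.smul_apply, smul_eq_mul] at k
  have k2 := ENNReal.toReal_mono (ENNReal.mul_ne_top ENNReal.ofReal_ne_top (measure_ne_top _ _)) k
  rwa [ENNReal.toReal_mul, ENNReal.toReal_ofReal (Real.exp_pos _).le] at k2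

theorem gTight (h : H.Ok) (C : H.COut) : H.GTight := fun t0 h0 β hβ => by
  have Al := h.alg
  obtain ⟨C1, hC1, h1⟩ := Al.exists_lipheat h.evo h.solv h.dist
  obtain ⟨C2, hC2, h2⟩ := C.dlo
  obtain ⟨A, hA, h3⟩ := C.dup t0 h0
  obtain ⟨K, hK, -, k2⟩ := E.psi_bounds
  obtain ⟨L, hL⟩ : ∃ L, L = 2 + C1 + C2 + K / β := ⟨_, rfl⟩
  have p0 : 0 < K / β := by positivity
  have L1 : 1 ≤ L := by linarith
  refine ⟨A * (2 * L + 2) + 1, by nlinarith, fun {a t ε τ0 z v} ha c σ hσ l1 => ?_⟩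
  have p := sub_pos.2 hσ.2
  obtain ⟨s, hs⟩ : ∃ s, s = √(t - σ) := ⟨_, rfl⟩
  have s0 : 0 < s := hs ▸ Real.sqrt_pos.2 p
  have e : s ^ 2 = t - σ := hs ▸ Real.sq_sqrt p.le
  rw [← hs] at l1 ⊢
  have st := c.st.mono hσ.1 hσ.2 le_rfl
  have hv := Al.conj_mono c.conj hσ.1 le_rfl
  have vp := Al.conj_pos h.evo st hv c.pos
  obtain ⟨U, hU, g1, -, -, g3, -⟩ := h1 st z s s0
  have hb : t ∈ Icc σ t := ⟨hσ.2.le, le_rfl⟩
  have ha' : σ ∈ Icc σ t := ⟨le_rfl, hσ.2.le⟩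
  have cp := E.cd_aff E.psi_cd 0 (L * s)
  have sψ := Al.sm_compU (φ := fun r => E.psi ((r - 0) / (L * s))) cp hU.1
  have sφ := Al.sm_sub (Al.sm_const 1) sψ
  have hd := Al.pair_dt h.int st sφ ((HasDt.static fun _ => 1).sub (Al.heat_comp st hU cp)) hv
  set q := K / (L * s) ^ 2 with hq
  have q0 : 0 ≤ q := by positivity
  have hl : ∀ r ∈ Icc σ t, HasDerivWithinAt (fun r => -q * r) (-q) (Icc σ t) r :=
    fun r _ => by simpa using ((hasDerivAt_id r).const_mul (-q)).hasDerivWithinAt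
  have k1 := sub_le_of_deriv hl hd (fun r hr => by
    have hr' := Ioo_subset_Icc_self hr
    have hT := st.mem hr'
    have sv := Al.sm_s0 hv.1 r hr'
    have su := Al.sm_s0 hU.1 r hr'
    have m1 : -q = ∫ x, -q * v r x ∂H.vol r := by
      rw [integral_const_mul, Al.conj_mass h.int st hv hr' hb, c.mass, mul_one]
    have e1 : ∀ x, (0 - (H.lap r (fun y => E.psi ((U r y - 0) / (L * s))) x -
        deriv (deriv fun r => E.psi ((r - 0) / (L * s))) (U r x) * H.gam r (U r) (U r) x) -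
        H.lap r (fun y => 1 - E.psi ((U r y - 0) / (L * s))) x) =
        deriv (deriv fun r => E.psi ((r - 0) / (L * s))) (U r x) * H.gam r (U r) (U r) x := by
      intro x
      rw [Al.lap_sub hT (Al.s0_const 1) (Al.sm_s0 sψ r hr'), Al.lap_const hT]; ring
    simp only [e1]
    rw [m1]
    refine integral_mono (Al.integrable h.int hT (Al.s0_cmul _ sv)) (Al.integrable h.int hT
      (Al.s0_mul (Al.s0_mul (Al.s0_compU ((cp.iterate_deriv 1).iterate_deriv 1) su)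
        (Al.s0_gam hT su su)) sv)) fun x => mul_le_mul_of_nonneg_right ?_ (vp r hr' x).le
    rw [E.deriv2_aff E.psi_cd]
    have b1 := (abs_le.1 ((k2 ((U r x - 0) / (L * s))).trans
      (mul_le_of_le_one_right (by linarith) (E.chi_le_one _)))).1
    have b2 : -q ≤ deriv (deriv E.psi) ((U r x - 0) / (L * s)) / (L * s) ^ 2 := by
      rw [hq, ← neg_div]; gcongr
    nlinarith [Al.gam_nonneg r hT su x, g1 r hr' x]) ha' hb hσ.2.le
  have k3 : q * (t - σ) ≤ β := by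
    rw [hq, ← e, show K / (L * s) ^ 2 * s ^ 2 = K / L ^ 2 by field_simp,
      div_le_iff₀ (by positivity)]
    have e1 : β * (K / β) = K := by field_simp
    have e2 : β * (K / β) ≤ β * L := by gcongr; linarith
    have e3 : β * L ≤ β * L ^ 2 := by gcongr; nlinarith
    linarith
  have φ0 : ∀ r x, 0 ≤ 1 - E.psi ((U r x - 0) / (L * s)) := fun r x => by
    linarith [E.psi_le_one ((U r x - 0) / (L * s))]
  have k4 : ∫ x, (1 - E.psi ((U t x - 0) / (L * s))) * v t x ∂H.vol t ≤ ε := by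
    refine le_trans ?_ c.conc
    have hT := st.mem hb
    have i1 := Al.integrable h.int hT (Al.s0_mul (Al.sm_s0 sφ t hb) (Al.sm_s0 hv.1 t hb))
    rw [← setIntegral_eq_integral_of_forall_compl_eq_zero (s := {y | ε ≤ H.d t z y})
      fun y hy => by
        rw [E.psi_one, sub_self, zero_mul]
        have a1 : H.d t z y < ε := not_le.1 hy
        have a2 := (abs_le.1 (g3 t hb y)).2
        have a3 := h2 σ t st.1 hσ.2.le st.2.2 z y
        rw [← hs] at a2 a3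
        rw [div_le_one (by positivity)]
        nlinarith [mul_pos p0 s0]]
    refine setIntegral_mono_on i1.integrableOn
      (Al.integrable h.int hT (Al.sm_s0 hv.1 t hb)).integrableOn
      (isClosed_le continuous_const (h.dist.cont t hT z)).measurableSet fun y _ => ?_
    exact mul_le_of_le_one_left (c.pos y).le (by linarith [E.psi_nonneg ((U t y - 0) / (L * s))])
  have k5 := setInt_le_int h (st.mem ha') (S := {y | (A * (2 * L + 2) + 1) * s ≤ H.d t z y})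
    (isClosed_le continuous_const (h.dist.cont t (st.mem hb) z)).measurableSet
    (Al.integrable h.int (st.mem ha') (Al.sm_s0 hv.1 σ ha'))
    (Al.s0_mul (Al.sm_s0 sφ σ ha') (Al.sm_s0 hv.1 σ ha'))
    (fun y => mul_nonneg (φ0 σ y) (vp σ ha' y).le) fun y hy => by
      rw [E.psi_zero, sub_zero, one_mul]
      have a1 : (A * (2 * L + 2) + 1) * s ≤ H.d t z y := hy
      have a2 := (abs_le.1 (g3 σ ha' y)).1
      have a3 := h3 σ t (ha.trans hσ.1) hσ.2.le st.2.2 z y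
      rw [← hs] at a3
      rw [sub_self, Real.sqrt_zero] at a2
      rw [le_div_iff₀ (by positivity)]
      have a4 : A * ((2 * L + 2) * s) ≤ A * (H.d σ z y + s) := by nlinarith
      have a5 := le_of_mul_le_mul_left a4 hA
      linarith
  linarith

namespace Alg

variable (A : H.Alg) {a b : ℝ} {u v : ℝ → M → ℝ}
include A

omit [OpensMeasurableSpace M] in
theorem heat_addc (hs : H.St a b) (hu : H.Heat a b u) (c : ℝ) :
    H.Heat a b fun t x => u t x - c :=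
  ⟨A.sm_sub hu.1 (A.sm_const c), (hu.2.sub (HasDt.static fun _ => c)).congr_d fun t ht z => by
    rw [A.lap_sub (hs.mem ht) (A.sm_s0 hu.1 t ht) (A.s0_const c), A.lap_const (hs.mem ht)]⟩

omit [OpensMeasurableSpace M] in
theorem heat_sq_dt (hs : H.St a b) (hu : H.Heat a b u) : HasDt a b (fun t x => u t x ^ 2)
    fun t x => H.lap t (fun y => u t y ^ 2) x - 2 * H.gam t (u t) (u t) x :=
  (A.heat_comp hs hu (φ := fun y => y ^ 2) (by fun_prop)).congr_d fun t _ x => by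
    have : deriv (fun y : ℝ => y ^ 2) = fun y => 2 * y := by funext y; simp
    rw [this]; simp

omit [OpensMeasurableSpace M] in
/-- Bernstein: `2 (t - a) |∇u|² + u² ≤ sup u(a)²` -/
theorem heat_bern (E : H.Evo) (hs : H.St a b) (hu : H.Heat a b u) {m : ℝ}
    (h0 : ∀ x, u a x ^ 2 ≤ m) : ∀ t ∈ Icc a b, ∀ x,
      2 * (t - a) * H.gam t (u t) (u t) x + u t x ^ 2 ≤ m := by
  have t1 : H.Sm a b fun t (_ : M) => 2 * (t - a) := A.sm_timeU (by fun_prop)
  have d1 : HasDt a b (fun t (_ : M) => 2 * (t - a)) fun _ _ => 2 :=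
    HasDt.time (c' := fun _ => 2) fun t _ => by
      simpa using ((hasDerivAt_id t).sub_const a).const_mul 2
  have sg := A.sm_gam hs hu.1 hu.1
  simpa using A.sub_le hs (A.sm_add (A.sm_mul t1 sg) (A.sm_pow 2 hu.1))
    ((d1.mul (E.dt_gam hs hu.1 hu.2)).add (A.heat_sq_dt hs hu)) (m := m) (c := 0)
    (fun x => by simpa using h0 x) fun t ht x => by
      have hm : t ∈ Icc a b := Ioc_subset_Icc_self ht
      have hT := hs.mem hm
      have su := A.sm_s0 hu.1 t hm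
      rw [A.lap_add t hT (A.s0_cmul _ (A.s0_gam hT su su)) (A.s0_pow 2 su),
        A.lap_cmul hT _ (A.s0_gam hT su su)]
      simp only [sub_self]
      rw [A.gam_const' hT 0 su]
      nlinarith [mul_nonneg (sub_pos.2 ht.1).le (E.hh_nonneg t hT su x)]

/-- the Gaussian Poincaré inequality of Hein and Naber -/
theorem gauss_poinc (I : H.Intg) (E : H.Evo) (hs : H.St a b) (hu : H.Heat a b u)
    (hv : H.Conj a b v) (hp : ∀ t ∈ Icc a b, ∀ x, 0 ≤ v t x) :
    ∫ x, u a x ^ 2 * v a x ∂H.vol a ≤ ∫ x, u b x ^ 2 * v b x ∂H.vol b +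
      2 * (b - a) * ∫ x, H.gam a (u a) (u a) x * v a x ∂H.vol a := by
  have ha : a ∈ Icc a b := ⟨le_rfl, hs.2.1.le⟩
  have k1 := A.pair_le I hs (A.sm_gam hs hu.1 hu.1) (E.dt_gam hs hu.1 hu.2) hv hp fun t ht x => by
    have su := A.sm_s0 hu.1 t ht
    simp only [sub_self]
    rw [A.gam_const' (hs.mem ht) 0 su]
    linarith [E.hh_nonneg t (hs.mem ht) su x]
  have hd := A.pair_dt I hs (A.sm_pow 2 hu.1) (A.heat_sq_dt hs hu) hv
  set q := 2 * ∫ x, H.gam a (u a) (u a) x * v a x ∂H.vol a with hq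
  have hl : ∀ r ∈ Icc a b, HasDerivWithinAt (fun r => -q * r) (-q) (Icc a b) r :=
    fun r _ => by simpa using ((hasDerivAt_id r).const_mul (-q)).hasDerivWithinAt
  have k2 := sub_le_of_deriv hl hd (fun r hr => by
    have e : ∀ x, (H.lap r (fun y => u r y ^ 2) x - 2 * H.gam r (u r) (u r) x -
      H.lap r (fun y => u r y ^ 2) x) * v r x = -2 * (H.gam r (u r) (u r) x * v r x) :=
      fun x => by ring
    simp only [e]
    rw [integral_const_mul]
    have := k1 ha (Ioo_subset_Icc_self hr) hr.1.le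
    simp only at this
    linarith) ha ⟨hs.2.1.le, le_rfl⟩ hs.2.1.le
  linarith

end Alg

theorem gSep (h : H.Ok) (C : H.COut) : H.GSep := fun t0 h0 => by
  have Al := h.alg
  obtain ⟨c1, hc1, h1⟩ := gLow h C t0 h0 5 (by norm_num)
  obtain ⟨κ, hκ, h2⟩ := C.lo t0 h0
  obtain ⟨K0, hK0⟩ := h.evo.R_bd
  have hK : ∀ t ∈ Ioo 0 H.T, ∀ x, |H.R t x| ≤ |K0| := fun t ht x =>
    (hK0 t ht x).trans (le_abs_self K0)
  have K0' := abs_nonneg K0
  generalize |K0| = K at hK K0'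
  obtain ⟨c0, hc0⟩ : ∃ c0, c0 = c1 / 16 * (κ / 8 ^ 4 / Real.exp K) := ⟨_, rfl⟩
  have p0 : 0 < c0 := by rw [hc0]; positivity
  refine ⟨min (1 / 2) (c0 / 8), by positivity, (min_le_left _ _).trans (by norm_num),
    fun {a t ε τ0 s z v} ha c s0 s1 l1 σ hσ l2 F sF F01 y1 y2 d1 d2 f1 f2 => ?_⟩
  generalize hβ : min (1 / 2) (c0 / 8) = β at *
  have β0 : 0 < β := hβ ▸ by positivity
  have β1 : β ≤ 1 / 2 := hβ ▸ min_le_left _ _
  have β2 : β ≤ c0 / 8 := hβ ▸ min_le_right _ _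
  have s2 : 0 < s ^ 2 := by positivity
  have st : H.St σ t := c.st.mono l2 (by linarith [hσ.2]) le_rfl
  have hb : t ∈ Icc σ t := ⟨st.2.1.le, le_rfl⟩
  have ha' : σ ∈ Icc σ t := ⟨le_rfl, st.2.1.le⟩
  have hT := st.mem hb
  have hS := st.mem ha'
  have hv := Al.conj_mono c.conj l2 le_rfl
  have vp := Al.conj_pos h.evo st hv c.pos
  obtain ⟨u, hu, rfl⟩ := h.solv.heat st sF
  have su := Al.sm_s0 hu.1 t hb
  have u0 := Al.heat_ge st hu (fun x => (F01 x).1) t hb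
  have u1 := Al.heat_le st hu (fun x => (F01 x).2) t hb
  have k1 := Al.gauss_poinc h.int h.evo st (Al.heat_addc st hu (u t z)) hv
    fun r hr x => (vp r hr x).le
  have e1 : ∀ x, H.gam σ (fun x => u σ x - u t z) (fun x => u σ x - u t z) x =
      H.gam σ (u σ) (u σ) x := fun x => by
    rw [Al.gam_sub hS sF (Al.s0_const _) (Al.s0_sub sF (Al.s0_const _)), Al.gam_const hS _
      (Al.s0_sub sF (Al.s0_const _)), Al.gam_sub' hS sF (Al.s0_const _) sF, Al.gam_const' hS _ sF]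
    ring
  simp only [e1] at k1
  have G0 : 0 ≤ ∫ x, H.gam σ (u σ) (u σ) x * v σ x ∂H.vol σ :=
    integral_nonneg fun x => mul_nonneg (Al.gam_nonneg σ hS sF x) (vp σ ha' x).le
  have s3 : s ≤ 1 / 2 := s1.trans β1
  have ε1 : ε ≤ s := l1.trans (by nlinarith)
  -- top time
  have k2 : ∫ x, (u t x - u t z) ^ 2 * v t x ∂H.vol t ≤ β ^ 2 + ε := by
    have g1 : ∀ x, H.gam t (fun y => s * u t y) (fun y => s * u t y) x ≤ 1 := fun x => by
      have := Al.heat_bern h.evo st hu (m := 1) (fun y => by nlinarith [F01 y]) t hb x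
      rw [Al.gam_cmul hT _ su (Al.s0_cmul _ su), Al.gam_cmul' hT _ su su]
      nlinarith [Al.gam_nonneg t hT su x, hσ.2, sq_nonneg (u t x)]
    have g2 := Al.lip_glob h.dist hT (Al.s0_cmul s su) g1 z
    have ms : MeasurableSet {y | ε ≤ H.d t z y} :=
      (isClosed_le continuous_const (h.dist.cont t hT z)).measurableSet
    have iv := Al.integrable h.int hT (Al.sm_s0 hv.1 t hb)
    have k : ∫ x, (u t x - u t z) ^ 2 * v t x ∂H.vol t ≤
        ∫ x, (β ^ 2 * v t x + {y | ε ≤ H.d t z y}.indicator (v t) x) ∂H.vol t := by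
      refine integral_mono (Al.integrable h.int hT (Al.s0_mul (Al.s0_pow 2 (Al.s0_sub su
        (Al.s0_const _))) (Al.sm_s0 hv.1 t hb))) ((iv.const_mul _).add (iv.indicator ms))
        fun x => ?_
      have pv := c.pos x
      by_cases hx : x ∈ {y | ε ≤ H.d t z y}
      · simp only [indicator_of_mem hx]
        have : (u t x - u t z) ^ 2 ≤ 1 := by nlinarith [u0 x, u1 x, u0 z, u1 z]
        nlinarith [sq_nonneg β]
      · simp only [indicator_of_notMem hx, add_zero]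
        have a1 : H.d t z x < ε := not_le.1 hx
        have a2 := g2 x
        rw [← mul_sub, abs_mul, abs_of_pos s0] at a2
        have a3 : |u t x - u t z| ≤ β := le_of_mul_le_mul_left (by linarith) s0
        exact mul_le_mul_of_nonneg_right (by rw [← sq_abs]; gcongr) pv.le
    rw [integral_add (iv.const_mul _) (iv.indicator ms), integral_const_mul, c.mass,
      integral_indicator ms] at k
    linarith [c.conc]
  -- bottom time
  have k3 : ∀ y, H.d t z y ≤ 4 * s → (∀ x ∈ H.B t y (s / 8), 1 / 4 ≤ (u σ x - u t z) ^ 2) →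
      c0 ≤ ∫ x, (u σ x - u t z) ^ 2 * v σ x ∂H.vol σ := fun y hy hq => by
    have := h.int.fin σ hS
    have r1 : s ≤ √(t - σ) := Real.le_sqrt_of_sq_le (by linarith [hσ.2])
    have k := setInt_le_int h hS (h.dist.meas_B hT y (s / 8)) (P := fun _ => c1 / 16 / s ^ 4)
      (integrable_const _) (Al.s0_mul (Al.s0_pow 2 (Al.s0_sub sF (Al.s0_const (u t z))))
        (Al.sm_s0 hv.1 σ ha')) (fun x => mul_nonneg (sq_nonneg _) (vp σ ha' x).le) fun x hx => by
      have a1 : H.d t y x < s / 8 := hx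
      have a2 := h1 ha c σ ⟨l2, st.2.1⟩ (by nlinarith [hσ.1]) (ε1.trans r1) (ε1.trans s3) x
        (by linarith [h.dist.tri t hT z y x])
      have a3 : c1 / (2 * s ^ 2) ^ 2 ≤ c1 / (t - σ) ^ 2 := by
        have := sub_pos.2 st.2.1
        gcongr; linarith [hσ.1]
      have a4 : c1 / 16 / s ^ 4 = 1 / 4 * (c1 / (2 * s ^ 2) ^ 2) := by field_simp; norm_num
      rw [a4]
      exact mul_le_mul (hq x hx) (a3.trans a2) (by positivity) (sq_nonneg _)
    rw [setIntegral_const, smul_eq_mul] at k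
    refine le_trans ?_ k
    have a5 := (h2 t ⟨ha.trans c.st.2.1.le, hT.2⟩ y (s / 8) ⟨by positivity, by linarith⟩).trans
      (vol_real_le2 h.int hK hS hT _)
    have a6 : Real.exp (K * |t - σ|) ≤ Real.exp K := Real.exp_le_exp.2
      (mul_le_of_le_one_right K0' (by rw [abs_of_pos (sub_pos.2 st.2.1)]; nlinarith [hσ.1]))
    have a7 := a5.trans (mul_le_mul_of_nonneg_right a6 measureReal_nonneg)
    rw [← div_le_iff₀' (Real.exp_pos K)] at a7
    refine le_trans (le_of_eq ?_) (mul_le_mul_of_nonneg_right a7 (by positivity))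
    rw [hc0]; field_simp
  have k4 : c0 ≤ ∫ x, (u σ x - u t z) ^ 2 * v σ x ∂H.vol σ := by
    rcases le_total (u t z) (1 / 2) with hm | hm
    · exact k3 y1 d1 fun x hx => by rw [f1 x hx]; nlinarith
    · exact k3 y2 d2 fun x hx => by rw [f2 x hx]; nlinarith
  have k5 := mul_le_mul_of_nonneg_right (show 2 * (t - σ) ≤ 4 * s ^ 2 by linarith [hσ.1]) G0
  have k6 : ε ≤ β := ε1.trans s1
  nlinarith

end HC

end Crest.Agent.N207

end
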