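import Crest.Agent.N207.C.Stmt

/-!
# Row 207, block G, entropy half (helper23): interface

`Pc c t u = |Hess u - c g|²`; `Hes` lists the three tensor facts that are used;
`CS` is a conjugate heat solution from a tiny bump, `Reg` a regular space-time region.
-/

set_option autoImplicit false
set_option linter.dupNamespace false
open Set MeasureTheory
open scoped ContDiff

noncomputable section

namespace Crest.Agent.N207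

namespace HC

variable {M : Type*} [TopologicalSpace M] [MeasurableSpace M] (H : HC M)

/-- `|Hess u - c g|²` -/
def Pc (c t : ℝ) (u : M → ℝ) (x : M) : ℝ := H.hh t u x - 2 * c * H.lap t u x + 4 * c ^ 2

/-- the tensor facts on Hessians (`G = |∇³ u|²`) -/
structure Hes : Prop where
  heat : ∃ C, 0 ≤ C ∧ ∀ {a b : ℝ} {u : ℝ → M → ℝ}, H.St a b → H.Heat a b u →
    ∃ G : ℝ → M → ℝ, H.Sm a b G ∧ (∀ t ∈ Icc a b, ∀ x, 0 ≤ G t x) ∧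
      (∀ t ∈ Icc a b, ∀ x, H.N 0 t x * H.gam t (u t) (u t) x ≤
        C * (G t x + H.Q 0 t x * H.gam t (u t) (u t) x)) ∧
      ∀ c : ℝ, (∀ t ∈ Icc a b, ∀ x,
          H.gam t (H.Pc c t (u t)) (H.Pc c t (u t)) x ≤ 4 * H.Pc c t (u t) x * G t x) ∧
        ∀ P' : ℝ → M → ℝ, HasDt a b (fun t => H.Pc c t (u t)) P' → ∀ t ∈ Icc a b, ∀ x,
          P' t x - H.lap t (H.Pc c t (u t)) x ≤ -2 * G t x +
            C * (√(H.N 0 t x) * H.Pc c t (u t) x + |c| * √(H.Q 0 t x) * √(H.Pc c t (u t) x))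
  stat : ∃ C, 0 ≤ C ∧ ∀ {a b : ℝ} {u : M → ℝ} (c : ℝ) {P' : ℝ → M → ℝ}, H.St a b → H.S0 u →
    HasDt a b (fun t => H.Pc c t u) P' → ∀ t ∈ Icc a b, ∀ x,
      |P' t x| ≤ C * √(H.Pc c t u x) *
        (√(H.Q 1 t x) * √(H.gam t u u x) + √(H.Q 0 t x) * (√(H.Pc c t u x) + |c|))
  kato : ∀ t ∈ Ioo 0 H.T, ∀ {u : M → ℝ}, H.S0 u → ∀ (c : ℝ) (x : M),
    H.gam t (fun y => H.gam t u u y - 2 * c * u y) (fun y => H.gam t u u y - 2 * c * u y) x ≤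
      4 * H.gam t u u x * H.Pc c t u x

/-- a conjugate heat solution on `[a, t]` from an `ε`-bump at `(z, t)` -/
structure CS (a t : ℝ) (z : M) (ε τ0 : ℝ) (v : ℝ → M → ℝ) : Prop where
  st : H.St a t
  conj : H.Conj a t v
  pos : ∀ x, 0 < v t x
  mass : ∫ x, v t x ∂H.vol t = 1
  t0 : 0 < τ0
  t1 : τ0 < ε
  hW : H.W t τ0 (v t) ≤ ε
  hN : |H.Na t τ0 (v t)| ≤ ε
  conc : ∫ y in {y | ε ≤ H.d t z y}, v t y ∂H.vol t ≤ ε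

/-- `W` along `v` -/
def Wv (t τ0 : ℝ) (v : ℝ → M → ℝ) (σ : ℝ) : ℝ := H.W σ (τ0 + t - σ) (v σ)

/-- regular at scale `s` on `Ω × [t - 2 s², t]`: `|Rm| ≤ B s⁻²`, `|Ric| ≤ δ s⁻²`,
`|∇ Ric| ≤ δ s⁻³` -/
def Reg (t s B δ : ℝ) (Ω : Set M) : Prop :=
  ∀ σ ∈ Icc (t - 2 * s ^ 2) t, ∀ x ∈ Ω,
    √(H.N 0 σ x) ≤ B / s ^ 2 ∧ √(H.Q 0 σ x) ≤ δ / s ^ 2 ∧ √(H.Q 1 σ x) ≤ δ / s ^ 3

/-- closed metric annulus -/
def An (t : ℝ) (z : M) (r R : ℝ) : Set M := {x | r ≤ H.d t z x ∧ H.d t z x ≤ R}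

/-- (a) lower bound for the conjugate solution -/
def GLow : Prop :=
  ∀ t0 > 0, ∀ A ≥ (1 : ℝ), ∃ c, 0 < c ∧ ∀ {a t ε τ0 : ℝ} {z : M} {v : ℝ → M → ℝ}, t0 ≤ a →
    H.CS a t z ε τ0 v → ∀ σ ∈ Ico a t, t - σ ≤ 1 → ε ≤ √(t - σ) → ε ≤ 1 / 2 →
      ∀ y, H.d t z y ≤ A * √(t - σ) → c / (t - σ) ^ 2 ≤ v σ y

/-- (a') tightness of the conjugate solution -/
def GTight : Prop :=
  ∀ t0 > 0, ∀ β > (0 : ℝ), ∃ A, 1 ≤ A ∧ ∀ {a t ε τ0 : ℝ} {z : M} {v : ℝ → M → ℝ}, t0 ≤ a →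
    H.CS a t z ε τ0 v → ∀ σ ∈ Ico a t, ε ≤ √(t - σ) →
      ∫ y in {y | A * √(t - σ) ≤ H.d t z y}, v σ y ∂H.vol σ ≤ ε + β

/-- (c) Gaussian Poincaré inequality, in the form that is used: a function that is `1` on one
ball and `0` on another has a definite energy -/
def GSep : Prop :=
  ∀ t0 > 0, ∃ β, 0 < β ∧ β ≤ 1 ∧ ∀ {a t ε τ0 s : ℝ} {z : M} {v : ℝ → M → ℝ}, t0 ≤ a →
    H.CS a t z ε τ0 v → 0 < s → s ≤ β → ε ≤ β * s → ∀ σ ∈ Icc (t - 2 * s ^ 2) (t - s ^ 2), a ≤ σ →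
      ∀ {F : M → ℝ}, H.S0 F → (∀ x, 0 ≤ F x ∧ F x ≤ 1) → ∀ y1 y2 : M, H.d t z y1 ≤ 4 * s →
        H.d t z y2 ≤ 4 * s → (∀ x ∈ H.B t y1 (s / 8), F x = 1) →
        (∀ x ∈ H.B t y2 (s / 8), F x = 0) →
          β ≤ s ^ 2 * ∫ x, H.gam σ F F x * v σ x ∂H.vol σ


end HC

end Crest.Agent.N207

end
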