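import Crest.Agent.N207.G.Df
import Crest.Agent.N207.T.Lo2
import Crest.Agent.N207.G.EnA2_Mg
import Crest.Agent.N207.G.EnBad
import Crest.Agent.N207.C.VolUp
import Crest.Agent.N207.G.Hes

-- ▼ part N207/G/EnFD
section

/-!
# Row 207, block G (helper22): the Gaussian integral over a Euclidean pre-neck (statement)
-/

set_option autoImplicit false
set_option linter.unusedSectionVars false

open scoped ContDiff Manifold Topology
open Set MeasureTheory Filter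
open Crest.GeometryTopology.CoordMetric
open Crest.Agent.N207.Sk

noncomputable section

namespace Crest.Agent.N207.Gs

variable (M : Type*) [TopologicalSpace M] [ChartedSpace E4 M] [IsManifold 𝓘(ℝ, E4) ∞ M]
  [T3Space M] [ConnectedSpace M] [MeasurableSpace M] [BorelSpace M]

/-- the Gaussian integral over an annulus inside a pre-neck with trivial group -/
def EUC : Prop :=
  ∀ o : ℝ, 0 < o → ∃ η ι : ℝ, 0 < η ∧ 0 < ι ∧ ∀ (g : Met 4 M) (z : M) (Ψ : E4 → M)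
    (a b l r1 r2 : ℝ), PJ g z ⊥ Ψ a b η 2 η → 0 < a → 2 * a ≤ r1 → 2 * r2 ≤ b → 0 < l →
      l * r1 ^ 2 ≤ ι → 1 ≤ ι * (l * r2 ^ 2) → 0 ≤ r2 →
      (1 - o) * (Real.pi / l) ^ 2 ≤
        ∫ x in {x | r1 ≤ g.d z x ∧ g.d z x ≤ r2}, Real.exp (-(l * g.d z x ^ 2)) ∂g.vol

end Crest.Agent.N207.Gs

end
end

-- ▼ part N207/G/EnF3
section

/-!
# Row 207, block G (helper90): the Gaussian integral over a Euclidean pre-neck
-/

set_option autoImplicit false
set_option linter.unusedSectionVars false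

open scoped ContDiff Manifold Topology
open Set MeasureTheory Filter Metric
open Crest.GeometryTopology.CoordMetric
open Crest.Agent.N207.Sk

noncomputable section

namespace Crest.Agent.N207.Gs

theorem gauss_int {c : ℝ} (hc : 0 < c) : Integrable fun y : E4 => Real.exp (-c * ‖y‖ ^ 2) := by
  refine ((GaussianFourier.integrable_cexp_neg_mul_sq_norm_add (V := E4) (b := c) (by simpa using hc)
    0 0).norm).congr (Eventually.of_forall fun y => ?_)
  simp only [zero_mul, add_zero, Complex.norm_exp]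
  congr 1
  simp [← Complex.ofReal_pow]

theorem gauss_val {c : ℝ} (hc : 0 < c) :
    ∫ y : E4, Real.exp (-c * ‖y‖ ^ 2) = (Real.pi / c) ^ 2 := by
  rw [GaussianFourier.integral_rexp_neg_mul_sq_norm hc, finrank_euclideanSpace_fin,
    ← Real.rpow_natCast]
  norm_num

theorem gauss_ann {l c ι r1 r2 : ℝ} (hl : 0 < l) (hc : l ≤ c) (hι : 0 < ι) (h1 : 0 < r1)
    (h2 : 1 ≤ ι * (l * r2 ^ 2)) (h3 : 0 ≤ r2) :
    (Real.pi / c) ^ 2 - T.om * (2 * r1) ^ 4 - 8 * ι * (Real.pi / (l / 2)) ^ 2 ≤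
      ∫ y in {y : E4 | 2 * r1 ≤ ‖y‖ ∧ ‖y‖ ≤ r2 / 2}, Real.exp (-c * ‖y‖ ^ 2) := by
  have mB : MeasurableSet {y : E4 | 2 * r1 ≤ ‖y‖ ∧ ‖y‖ ≤ r2 / 2} :=
    ((isClosed_le continuous_const continuous_norm).inter
      (isClosed_le continuous_norm continuous_const)).measurableSet
  have c0 := hl.trans_le hc
  have i1 : Integrable ((ball (0 : E4) (2 * r1)).indicator (1 : E4 → ℝ)) :=
    (integrable_indicator_iff measurableSet_ball).2 (integrableOn_const measure_ball_lt_top.ne)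
  have i2 := (gauss_int (half_pos hl)).const_mul (8 * ι)
  rw [← integral_indicator mB, ← gauss_val c0, ← gauss_val (half_pos hl), ← integral_const_mul,
    ← T.vol_ball 0 (by positivity), ← integral_indicator_one measurableSet_ball,
    ← integral_sub (gauss_int c0) i1]
  refine (integral_sub ((gauss_int c0).sub i1) i2).symm.le.trans ?_
  refine integral_mono (((gauss_int c0).sub i1).sub i2) ((gauss_int c0).indicator mB) fun y => ?_
  have p1 := Real.exp_pos (-c * ‖y‖ ^ 2)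
  have p2 : 0 ≤ 8 * ι * Real.exp (-(l / 2) * ‖y‖ ^ 2) := by positivity
  have p3 : 0 ≤ (ball (0 : E4) (2 * r1)).indicator (1 : E4 → ℝ) y :=
    indicator_nonneg (fun _ _ => zero_le_one) y
  simp only [Pi.sub_apply]
  by_cases k : y ∈ {y : E4 | 2 * r1 ≤ ‖y‖ ∧ ‖y‖ ≤ r2 / 2}
  · rw [indicator_of_mem k]; linarith
  rw [indicator_of_notMem k]
  rcases not_and_or.1 k with k | k
  · rw [indicator_of_mem (mem_ball_zero_iff.2 (not_le.1 k))]
    have : Real.exp (-c * ‖y‖ ^ 2) ≤ 1 := Real.exp_le_one_iff.2 (by nlinarith [sq_nonneg ‖y‖])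
    simp only [Pi.one_apply]; linarith
  · have q1 : (r2 / 2) ^ 2 ≤ ‖y‖ ^ 2 := pow_le_pow_left₀ (by positivity) (not_le.1 k).le 2
    have q2 : 1 ≤ 8 * ι * (l / 2 * ‖y‖ ^ 2) := by nlinarith [mul_pos hι hl]
    have q3 := Real.add_one_le_exp (l / 2 * ‖y‖ ^ 2)
    have q4 : Real.exp (-c * ‖y‖ ^ 2) * Real.exp (l / 2 * ‖y‖ ^ 2) ≤
        Real.exp (-(l / 2) * ‖y‖ ^ 2) := by
      rw [← Real.exp_add]; exact Real.exp_le_exp.2 (by nlinarith [sq_nonneg ‖y‖])
    have q5 : 1 ≤ 8 * ι * Real.exp (l / 2 * ‖y‖ ^ 2) := by nlinarith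
    nlinarith [mul_le_mul_of_nonneg_left q5 p1.le, mul_le_mul_of_nonneg_left q4 hι.le]

variable {M : Type*} [TopologicalSpace M] [ChartedSpace E4 M] [IsManifold 𝓘(ℝ, E4) ∞ M]
  [T3Space M] [ConnectedSpace M] [MeasurableSpace M] [BorelSpace M]

theorem euc [CompactSpace M] : EUC M := by
  intro o' ho'
  obtain ⟨o, o0, o1, o2⟩ : ∃ o : ℝ, 0 < o ∧ o ≤ 1 ∧ o ≤ o' :=
    ⟨min 1 o', by positivity, min_le_left _ _, min_le_right _ _⟩
  obtain ⟨η0, hη0, hn⟩ := T.near_one (κ := o / 4) (by positivity)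
  have om0 := T.om_pos
  obtain ⟨η, e0, e1, e2⟩ : ∃ η : ℝ, 0 < η ∧ η ≤ η0 ∧ η ≤ o / 16 :=
    ⟨min η0 (o / 16), by positivity, min_le_left _ _, min_le_right _ _⟩
  obtain ⟨ι, i0, i1⟩ : ∃ ι : ℝ, 0 < ι ∧ ι * (128 + 8 * T.om) = o :=
    ⟨o / (128 + 8 * T.om), by positivity, by field_simp⟩
  refine ⟨η, ι, e0, i0, fun g z Ψ a b l r1 r2 ⟨hN, hJ⟩ ha h1 h2 hl h3 h4 h5 => ?_⟩
  have fin := V.isFinite g
  have cd : Continuous (g.d z) :=
    (continuous_const.dist continuous_id : Continuous fun q : Sl g => dist (α := Sl g) z q)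
  set B := {y : E4 | 2 * r1 ≤ ‖y‖ ∧ ‖y‖ ≤ r2 / 2}
  have mB : MeasurableSet B := ((isClosed_le continuous_const continuous_norm).inter
    (isClosed_le continuous_norm continuous_const)).measurableSet
  have sB : B ⊆ shell a b := fun y hy => ⟨by linarith [hy.1], by linarith [hy.1, hy.2]⟩
  have inj : InjOn Ψ B := fun x hx y hy e => by
    obtain ⟨γ, hγ, rfl⟩ := (hN.fib x (sB hx) y (sB hy)).1 e
    rw [Subgroup.mem_bot.1 hγ]; rfl
  obtain ⟨c, hc⟩ : ∃ c, c = l * (1 + η) ^ 2 := ⟨_, rfl⟩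
  have c1 : l ≤ c := by rw [hc]; nlinarith [mul_pos hl e0, mul_pos hl (mul_pos e0 e0)]
  have fi : Integrable (fun x => Real.exp (-(l * g.d z x ^ 2))) g.vol :=
    (integrable_const (1 : ℝ)).mono' (by fun_prop) (Eventually.of_forall fun x => by
      rw [Real.norm_of_nonneg (Real.exp_pos _).le]
      exact Real.exp_le_one_iff.2 (neg_nonpos.2 (by positivity)))
  have key : (1 - o / 4) * ∫ y in B, Real.exp (-c * ‖y‖ ^ 2) ≤
      ∫ x in {x | r1 ≤ g.d z x ∧ g.d z x ≤ r2}, Real.exp (-(l * g.d z x ^ 2)) ∂g.vol := by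
    rw [← ENNReal.ofReal_le_ofReal_iff (integral_nonneg fun _ => (Real.exp_pos _).le),
      ← integral_const_mul, ofReal_integral_eq_lintegral_ofReal
        ((gauss_int (hl.trans_le c1)).integrableOn.const_mul _)
        (Eventually.of_forall fun y => mul_nonneg (by linarith) (Real.exp_pos _).le),
      ofReal_integral_eq_lintegral_ofReal fi.integrableOn
        (Eventually.of_forall fun y => (Real.exp_pos _).le)]
    refine le_trans ?_ (lintegral_mono_set (s := Ψ '' B) ?_)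
    · rw [V.lintegral_par hN.par g sB mB inj]
      refine setLIntegral_mono' mB fun y hy => ?_
      rw [← ENNReal.ofReal_mul (V.pdens_nonneg _ _ _)]
      have d1 := abs_le.1 (hN.sw y (sB hy))
      have d2 : g.d z (Ψ y) ^ 2 ≤ ((1 + η) * ‖y‖) ^ 2 :=
        pow_le_pow_left₀ (by nlinarith [norm_nonneg y]) (by linarith) 2
      refine ENNReal.ofReal_le_ofReal (mul_le_mul (hn _ fun i j =>
        (T.JG_entry (hJ y (sB hy)) i j).trans e1).1 (Real.exp_le_exp.2 ?_) (Real.exp_pos _).le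
        (V.pdens_nonneg _ _ _))
      rw [hc]; nlinarith
    · rintro _ ⟨y, hy, rfl⟩
      have d1 := abs_le.1 (hN.sw y (sB hy))
      have : η * ‖y‖ ≤ 1 / 2 * ‖y‖ := mul_le_mul_of_nonneg_right (by linarith) (norm_nonneg y)
      exact ⟨by linarith [hy.1], by linarith [hy.2]⟩
  have ann := gauss_ann hl c1 i0 (by linarith : 0 < r1) h4 h5
  obtain ⟨P, hP⟩ : ∃ P, P = (Real.pi / l) ^ 2 := ⟨_, rfl⟩
  have P0 : 0 ≤ P := by rw [hP]; positivity
  have t1 : (1 - 4 * η) * P ≤ (Real.pi / c) ^ 2 := by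
    have : (Real.pi / c) ^ 2 * (1 + η) ^ 4 = P := by rw [hP, hc]; field_simp
    rw [← this]
    have : (1 - 4 * η) * (1 + η) ^ 4 ≤ 1 := by
      nlinarith [mul_pos e0 e0, pow_pos e0 3, pow_pos e0 4, pow_pos e0 5]
    nlinarith [sq_nonneg (Real.pi / c)]
  have t2 : (Real.pi / (l / 2)) ^ 2 = 4 * P := by rw [hP]; field_simp; norm_num
  have t3 : (2 * r1) ^ 4 ≤ 2 * ι * P := by
    have p : 9 ≤ P * l ^ 2 := by
      rw [hP, div_pow, div_mul_cancel₀ _ (by positivity)]; nlinarith [Real.pi_gt_three]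
    have q : (l * r1 ^ 2) ^ 2 ≤ ι ^ 2 := pow_le_pow_left₀ (by positivity) h3 2
    have i2 : ι ≤ 1 := by nlinarith [mul_pos i0 om0]
    refine le_of_mul_le_mul_right ?_ (by positivity : 0 < l ^ 2)
    nlinarith
  rw [t2] at ann
  have t4 : (1 - 3 * o / 4) * P ≤ ∫ y in B, Real.exp (-c * ‖y‖ ^ 2) := by
    refine le_trans ?_ ann
    have := mul_le_mul_of_nonneg_left t3 om0.le
    have u1 : (4 * η + 2 * ι * T.om + 32 * ι) * P ≤ 3 * o / 4 * P :=
      mul_le_mul_of_nonneg_right (by nlinarith) P0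
    nlinarith
  rw [← hP]
  refine le_trans ?_ ((mul_le_mul_of_nonneg_left t4 (by linarith)).trans key)
  nlinarith [mul_nonneg (mul_pos o0 o0).le P0, mul_nonneg (sub_nonneg.2 o2) P0]

end Crest.Agent.N207.Gs

end
end

-- ▼ part N207/G/EnE1
section

/-!
# Row 207, block G (helper22): tools for the epsilon regularity from the entropy
-/

set_option autoImplicit false
set_option linter.dupNamespace false
set_option linter.unusedSectionVars false
open Set MeasureTheory Filter Topology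
open scoped ContDiff

noncomputable section

namespace Crest.Agent.N207.Ge

open HC

/-- discrete point picking -/
theorem pick_pt {M : Type*} {d : M → M → ℝ} {P : M → ℝ → Prop} {Λ r0 r1 : ℝ} {z : M}
    (tri : ∀ x y w, d x w ≤ d x y + d y w) (h0 : d z z ≤ 0) (hr0 : 0 < r0) (hr1 : 0 < r1)
    (ht : ∀ y r, 0 < r → r < r1 → ¬P y r) (hz : P z r0) :
    ∃ y r, 0 < r ∧ r ≤ r0 ∧ d z y ≤ 2 * Λ * (r0 - r) ∧ P y r ∧
      ∀ y', d y y' < Λ * r → ¬P y' (r / 2) := by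
  by_contra hn
  push Not at hn
  have key : ∀ k : ℕ, ∃ y, d z y ≤ 2 * Λ * (r0 - r0 / 2 ^ k) ∧ P y (r0 / 2 ^ k) := fun k => by
    induction k with
    | zero => exact ⟨z, by simpa using h0, by simpa using hz⟩
    | succ k ih =>
      obtain ⟨y, h1, h2⟩ := ih
      obtain ⟨y', h3, h4⟩ := hn y _ (by positivity)
        (div_le_self hr0.le (one_le_pow₀ one_le_two)) h1 h2
      have e : r0 / 2 ^ (k + 1) = r0 / 2 ^ k / 2 := by rw [pow_succ, div_div]
      exact ⟨y', by rw [e]; linarith [tri z y y'], by rwa [e]⟩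
  obtain ⟨k, hk⟩ := pow_unbounded_of_one_lt (r0 / r1) one_lt_two
  obtain ⟨y, -, h⟩ := key k
  exact ht y _ (by positivity) (by
    rw [div_lt_iff₀ (by positivity)]; rw [div_lt_iff₀ hr1] at hk; linarith) h


variable {M : Type*} [TopologicalSpace M] [CompactSpace M] [MeasurableSpace M]
  [OpensMeasurableSpace M] {H : HC M}

theorem int_cmp0 (A : H.Alg) (I : H.Intg) {K : ℝ} (hK : ∀ t ∈ Ioo 0 H.T, ∀ x, |H.R t x| ≤ K)
    {s t : ℝ} (hs : s ∈ Ioo 0 H.T) (ht : t ∈ Ioo 0 H.T) {f : M → ℝ} (hf : Integrable f (H.vol s))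
    (h0 : ∀ x, 0 ≤ f x) : ∫ x, f x ∂H.vol t ≤ Real.exp (K * |t - s|) * ∫ x, f x ∂H.vol s := by
  have _ := A.T_pos
  have k := integral_mono_measure (I.vol_le hK s hs t ht) (Eventually.of_forall h0)
    (hf.smul_measure ENNReal.ofReal_ne_top)
  rwa [integral_smul_measure, ENNReal.toReal_ofReal (Real.exp_pos _).le, smul_eq_mul] at k

theorem int_cmp (A : H.Alg) (I : H.Intg) (E : H.Evo) : ∃ W, 1 ≤ W ∧ ∀ s ∈ Ioo 0 H.T,
    ∀ t ∈ Ioo 0 H.T, (∀ S, (H.vol t).real S ≤ W * (H.vol s).real S) ∧ ∀ f : M → ℝ, H.S0 f →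
      (∀ x, 0 ≤ f x) → ∫ x, f x ∂H.vol t ≤ W * ∫ x, f x ∂H.vol s := by
  obtain ⟨K, hK⟩ := E.R_bd
  have hK' : ∀ t ∈ Ioo 0 H.T, ∀ x, |H.R t x| ≤ |K| := fun t ht x =>
    (hK t ht x).trans (le_abs_self _)
  have hT := A.T_pos
  refine ⟨Real.exp (|K| * H.T), Real.one_le_exp (by positivity), fun s hs t ht => ?_⟩
  have e : Real.exp (|K| * |t - s|) ≤ Real.exp (|K| * H.T) := Real.exp_le_exp.2
    (mul_le_mul_of_nonneg_left (abs_le.2 ⟨by linarith [hs.2, ht.1], by linarith [hs.1, ht.2]⟩)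
      (abs_nonneg _))
  exact ⟨fun S => (vol_real_le2 I hK' hs ht S).trans
    (mul_le_mul_of_nonneg_right e measureReal_nonneg), fun f hf h0 =>
    (int_cmp0 A I hK' hs ht (A.integrable I hs hf) h0).trans
      (mul_le_mul_of_nonneg_right e (integral_nonneg h0))⟩

theorem int_le_vol' {μ : Measure M} [IsFiniteMeasure μ] {S : Set M} (hS : MeasurableSet S)
    {g : M → ℝ} {m : ℝ} (g0 : ∀ z, 0 ≤ g z) (h1 : ∀ z ∈ S, g z ≤ m) (h2 : ∀ z, z ∉ S → g z = 0) :
    ∫ z, g z ∂μ ≤ m * μ.real S := by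
  have : ∫ z, S.indicator (fun _ => m) z ∂μ = m * μ.real S := by
    rw [integral_indicator hS]; simp [mul_comm]
  rw [← this]
  refine integral_mono_of_nonneg (Eventually.of_forall g0) ((integrable_const m).indicator hS)
    (Eventually.of_forall fun z => ?_)
  by_cases hz : z ∈ S
  · simpa [hz] using h1 z hz
  · simp [hz, h2 z hz]

/-- the set where an almost conical function is small has small volume -/
theorem small_set (A : H.Alg) (I : H.Intg) {t : ℝ} (ht : t ∈ Ioo 0 H.T) {w φ : M → ℝ}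
    (hw : H.S0 w) (hφ : H.S0 φ) {S : Set M} (hS : MeasurableSet S) {m q p Γ : ℝ} (hq : 0 < q)
    (hp : 0 ≤ p) (hΓ : 0 ≤ Γ) (φ0 : ∀ x, 0 ≤ φ x) (φ1 : ∀ x, φ x ≤ 1) (φS : ∀ x ∉ S, φ x = 0)
    (φg : ∀ x, H.gam t φ φ x ≤ Γ ^ 2) (h1 : ∀ x ∈ S, 8 - p ≤ H.lap t w x)
    (h2 : ∀ x ∈ S, H.gam t w w x ≤ 4 * (w x - m)) :
    8 * ∫ x, φ x * (q ^ 4 / (q ^ 4 + (w x - m) ^ 2)) ^ 2 ∂H.vol t ≤
      (p + 2 * Γ * q) * (H.vol t).real S := by
  have := I.fin t ht
  have q4 : 0 < q ^ 4 := by positivity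
  have cZ : ContDiff ℝ ∞ fun y : ℝ => q ^ 4 / (q ^ 4 + (y - m) ^ 2) :=
    contDiff_const.div (by fun_prop) fun y => by positivity
  have dZ : ∀ y, deriv (fun y : ℝ => q ^ 4 / (q ^ 4 + (y - m) ^ 2)) y =
      -(2 * q ^ 4 * (y - m)) / (q ^ 4 + (y - m) ^ 2) ^ 2 := fun y => by
    have h3 : HasDerivAt (fun y : ℝ => q ^ 4 + (y - m) ^ 2) (2 * (y - m)) y := by
      simpa using (((hasDerivAt_id y).sub_const m).fun_pow 2).const_add (q ^ 4)
    rw [((hasDerivAt_const y (q ^ 4)).fun_div h3 (by positivity)).deriv]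
    ring
  have sZ := A.s0_compU cZ hw
  have k1 := I.ibp t ht (A.s0_mul hφ sZ) hw
  have i1 := A.integrable I ht (A.s0_mul (A.s0_mul hφ sZ) (A.s0_lap ht hw))
  have i2 := A.integrable I ht (A.s0_gam ht (A.s0_mul hφ sZ) hw)
  have i3 := A.integrable I ht (A.s0_cmul 8 (A.s0_mul hφ (A.s0_pow 2 sZ)))
  have k2 : ∫ x, (8 * (φ x * (q ^ 4 / (q ^ 4 + (w x - m) ^ 2)) ^ 2) -
      (φ x * (q ^ 4 / (q ^ 4 + (w x - m) ^ 2)) * H.lap t w x + H.gam t
        (fun y => φ y * (q ^ 4 / (q ^ 4 + (w y - m) ^ 2))) w x)) ∂H.vol t ≤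
      ∫ x, S.indicator (fun _ => p + 2 * Γ * q) x ∂H.vol t := by
    refine integral_mono (i3.sub (i1.add i2)) ((integrable_const _).indicator hS) fun x => ?_
    simp only
    rw [A.gam_mul t ht hφ sZ hw, A.gam_compU ht cZ hw hw, dZ]
    by_cases hx : x ∈ S
    swap
    · have g0 := (A.at_min ht hφ (x := x) (Eventually.of_forall fun y => by
        rw [φS x hx]; exact φ0 y)).2
      simp [hx, φS x hx, A.gam_eq_zero ht hφ hw g0]
    rw [indicator_of_mem hx]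
    have g0 := A.gam_nonneg t ht hw x
    have a1 := h1 x hx
    have a2 := h2 x hx
    have a3 := A.gam_sq ht hφ hw x
    generalize w x - m = β at *
    have β0 : 0 ≤ β := by linarith
    have D0 : 0 < q ^ 4 + β ^ 2 := by positivity
    obtain ⟨Z, hZ⟩ : ∃ Z, Z = q ^ 4 / (q ^ 4 + β ^ 2) := ⟨_, rfl⟩
    have Z0 : 0 < Z := by rw [hZ]; positivity
    have Z1 : Z ≤ 1 := by rw [hZ, div_le_one D0]; nlinarith [sq_nonneg β]
    have b1 : 2 * q ^ 4 * β / (q ^ 4 + β ^ 2) ^ 2 * H.gam t w w x ≤ 8 * Z * (1 - Z) := by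
      refine (mul_le_mul_of_nonneg_left a2 (by positivity)).trans_eq ?_
      rw [hZ]; field_simp; ring
    have b2 : Z ^ 2 * β ≤ q ^ 2 := by
      have : Z * β ≤ q ^ 2 := by
        rw [hZ, div_mul_eq_mul_div, div_le_iff₀ D0]
        nlinarith [mul_nonneg (sq_nonneg q) (sq_nonneg (q ^ 2 - β)), mul_nonneg q4.le β0]
      nlinarith [mul_nonneg Z0.le β0]
    have b3 : -(Z * H.gam t φ w x) ≤ 2 * Γ * q := by
      refine (neg_le_abs _).trans (abs_le_of_sq_le_sq' ?_ (by positivity) |> abs_le.2)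
      have c1 : H.gam t φ w x ^ 2 ≤ Γ ^ 2 * (4 * β) :=
        a3.trans (mul_le_mul (φg x) a2 g0 (sq_nonneg _))
      nlinarith [mul_le_mul_of_nonneg_left c1 (sq_nonneg Z),
        mul_le_mul_of_nonneg_left b2 (sq_nonneg Γ)]
    rw [← hZ, neg_div]
    have b4 := mul_le_mul_of_nonneg_left b1 (φ0 x)
    have b5 := mul_le_mul_of_nonneg_left a1 (mul_nonneg (φ0 x) Z0.le)
    have b6 : φ x * Z * p ≤ p := mul_le_of_le_one_left hp (by nlinarith [φ0 x, φ1 x])
    nlinarith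
  rw [integral_sub i3 (i1.fun_add i2), integral_add i1 i2, k1, integral_const_mul,
    integral_indicator hS, setIntegral_const, smul_eq_mul] at k2
  linarith

/-- the flux of a static cutoff through a regular region -/
theorem flux_reg (A : H.Alg) (I : H.Intg) (E : H.Evo) (hF : H.Flux) : ∃ C, 0 < C ∧
    ∀ {t s B δ Γ V ρ : ℝ} {φ : M → ℝ} {S : Set M}, H.St (t - 2 * s ^ 2) t → 0 < s → 0 ≤ B → 0 ≤ δ →
      δ ≤ 1 / 4 → 0 ≤ Γ → MeasurableSet S → H.Reg t s B δ S → H.S0 φ → (∀ x, 0 ≤ φ x) →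
      (∀ x, φ x ≤ 1) → (∀ x ∉ S, φ x = 0) → (∀ x, H.gam t φ φ x ≤ (Γ / s) ^ 2) →
      (∀ r ∈ Icc (t - 2 * s ^ 2) t, (H.vol r).real S ≤ V * s ^ 4) → ρ ∈ Icc (t - 2 * s ^ 2) t →
      ∫ x, φ x * H.N 0 t x ∂H.vol t ≤ ∫ x, φ x * H.N 0 ρ x ∂H.vol ρ + C * (Γ * B + 1) * V * δ := by
  obtain ⟨C, hC, hF⟩ := hF
  refine ⟨4 * C + 1, by positivity,
    fun {t s B δ Γ V ρ φ S} hs s0 B0 δ0 δ1 Γ0 mS reg sφ φ0 φ1 φS φg vS hρ => ?_⟩
  have tm : t ∈ Icc (t - 2 * s ^ 2) t := ⟨hs.2.1.le, le_rfl⟩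
  have hT := hs.mem tm
  have hR := hs.mem hρ
  have V0 : 0 ≤ V := by
    have := (measureReal_nonneg).trans (vS t tm)
    exact nonneg_of_mul_nonneg_left this (by positivity)
  have k1 := hF hs (A.sm_static sφ) (HasDt.static φ) ρ t hρ.1 hρ.2 le_rfl
  have k2 : ∀ r ∈ Icc (t - 2 * s ^ 2) t, ∫ x, (|(0 : ℝ)| * |H.Pf r x| + C * (√(H.gam r φ φ x) *
      √(H.N 0 r x) * √(H.Q 1 r x))) ∂H.vol r ≤ 2 * C * Γ * B * V * δ / s ^ 2 := fun r hr => by
    have := I.fin r (hs.mem hr)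
    refine (int_le_vol' mS (m := C * (2 * (Γ / s) * (B / s ^ 2) * (δ / s ^ 3)))
      (fun x => by positivity) (fun x hx => ?_) fun x hx => ?_).trans
      ((mul_le_mul_of_nonneg_left (vS r hr) (by positivity)).trans_eq (by field_simp))
    · have a1 := gam_cmp A E hs sφ (x := x) (k := δ / s ^ 2) (fun r hr => (reg r hr x hx).2.1)
        (by rw [sub_sub_cancel, show δ / s ^ 2 * (2 * s ^ 2) = 2 * δ by field_simp]; linarith) hr tm
      have a2 : √(H.gam r φ φ x) ≤ 2 * (Γ / s) :=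
        Real.sqrt_le_iff.2 ⟨by positivity, by nlinarith [φg x]⟩
      rw [abs_zero, zero_mul, zero_add]
      gcongr
      exacts [(reg r hr x hx).1, (reg r hr x hx).2.2]
    · have g0 := (A.at_min (hs.mem hr) sφ (x := x) (Eventually.of_forall fun y => by
        rw [φS x hx]; exact φ0 y)).2
      simp [g0]
  have k3 : ∫ r in ρ..t, ∫ x, (|(0 : ℝ)| * |H.Pf r x| + C * (√(H.gam r φ φ x) *
      √(H.N 0 r x) * √(H.Q 1 r x))) ∂H.vol r ≤ (t - ρ) * (2 * C * Γ * B * V * δ / s ^ 2) := by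
    rw [← smul_eq_mul, ← intervalIntegral.integral_const, intervalIntegral.integral_of_le hρ.2,
      intervalIntegral.integral_of_le hρ.2]
    refine integral_mono_of_nonneg (Eventually.of_forall fun r => integral_nonneg fun x => by
      positivity) (integrable_const _) ?_
    exact ae_restrict_of_forall_mem measurableSet_Ioc fun r hr => k2 r ⟨hρ.1.trans hr.1.le, hr.2⟩
  have k4 : (t - ρ) * (2 * C * Γ * B * V * δ / s ^ 2) ≤ 4 * C * Γ * B * V * δ :=
    (mul_le_mul_of_nonneg_right (show t - ρ ≤ 2 * s ^ 2 by linarith [hρ.1])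
      (by positivity)).trans_eq (by field_simp; ring)
  have sP := A.sm_Pf hs
  have k5 : ∫ x, φ x * H.Pf ρ x ∂H.vol ρ ≤ ∫ x, φ x * H.N 0 ρ x ∂H.vol ρ :=
    int_mono A I hR (A.s0_mul sφ (A.sm_s0 sP ρ hρ)) (A.s0_mul sφ (A.s0_N hR 0)) fun x =>
      mul_le_mul_of_nonneg_left (by have := E.R_sq ρ hR x; unfold Pf; linarith) (φ0 x)
  have k6 : ∫ x, φ x * H.N 0 t x ∂H.vol t ≤
      ∫ x, φ x * H.Pf t x ∂H.vol t + ∫ x, 4 * (φ x * H.Q 0 t x) ∂H.vol t := by
    rw [← int_add A I hT (A.s0_mul sφ (A.sm_s0 sP t tm)) (A.s0_cmul 4 (A.s0_mul sφ (A.s0_Q hT 0)))]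
    refine int_mono A I hT (A.s0_mul sφ (A.s0_N hT 0)) (A.s0_add (A.s0_mul sφ (A.sm_s0 sP t tm))
      (A.s0_cmul 4 (A.s0_mul sφ (A.s0_Q hT 0)))) fun x => ?_
    unfold Pf; nlinarith [mul_nonneg (φ0 x) (sq_nonneg (H.R t x))]
  have k7 : ∫ x, 4 * (φ x * H.Q 0 t x) ∂H.vol t ≤ V * δ := by
    have := I.fin t hT
    refine (int_le_vol' mS (m := δ / s ^ 4) (fun x => by
      have := E.Q_nonneg 0 t hT x; have := φ0 x; positivity) (fun x hx => ?_)
      fun x hx => by simp [φS x hx]).trans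
      ((mul_le_mul_of_nonneg_left (vS t tm) (by positivity)).trans_eq (by field_simp))
    have a1 := (Real.sqrt_le_iff.1 (reg t tm x hx).2.1).2
    have a2 : φ x * H.Q 0 t x ≤ (δ / s ^ 2) ^ 2 :=
      (mul_le_of_le_one_left (E.Q_nonneg 0 t hT x) (φ1 x)).trans a1
    have a3 : 4 * (δ / s ^ 2) ^ 2 = 4 * δ * (δ / s ^ 4) := by field_simp
    have a4 : 0 ≤ δ / s ^ 4 := by positivity
    nlinarith
  have k8 := (le_abs_self _).trans (k1.trans (k3.trans k4))
  nlinarith [mul_nonneg (mul_nonneg (mul_nonneg Γ0 B0) V0) δ0, mul_nonneg hC.le (mul_nonneg V0 δ0)]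

end Crest.Agent.N207.Ge

end
end

-- ▼ part N207/G/EnE2
section

/-!
# Row 207, block G (helper22): epsilon regularity from the entropy
-/

set_option autoImplicit false
set_option linter.dupNamespace false
set_option linter.unusedSectionVars false
open Set MeasureTheory Filter Topology
open scoped ContDiff

noncomputable section

namespace Crest.Agent.N207.Ge

open HC

variable {M : Type*} [TopologicalSpace M] [CompactSpace M] [MeasurableSpace M]
  [OpensMeasurableSpace M] {H : HC M}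

theorem reg_mono {t s B δ δ' : ℝ} {Ω Ω' : Set M} (h : H.Reg t s B δ Ω) (hs : 0 < s) (hδ : δ ≤ δ')
    (hΩ : Ω' ⊆ Ω) : H.Reg t s B δ' Ω' := fun σ hσ x hx =>
  ⟨(h σ hσ x (hΩ hx)).1, (h σ hσ x (hΩ hx)).2.1.trans (by gcongr),
    (h σ hσ x (hΩ hx)).2.2.trans (by gcongr)⟩

theorem one_le_Z {q β : ℝ} (hq : 0 < q) (hβ : 0 ≤ β) :
    1 ≤ 4 * (q ^ 4 / (q ^ 4 + β ^ 2)) ^ 2 + β / q ^ 2 := by
  rcases le_total β (q ^ 2) with h | h
  · have : 1 / 2 ≤ q ^ 4 / (q ^ 4 + β ^ 2) := by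
      rw [le_div_iff₀ (by positivity)]; nlinarith
    have : 0 ≤ β / q ^ 2 := by positivity
    nlinarith
  · have := (one_le_div (by positivity : 0 < q ^ 2)).2 h
    nlinarith [sq_nonneg (q ^ 4 / (q ^ 4 + β ^ 2))]

theorem choose_ce {P Q ε : ℝ} (R : ℝ) (hP : 0 ≤ P) (hQ : 0 ≤ Q) (hε : 0 < ε) :
    ∃ c e : ℝ, 0 < c ∧ 0 < e ∧ P * (e + Q * c) + (e ^ 2 + R * e) / c ^ 2 ≤ ε / 2 := by
  obtain ⟨c, hc⟩ : ∃ c, c = ε / (4 * (P * Q + 1)) := ⟨_, rfl⟩
  have c0 : 0 < c := by rw [hc]; positivity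
  have c1 : P * (Q * c) ≤ ε / 4 := by
    rw [hc, ← mul_assoc, mul_div_assoc', div_le_div_iff₀ (by positivity) (by positivity)]
    nlinarith
  have t : Tendsto (fun e : ℝ => P * e + (e ^ 2 + R * e) / c ^ 2) (𝓝[>] 0) (𝓝 0) := by
    have : ContinuousAt (fun e : ℝ => P * e + (e ^ 2 + R * e) / c ^ 2) 0 := by fun_prop
    simpa using this.tendsto.mono_left nhdsWithin_le_nhds
  obtain ⟨e, e1, e2⟩ := ((t.eventually (gt_mem_nhds (show (0 : ℝ) < ε / 4 by positivity))).and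
    self_mem_nhdsWithin).exists
  exact ⟨c, e, c0, e2, by nlinarith⟩

set_option maxHeartbeats 1000000 in
/-- a regular ball with a small drop of the entropy has small energy -/
theorem no_conc (h : H.Ok) (He : H.Hes) (hV : H.VolUp) (hF : H.Flux) (hS : H.GSmooth)
    {t0 B ε : ℝ} (h0 : 0 < t0) (hB : 0 ≤ B) (hε : 0 < ε) : ∃ η δ : ℝ, 0 < η ∧ 0 < δ ∧
      ∀ {a t ε' τ0 s : ℝ} {y : M} {v : ℝ → M → ℝ}, t0 ≤ a → H.CS a t y ε' τ0 v → 0 < s →
        s ≤ 1 / 2 → a ≤ t - 2 * s ^ 2 → ε' ≤ s ^ 2 → H.Reg t s B δ (H.B t y (5 * s)) →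
        H.drop t τ0 v s ≤ η → H.en t y s < ε := by
  have A := h.alg
  have I := h.int
  have E := h.evo
  have D := h.dist
  obtain ⟨V, hV0, hV⟩ := hV t0 h0
  obtain ⟨W, hW1, hW⟩ := int_cmp A I E
  obtain ⟨C, hC, hfl⟩ := flux_reg A I E hF
  have L0 := Sob.Lσ_pos
  obtain ⟨L, hL⟩ : ∃ L, L = 4 * √Sob.Lσ := ⟨_, rfl⟩
  have L1 : 0 < L := by rw [hL]; positivity
  have L2 : L ^ 2 = 16 * Sob.Lσ := by rw [hL, mul_pow, Real.sq_sqrt L0.le]; norm_num
  obtain ⟨c, e, c0, e0, hce⟩ := choose_ce (P := 16 * B ^ 2 * W * V) (Q := L)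
    (32 * B ^ 2 * W * V) (by positivity) L1.le hε
  obtain ⟨η, δ1, η0, δ0, δ4, hS⟩ := hS t0 h0 5 (by norm_num) 1 one_pos B hB (L ^ 2)
    (by positivity) (e ^ 2) (by positivity)
  obtain ⟨X, hX⟩ : ∃ X, X = C * (L * B + 1) * (16 * W * V) := ⟨_, rfl⟩
  have X0 : 0 < X := by rw [hX]; positivity
  refine ⟨η, min δ1 (ε / (4 * X)), η0, by positivity,
    fun {a t ε' τ0 s y v} ha cs s0 s1 has hε' reg dr => ?_⟩
  have s2 : 0 < s ^ 2 := by positivity
  have st : H.St (t - 2 * s ^ 2) t := cs.st.mono has (by linarith) le_rfl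
  have tm : t ∈ Icc (t - 2 * s ^ 2) t := ⟨st.2.1.le, le_rfl⟩
  have hT := st.mem tm
  obtain ⟨χ, sχ, χ0, χ1, χ2, χ3, χ4⟩ := exists_cut A D hT y (4 * s) s0
  have sup : ∀ x, χ x ≠ 0 → H.d t y x < 5 * s := fun x hx => by
    by_contra hn
    exact hx (χ3 x fun h' => hn (by have : H.d t y x < 4 * s + s := h'; linarith)).1
  obtain ⟨σ, -, t', ht', ρ, g, sρ, -, -, -, k1, k2⟩ := hS (r := 3 * s) (x0 := y) ha cs s0 s1 has hε'
    sχ (fun x => ⟨χ0 x, χ1 x⟩) (fun x hx => (sup x hx).le) (fun x => by rw [L2]; exact χ4 x)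
    (reg_mono reg s0 (min_le_left _ _) sup) dr fun x hx => χ2 x (by
      show H.d t y x < 4 * s; linarith)
  have hT' := st.mem ht'
  have k3 : ∀ x, H.d t y x < 3 * s →
      H.Pc 2 t ρ x ≤ e ^ 2 ∧ H.gam t ρ ρ x * H.Pc 2 t ρ x ≤ e ^ 2 * s ^ 2 := fun x hx =>
    k1 x fun w hw => χ2 w (by
      show H.d t y w < 4 * s; linarith [D.tri t hT y x w])
  have sψ := A.s0_gam hT sρ sρ
  obtain ⟨m, hm⟩ : ∃ m, 4 * m = -(H.gam t ρ ρ y - 2 * 2 * ρ y) - 4 * e * s ^ 2 :=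
    ⟨(-(H.gam t ρ ρ y - 2 * 2 * ρ y) - 4 * e * s ^ 2) / 4, by ring⟩
  have k4 : ∀ x ∈ H.B t y (s + s), H.gam t ρ ρ x ≤ 4 * (ρ x - m) ∧
      4 * (ρ x - m) ≤ H.gam t ρ ρ x + 8 * e * s ^ 2 := fun x hx => by
    have hx' : H.d t y x < s + s := hx
    have a1 := lip_ball A D hT (A.s0_sub sψ (A.s0_cmul (2 * 2) sρ)) (x := y) (y := x) (r := 3 * s)
      (L := 2 * e * s) (by positivity) (fun w hw => (He.kato t hT sρ 2 w).trans (by
        nlinarith [(k3 w hw).2])) (by linarith)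
    have a2 : 2 * e * s * H.d t y x ≤ 2 * e * s * (s + s) := by gcongr
    have a3 := abs_le.1 (a1.trans a2)
    constructor <;> nlinarith [a3.1, a3.2]
  obtain ⟨φ, sφ, φ0, φ1, φ2, φ3, φ4⟩ := exists_cut A D hT y s s0
  have oS := isOpen_B D hT y (s + s)
  have φg : ∀ x, H.gam t φ φ x ≤ (L / s) ^ 2 := fun x => by rw [div_pow, L2]; exact φ4 x
  have vt : (H.vol t).real (H.B t y (s + s)) ≤ 16 * V * s ^ 4 :=
    (hV t ⟨by linarith, hT.2⟩ y _ (by linarith)).trans_eq (by ring)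
  have vr : ∀ r ∈ Icc (t - 2 * s ^ 2) t, (H.vol r).real (H.B t y (s + s)) ≤ 16 * W * V * s ^ 4 :=
    fun r hr => ((hW t hT r (st.mem hr)).1 _).trans
      ((mul_le_mul_of_nonneg_left vt (by linarith)).trans_eq (by ring))
  have q0 : 0 < c * s := by positivity
  have k5 := small_set A I hT sρ sφ oS.measurableSet (m := m) (p := 2 * e) q0 (by positivity)
    (by positivity) φ0 φ1 (fun x hx => (φ3 x hx).1) φg (fun x hx => by
      have hx' : H.d t y x < s + s := hx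
      have a1 := lap_sub_sq E hT sρ 2 x
      have a2 := (k3 x (by linarith)).1
      have := (abs_le_of_sq_le_sq' (a := H.lap t ρ x - 4 * 2) (b := 2 * e) (by nlinarith)
        (by positivity)).1
      linarith) fun x hx => (k4 x hx).1
  obtain ⟨Z, hZ⟩ : ∃ Z : M → ℝ, Z = fun x => (c * s) ^ 4 / ((c * s) ^ 4 + (ρ x - m) ^ 2) := ⟨_, rfl⟩
  have sZ : H.S0 Z := by
    rw [hZ]
    exact A.s0_div (A.s0_const _) (A.s0_add (A.s0_const _) (A.s0_pow 2 (A.s0_sub sρ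
      (A.s0_const m)))) fun x => by positivity
  have sZ2 := A.s0_mul sφ (A.s0_pow 2 sZ)
  have k6 : ∫ x, φ x * Z x ^ 2 ∂H.vol t' ≤ W * (4 * (e + L * c) * V * s ^ 4) := by
    refine ((hW t hT t' hT').2 _ sZ2 fun x => mul_nonneg (φ0 x) (sq_nonneg _)).trans
      (mul_le_mul_of_nonneg_left ?_ (by linarith))
    have a1 : 2 * e + 2 * (L / s) * (c * s) = 2 * (e + L * c) := by field_simp
    rw [a1] at k5
    have a2 := mul_le_mul_of_nonneg_left vt (show 0 ≤ 2 * (e + L * c) by positivity)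
    rw [hZ]; linarith
  have sN := A.s0_N hT' 0
  have sG := A.s0_mul sN (A.s0_gam hT' sρ sρ)
  have r2 := reg_mono reg s0 le_rfl (B_mono2 t y (show s + s ≤ 5 * s by linarith))
  have d4 : min δ1 (ε / (4 * X)) ≤ 1 / 4 := (min_le_left _ _).trans δ4
  have k7 : ∫ x, φ x * H.N 0 t' x ∂H.vol t' ≤ ∫ x, (4 * (B / s ^ 2) ^ 2 * (φ x * Z x ^ 2) +
      (((c * s) ^ 2)⁻¹ * (φ x * (H.N 0 t' x * H.gam t' ρ ρ x)) +
        2 * e * s ^ 2 * (B / s ^ 2) ^ 2 / (c * s) ^ 2 * φ x)) ∂H.vol t' := by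
    refine int_mono A I hT' (A.s0_mul sφ sN) (A.s0_add (A.s0_cmul _ sZ2) (A.s0_add
      (A.s0_cmul _ (A.s0_mul sφ sG)) (A.s0_cmul _ sφ))) fun x => ?_
    by_cases hx : x ∈ H.B t y (s + s)
    swap
    · simp [(φ3 x hx).1]
    have n0 := E.N_nonneg 0 t' hT' x
    have n1 := (Real.sqrt_le_iff.1 (r2 t' ht' x hx).1).2
    have a1 := gam_cmp A E st sρ (x := x) (k := min δ1 (ε / (4 * X)) / s ^ 2)
      (fun r hr => (r2 r hr x hx).2.1) (by
        rw [sub_sub_cancel, div_mul_eq_mul_div, div_le_iff₀ s2]; nlinarith) tm ht'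
    have a2 := one_le_Z q0 (β := ρ x - m) (by linarith [(k4 x hx).1, A.gam_nonneg t hT sρ x])
    have a3 : (ρ x - m) / (c * s) ^ 2 ≤ (H.gam t' ρ ρ x + 2 * e * s ^ 2) / (c * s) ^ 2 := by
      gcongr; linarith [(k4 x hx).2]
    have a4 : 1 ≤ 4 * Z x ^ 2 + (H.gam t' ρ ρ x + 2 * e * s ^ 2) / (c * s) ^ 2 := by
      rw [hZ]; linarith
    have a5 := mul_le_mul_of_nonneg_left a4 (mul_nonneg (φ0 x) n0)
    have a6 := mul_le_mul_of_nonneg_left n1 (mul_nonneg (φ0 x) (show 0 ≤ 4 * Z x ^ 2 +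
      2 * e * s ^ 2 / (c * s) ^ 2 by positivity))
    refine (mul_one _).symm.trans_le (a5.trans ?_)
    simp only [div_eq_mul_inv] at a6 ⊢
    nlinarith
  rw [int_add A I hT' (A.s0_cmul _ sZ2) (A.s0_add (A.s0_cmul _ (A.s0_mul sφ sG))
    (A.s0_cmul _ sφ)), int_add A I hT' (A.s0_cmul _ (A.s0_mul sφ sG)) (A.s0_cmul _ sφ),
    integral_const_mul, integral_const_mul, integral_const_mul] at k7
  have k8 : ∫ x, φ x * (H.N 0 t' x * H.gam t' ρ ρ x) ∂H.vol t' ≤ e ^ 2 * s ^ 2 :=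
    (wt_le_setInt h hT' (isOpen_B D hT y (3 * s)) sφ sG φ1
      (fun x => mul_nonneg (E.N_nonneg 0 t' hT' x) (A.gam_nonneg t' hT' sρ x)) fun x hx =>
        B_mono2 t y (show s + s ≤ 3 * s by linarith) (by
          by_contra hn; exact hx (φ3 x hn).1)).trans k2
  have k9 : ∫ x, φ x ∂H.vol t' ≤ 16 * W * V * s ^ 4 := by
    have := I.fin t' hT'
    exact (int_le_vol' oS.measurableSet φ0 (fun x _ => φ1 x) fun x hx => (φ3 x hx).1).trans
      ((one_mul _).trans_le (vr t' ht'))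
  have k10 : ∫ x, φ x * H.N 0 t' x ∂H.vol t' ≤ ε / 2 := by
    refine k7.trans (le_trans ?_ hce)
    refine (add_le_add (mul_le_mul_of_nonneg_left k6 (by positivity)) (add_le_add
      (mul_le_mul_of_nonneg_left k8 (by positivity))
      (mul_le_mul_of_nonneg_left k9 (by positivity)))).trans_eq ?_
    field_simp; ring
  have k11 := hfl st s0 hB (by positivity) d4 L1.le oS.measurableSet r2 sφ φ0 φ1
    (fun x hx => (φ3 x hx).1) φg vr ht'
  have k12 := setInt_le_wt h hT (isOpen_B D hT y s) sφ (A.s0_N hT 0) φ0 (E.N_nonneg 0 t hT)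
    fun x hx => (φ2 x hx).ge
  have k13 : X * min δ1 (ε / (4 * X)) ≤ ε / 4 :=
    (mul_le_mul_of_nonneg_left (min_le_right _ _) X0.le).trans_eq (by field_simp)
  rw [← hX] at k11
  unfold en
  linarith

/-- epsilon regularity from the entropy -/
theorem ereg_ent (h : H.Ok) (He : H.Hes) (hV : H.VolUp) (hF : H.Flux) (hS : H.GSmooth)
    (hR : H.GRegE) {t0 ε : ℝ} (h0 : 0 < t0) (hε : 0 < ε) : ∃ η r1 : ℝ, 0 < η ∧ 0 < r1 ∧
      ∀ {a t R e : ℝ} {z : M}, t0 ≤ a → a ≤ t - 2 * R ^ 2 → t < H.T → 0 < R → R ≤ r1 → 0 < e →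
        (∀ (y : M) (ε' τ0 : ℝ) (v : ℝ → M → ℝ), H.d t z y ≤ 10 * R → ε' ≤ e → H.CS a t y ε' τ0 v →
          ∀ σ ∈ Icc (t - 2 * R ^ 2) t, -η ≤ H.Wv t τ0 v σ) → H.en t z R < ε := by
  have A := h.alg
  obtain ⟨ε0, B0, ε1, B1, hR⟩ := hR t0 h0
  have m0 : 0 < min ε ε0 := lt_min hε ε1
  obtain ⟨η, δ, η0, δ0, hN⟩ := no_conc h He hV hF hS (B := B0 / (1 / 2) ^ 2) h0 (by positivity) m0
  obtain ⟨β, β0, hR⟩ := hR (1 / 2) δ (by norm_num) δ0
  obtain ⟨V, V0, hV⟩ := hV t0 h0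
  refine ⟨η / 2, min β (1 / 2), by positivity, by positivity,
    fun {a t R e z} ha has hT R0 R1 e0 hW => ?_⟩
  have st : H.St a t := ⟨by linarith, by nlinarith, hT⟩
  have ht : t ∈ Ioo 0 H.T := ⟨st.1.trans st.2.1, hT⟩
  have ht0 : t ∈ Ico t0 H.T := ⟨by linarith [st.2.1], hT⟩
  have := h.int.fin t ht
  obtain ⟨K, hK⟩ := (isCompact_range (A.s0_cont (A.s0_N ht 0))).bddAbove
  have hK' : ∀ x, H.N 0 t x ≤ |K| := fun x => (hK ⟨x, rfl⟩).trans (le_abs_self _)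
  have K0 := abs_nonneg K
  by_contra hn
  obtain ⟨y, r, r0, r1, d1, p1, p2⟩ := pick_pt (d := H.d t) (Λ := 5) (z := z)
    (P := fun y r => min ε ε0 ≤ H.en t y r) (r1 := min 1 (min ε ε0 / (|K| * V + 1)))
    (h.dist.tri t ht) (h.dist.self t ht z).le R0 (by positivity) (fun y r r0 r1 => not_le.2 (by
      have a1 : H.en t y r ≤ |K| * (H.vol t).real (H.B t y r) := by
        have := setIntegral_mono_on (s := H.B t y r) (A.integrable h.int ht (A.s0_N ht 0)).integrableOn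
          (integrable_const |K|).integrableOn (isOpen_B h.dist ht y r).measurableSet fun x _ => hK' x
        rwa [setIntegral_const, smul_eq_mul, mul_comm] at this
      have a2 := mul_le_mul_of_nonneg_left (hV t ht0 y r r0) K0
      have a3 : r ^ 4 ≤ r := pow_le_of_le_one r0.le (r1.le.trans (min_le_left _ _)) (by norm_num)
      have a4 := (lt_div_iff₀ (by positivity)).1 (r1.trans_le (min_le_right _ _))
      nlinarith [mul_le_mul_of_nonneg_left a3 (mul_nonneg K0 V0.le)]))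
    ((min_le_left _ _).trans (not_lt.1 hn))
  have reg := hR t ht0 r (H.B t y (5 * r)) r0 (r1.trans (R1.trans (min_le_left _ _))) fun x hx => by
    rw [show 1 / 2 * r = r / 2 by ring]
    exact (not_le.1 (p2 x hx)).le.trans (min_le_right _ _)
  obtain ⟨τ0, v, cs⟩ := exists_cs h st y (ε := min e (min (r ^ 2) (η / 2))) (by positivity)
  have r2 : r ^ 2 ≤ R ^ 2 := by gcongr
  have r3 : 0 < r ^ 2 := by positivity
  refine (not_lt.2 p1) (hN ha cs r0 (r1.trans (R1.trans (min_le_right _ _))) (by linarith)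
    ((min_le_right _ _).trans (min_le_left _ _)) reg ?_)
  have w1 := hW y _ τ0 v (by linarith) (min_le_left _ _) cs (t - 2 * r ^ 2)
    ⟨by linarith, by linarith⟩
  have w2 := A.W_mono h.int h.evo cs.st cs.conj (A.conj_pos h.evo cs.st cs.conj cs.pos) cs.t0
    (show t - r ^ 2 ∈ Icc a t from ⟨by linarith, by linarith⟩) ⟨st.2.1.le, le_rfl⟩ (by linarith)
  have w3 := cs.hW.trans ((min_le_right _ _).trans (min_le_right _ _))
  simp only [add_sub_cancel_right] at w2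
  unfold drop Wv at *
  linarith

end Crest.Agent.N207.Ge

end
end

-- ▼ part N207/G/EnF1
section

/-!
# Row 207, block G (helper22): the Gaussian integral of an almost conical function
-/

set_option autoImplicit false
set_option linter.dupNamespace false
set_option linter.unusedSectionVars false
open Set MeasureTheory Filter Topology
open scoped ContDiff

noncomputable section

namespace Crest.Agent.N207.Ge

open HC

variable {M : Type*} [TopologicalSpace M] [CompactSpace M] [MeasurableSpace M]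
  [OpensMeasurableSpace M] {H : HC M}

/-- `β² ∫ χ e^{-β b}` -/
def JJ (μ : Measure M) (χ b : M → ℝ) (β : ℝ) : ℝ := β ^ 2 * ∫ x, χ x * Real.exp (-(β * b x)) ∂μ

theorem s0_gau (A : H.Alg) {b : M → ℝ} (sb : H.S0 b) (β : ℝ) :
    H.S0 fun x => Real.exp (-(β * b x)) := A.s0_exp (A.s0_neg (A.s0_cmul β sb))

theorem gau_deriv {μ : Measure M} [IsFiniteMeasure μ] {χ b : M → ℝ} (cχ : Continuous χ)
    (cb : Continuous b) (β : ℝ) : HasDerivAt (fun β => ∫ x, χ x * Real.exp (-(β * b x)) ∂μ)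
      (∫ x, χ x * (Real.exp (-(β * b x)) * -b x) ∂μ) β := by
  obtain ⟨K, hK⟩ := (isCompact_range cb.abs).bddAbove
  obtain ⟨L, hL⟩ := (isCompact_range cχ.abs).bddAbove
  have k1 : ∀ x, |b x| ≤ K := fun x => hK ⟨x, rfl⟩
  have k2 : ∀ x, |χ x| ≤ L := fun x => hL ⟨x, rfl⟩
  refine (hasDerivAt_integral_of_dominated_loc_of_deriv_le (μ := μ) (s := Metric.ball β 1)
    (F := fun β x => χ x * Real.exp (-(β * b x)))
    (F' := fun β x => χ x * (Real.exp (-(β * b x)) * -b x))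
    (bound := fun _ => L * (Real.exp ((|β| + 1) * K) * K)) (Metric.ball_mem_nhds _ one_pos)
    (Eventually.of_forall fun β => (by fun_prop : Continuous _).aestronglyMeasurable)
    ((by fun_prop : Continuous _).integrable_of_hasCompactSupport
      (HasCompactSupport.of_compactSpace _))
    (by fun_prop : Continuous _).aestronglyMeasurable
    (Eventually.of_forall fun x y hy => ?_) (integrable_const _)
    (Eventually.of_forall fun x y _ => ?_)).2
  · have a1 : |y| ≤ |β| + 1 := by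
      have := abs_sub_abs_le_abs_sub y β
      have : |y - β| < 1 := hy
      linarith
    have a2 : -(y * b x) ≤ (|β| + 1) * K := (neg_le_abs _).trans (by
      rw [abs_mul]; exact mul_le_mul a1 (k1 x) (abs_nonneg _) (by positivity))
    rw [Real.norm_eq_abs, abs_mul, abs_mul, abs_neg, abs_of_pos (Real.exp_pos _)]
    exact mul_le_mul (k2 x) (mul_le_mul (Real.exp_le_exp.2 a2) (k1 x) (abs_nonneg _)
      (Real.exp_pos _).le) (by positivity) ((abs_nonneg _).trans (k2 x))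
  · simpa using (((hasDerivAt_id y).mul_const (b x)).neg.exp).const_mul (χ x)

/-- the error term -/
def Er (H : HC M) (t : ℝ) (χ b : M → ℝ) (β : ℝ) (x : M) : ℝ :=
  χ x * Real.exp (-(β * b x)) * (H.lap t b x - 8 - β * (H.gam t b b x - 4 * b x)) +
    Real.exp (-(β * b x)) * H.gam t χ b x

theorem JJ_deriv (A : H.Alg) (I : H.Intg) {t : ℝ} (ht : t ∈ Ioo 0 H.T) {χ b : M → ℝ}
    (sχ : H.S0 χ) (sb : H.S0 b) (β : ℝ) :
    HasDerivAt (JJ (H.vol t) χ b) (-(β / 4) * ∫ x, Er H t χ b β x ∂H.vol t) β := by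
  have := I.fin t ht
  have d := (hasDerivAt_pow 2 β).mul (gau_deriv (μ := H.vol t) (A.s0_cont sχ) (A.s0_cont sb) β)
  refine d.congr_deriv ?_
  have se := s0_gau A sb β
  have s1 := A.s0_mul sχ se
  have k1 := I.ibp t ht s1 sb
  have c : ContDiff ℝ ∞ fun y : ℝ => Real.exp (-(β * y)) := by fun_prop
  have e : ∀ x, Er H t χ b β x = χ x * Real.exp (-(β * b x)) * H.lap t b x +
      H.gam t (fun y => χ y * Real.exp (-(β * b y))) b x + (-8 * (χ x * Real.exp (-(β * b x))) +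
        -(4 * β) * (χ x * (Real.exp (-(β * b x)) * -b x))) := fun x => by
    have d1 : deriv (fun y : ℝ => Real.exp (-(β * y))) (b x) = Real.exp (-(β * b x)) * -β := by
      simpa using (((hasDerivAt_id (b x)).const_mul β).neg.exp).deriv
    rw [A.gam_mul t ht sχ se sb, A.gam_compU ht c sb sb, d1, Er]
    ring
  have s2 := A.s0_mul sχ (A.s0_mul se (A.s0_neg sb))
  simp only [e]
  rw [int_add A I ht (A.s0_add (A.s0_mul s1 (A.s0_lap ht sb)) (A.s0_gam ht s1 sb))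
    (A.s0_add (A.s0_cmul _ s1) (A.s0_cmul _ s2)),
    int_add A I ht (A.s0_mul s1 (A.s0_lap ht sb)) (A.s0_gam ht s1 sb), k1,
    int_add A I ht (A.s0_cmul _ s1) (A.s0_cmul _ s2), integral_const_mul, integral_const_mul]
  simp only [Nat.cast_ofNat, Nat.add_one_sub_one, pow_one]
  ring

/-- the static data of a good scale -/
structure CD (H : HC M) (t : ℝ) (z : M) (s θ A C κ e k V : ℝ) (b χ : M → ℝ) : Prop where
  ht : t ∈ Ioo 0 H.T
  s0 : 0 < s
  θ0 : 0 < θ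
  θ1 : θ ≤ 1
  C1 : 1 ≤ C
  CA : 16 * C ≤ A
  κ0 : 0 < κ
  κ1 : κ ≤ 1 / 2
  e0 : 0 < e
  e1 : e ≤ 1
  k0 : 0 ≤ k
  vol : ∀ r > 0, (H.vol t).real (H.B t z r) ≤ V * r ^ 4
  sb : H.S0 b
  sχ : H.S0 χ
  χ01 : ∀ x, 0 ≤ χ x ∧ χ x ≤ 1
  one : ∀ x ∈ H.An t z (2 * θ * s) (A / 2 * s), χ =ᶠ[𝓝 x] fun _ => 1
  zero : ∀ x ∉ H.An t z (θ * s) (A * s), χ =ᶠ[𝓝 x] fun _ => 0
  gi : ∀ x, H.d t z x ≤ A / 2 * s → H.gam t χ χ x ≤ (k / (θ * s)) ^ 2
  go : ∀ x, 2 * θ * s ≤ H.d t z x → H.gam t χ χ x ≤ (k / (A / 2 * s)) ^ 2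
  hess : ∀ x ∈ H.An t z (θ * s) (A * s), H.Pc 2 t b x ≤ e ^ 2
  gam : ∀ x ∈ H.An t z (θ * s) (A * s), |H.gam t b b x - 4 * b x| ≤ e ^ 2 * s ^ 2
  val : ∀ x ∈ H.An t z (θ * s) (A * s),
    |√(b x + 2 * s ^ 2) - H.d t z x| ≤ C * s + κ * H.d t z x

namespace CD

variable {t s θ A C κ e k V : ℝ} {z : M} {b χ : M → ℝ}

theorem es (c : CD H t z s θ A C κ e k V b χ) : e ^ 2 * s ^ 2 ≤ s ^ 2 :=
  mul_le_of_le_one_left (sq_nonneg _) (pow_le_one₀ c.e0.le c.e1)

theorem b_lo (Al : H.Alg) (c : CD H t z s θ A C κ e k V b χ) {x : M}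
    (hx : x ∈ H.An t z (θ * s) (A * s)) : -(s ^ 2 / 4) ≤ b x := by
  linarith [(abs_le.1 (c.gam x hx)).2, Al.gam_nonneg t c.ht c.sb x, c.es]

theorem gam_le (Al : H.Alg) (c : CD H t z s θ A C κ e k V b χ) {x : M}
    (hx : x ∈ H.An t z (θ * s) (A * s)) {g p : ℝ} (g0 : 0 ≤ g) (h1 : H.gam t χ χ x ≤ g ^ 2)
    (h2 : H.d t z x ≤ p * s) : |H.gam t χ b x| ≤ g * (2 * ((C + 2 * p) * s)) := by
  have a1 := c.b_lo Al hx
  have s2 := pow_pos c.s0 2
  have a2 := Real.sq_sqrt (show 0 ≤ b x + 2 * s ^ 2 by linarith)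
  have d0 : 0 ≤ H.d t z x := le_trans (mul_pos c.θ0 c.s0).le hx.1
  have a3 : √(b x + 2 * s ^ 2) ≤ (C + 2 * p) * s := by
    nlinarith [(abs_le.1 (c.val x hx)).2, mul_le_mul_of_nonneg_right c.κ1 d0]
  have a4 := pow_le_pow_left₀ (Real.sqrt_nonneg _) a3 2
  have a5 : H.gam t b b x ≤ (2 * ((C + 2 * p) * s)) ^ 2 := by
    linarith [(abs_le.1 (c.gam x hx)).2, c.es]
  refine abs_le.2 (abs_le_of_sq_le_sq' ((Al.gam_sq c.ht c.sχ c.sb x).trans ?_)
    (mul_nonneg g0 (by linarith [Real.sqrt_nonneg (b x + 2 * s ^ 2)])))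
  rw [mul_pow]
  exact mul_le_mul h1 a5 (Al.gam_nonneg t c.ht c.sb x) (sq_nonneg _)

theorem er_le (h : H.Ok) (c : CD H t z s θ A C κ e k V b χ) {Λ β : ℝ}
    (hβ : β ∈ Icc (1 / (Λ * s) ^ 2) (1 / s ^ 2)) (hΛ : 0 < Λ) (x : M) : |Er H t χ b β x| ≤
      (H.B t z (2 * A * s)).indicator
        (fun _ => 9 * e + 12 * k * Real.exp (-(A ^ 2 / (128 * Λ ^ 2)))) x +
      (H.B t z (3 * θ * s)).indicator (fun _ => 6 * k * (C + 4) / θ) x := by
  have Al := h.alg
  have s0 := c.s0; have θ0 := c.θ0; have C1 := c.C1; have e0 := c.e0; have k0 := c.k0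
  have CA := c.CA
  have A0 : 0 < A := by linarith
  have s2 := pow_pos s0 2
  have β0 : 0 < β := lt_of_lt_of_le (by positivity) hβ.1
  have β1 : β * s ^ 2 ≤ 1 := (le_div_iff₀ s2).1 hβ.2
  have p2 : 0 ≤ (H.B t z (3 * θ * s)).indicator (fun _ => 6 * k * (C + 4) / θ) x :=
    indicator_nonneg (fun _ _ => by positivity) x
  have g0 : ∀ p : ℝ, χ =ᶠ[𝓝 x] (fun _ => p) → H.gam t χ b x = 0 := fun p hp => by
    rw [(Al.local_eq c.ht c.sχ (Al.s0_const p) hp).2 b c.sb, Al.gam_const c.ht p c.sb]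
  by_cases hx : x ∈ H.An t z (θ * s) (A * s)
  swap
  · rw [Er, g0 0 (c.zero x hx), (c.zero x hx).self_of_nhds]
    simpa using add_nonneg (indicator_nonneg (fun _ _ => by positivity) x) p2
  have b0 := c.b_lo Al hx
  have x3 : Real.exp (-(β * b x)) ≤ 3 :=
    (Real.exp_le_exp.2 (by nlinarith)).trans Real.exp_one_lt_three.le
  have x0 := Real.exp_pos (-(β * b x))
  have a1 : |H.lap t b x - 8| ≤ 2 * e := abs_le.2 (abs_le_of_sq_le_sq' (by
    have := lap_sub_sq h.evo c.ht c.sb 2 x; have := c.hess x hx; nlinarith) (by positivity))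
  have a2 : |β * (H.gam t b b x - 4 * b x)| ≤ e := by
    rw [abs_mul, abs_of_pos β0]
    nlinarith [mul_le_mul_of_nonneg_left (c.gam x hx) β0.le, c.e1,
      mul_le_mul_of_nonneg_left β1 (sq_nonneg e)]
  have a3 : |χ x * Real.exp (-(β * b x)) *
      (H.lap t b x - 8 - β * (H.gam t b b x - 4 * b x))| ≤ 9 * e := by
    rw [abs_mul, abs_of_nonneg (mul_nonneg (c.χ01 x).1 x0.le)]
    have a0 : χ x * Real.exp (-(β * b x)) ≤ 3 := by nlinarith [c.χ01 x]
    exact (mul_le_mul a0 ((abs_sub _ _).trans (add_le_add a1 a2)) (abs_nonneg _)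
      (by norm_num)).trans_eq (by ring)
  rw [indicator_of_mem (show x ∈ H.B t z (2 * A * s) from
    lt_of_le_of_lt hx.2 (by nlinarith)), add_assoc]
  refine (abs_add_le _ _).trans (add_le_add a3 ?_)
  rw [abs_mul, abs_of_pos x0]
  have p1 : 0 ≤ 12 * k * Real.exp (-(A ^ 2 / (128 * Λ ^ 2))) := by positivity
  rcases lt_or_ge (H.d t z x) (2 * θ * s) with h1 | h1
  · have a4 := c.gam_le Al hx (p := 2) (by positivity) (c.gi x (by nlinarith [c.θ1]))
      (by nlinarith [c.θ1])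
    rw [indicator_of_mem (show x ∈ H.B t z (3 * θ * s) from
      lt_trans h1 (by nlinarith))]
    refine le_add_of_nonneg_of_le p1 ((mul_le_mul x3 a4 (abs_nonneg _) (by norm_num)).trans_eq ?_)
    field_simp; ring
  rcases le_or_gt (H.d t z x) (A / 2 * s) with h2 | h2
  · rw [g0 1 (c.one x ⟨h1, h2⟩)]
    simpa using add_nonneg (by simpa using p1) p2
  have a4 := c.gam_le Al hx (by positivity) (c.go x h1) hx.2
  have a5 : k / (A / 2 * s) * (2 * ((C + 2 * A) * s)) ≤ 12 * k := by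
    rw [div_mul_eq_mul_div, div_le_iff₀ (by positivity)]
    nlinarith [mul_nonneg k0 (mul_nonneg s0.le (show 0 ≤ A - C by linarith))]
  have a6 : A / 8 * s ≤ √(b x + 2 * s ^ 2) := by
    nlinarith [(abs_le.1 (c.val x hx)).1, mul_le_mul_of_nonneg_right c.κ1
      (show 0 ≤ H.d t z x by nlinarith)]
  have a7 : A ^ 2 / 128 * s ^ 2 ≤ b x := by
    have := (Real.le_sqrt (by positivity) (by linarith)).1 a6
    nlinarith [mul_le_mul_of_nonneg_right (show 256 ≤ A ^ 2 by nlinarith) s2.le]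
  have a8 : A ^ 2 / (128 * Λ ^ 2) ≤ β * b x :=
    le_trans (le_of_eq (by field_simp)) (mul_le_mul hβ.1 a7 (by positivity) β0.le)
  refine le_add_of_le_of_nonneg ?_ p2
  rw [mul_comm]
  exact mul_le_mul (a4.trans a5) (Real.exp_le_exp.2 (by linarith)) x0.le (by positivity)

theorem JJ_lip (h : H.Ok) (c : CD H t z s θ A C κ e k V b χ) {Λ β β' : ℝ} (hΛ : 0 < Λ)
    (hβ : β ∈ Icc (1 / (Λ * s) ^ 2) (1 / s ^ 2)) (hβ' : β' ∈ Icc (1 / (Λ * s) ^ 2) (1 / s ^ 2)) :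
    |JJ (H.vol t) χ b β' - JJ (H.vol t) χ b β| ≤
      4 * V * A ^ 4 * (9 * e + 12 * k * Real.exp (-(A ^ 2 / (128 * Λ ^ 2)))) +
        122 * k * (C + 4) * V * θ ^ 3 := by
  have := h.int.fin t c.ht
  have s0 := c.s0; have θ0 := c.θ0; have C1 := c.C1; have e0 := c.e0; have k0 := c.k0
  have A0 : 0 < A := by linarith [c.CA]
  have V0 : 0 ≤ V := by simpa using measureReal_nonneg.trans (c.vol 1 one_pos)
  obtain ⟨D, hD⟩ : ∃ D, D = 4 * V * A ^ 4 * (9 * e + 12 * k * Real.exp (-(A ^ 2 / (128 * Λ ^ 2)))) +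
    122 * k * (C + 4) * V * θ ^ 3 := ⟨_, rfl⟩
  have D0 : 0 ≤ D := by rw [hD]; positivity
  have m := fun r => (isOpen_B h.dist c.ht z r).measurableSet
  have k1 := (convex_Icc (1 / (Λ * s) ^ 2) (1 / s ^ 2)).norm_image_sub_le_of_norm_hasDerivWithin_le
    (C := D * s ^ 2) (fun γ _ => (JJ_deriv h.alg h.int c.ht c.sχ c.sb γ).hasDerivWithinAt)
    (fun γ hγ => by
      have γ0 : 0 < γ := lt_of_lt_of_le (by positivity) hγ.1
      have a1 := norm_integral_le_of_norm_le (μ := H.vol t) (f := Er H t χ b γ)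
        (((integrable_const _).indicator (m _)).fun_add ((integrable_const _).indicator (m _)))
        (Eventually.of_forall (c.er_le h hγ hΛ))
      rw [integral_add ((integrable_const _).indicator (m _)) ((integrable_const _).indicator (m _)),
        integral_indicator (m _), integral_indicator (m _), setIntegral_const, setIntegral_const,
        smul_eq_mul, smul_eq_mul] at a1
      have a2 := add_le_add (mul_le_mul_of_nonneg_right (c.vol (2 * A * s) (by positivity))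
        (show 0 ≤ 9 * e + 12 * k * Real.exp (-(A ^ 2 / (128 * Λ ^ 2))) by positivity))
        (mul_le_mul_of_nonneg_right (c.vol (3 * θ * s) (by positivity))
          (show 0 ≤ 6 * k * (C + 4) / θ by positivity))
      have a3 : V * (3 * θ * s) ^ 4 * (6 * k * (C + 4) / θ) =
        486 * (k * (C + 4) * V * θ ^ 3 * s ^ 4) := by field_simp; ring
      have a4 : 0 ≤ k * (C + 4) * V * θ ^ 3 * s ^ 4 := by positivity
      have a5 : ‖∫ x, Er H t χ b γ x ∂H.vol t‖ ≤ 4 * D * s ^ 4 := by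
        rw [hD]; linarith
      rw [norm_mul, norm_neg, Real.norm_of_nonneg (by positivity)]
      refine (mul_le_mul (div_le_div_of_nonneg_right hγ.2 (by norm_num)) a5 (norm_nonneg _)
        (by positivity)).trans_eq (by field_simp)) hβ hβ'
  have p : 0 < 1 / (Λ * s) ^ 2 := by positivity
  have k2 : ‖β' - β‖ ≤ 1 / s ^ 2 := abs_le.2 ⟨by linarith [hβ.2, hβ'.1], by linarith [hβ.1, hβ'.2]⟩
  rw [← hD]
  exact k1.trans ((mul_le_mul_of_nonneg_left k2 (by positivity)).trans_eq (by field_simp))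

theorem JJ_lo (h : H.Ok) (c : CD H t z s θ A C κ e k V b χ) {Λ p : ℝ} (hΛ : 0 < Λ)
    (hp : p ≤ ∫ x in H.An t z (2 * θ * s) (A / 2 * s),
      Real.exp (-((1 + κ) ^ 3 / (Λ * s) ^ 2 * H.d t z x ^ 2)) ∂H.vol t) :
    Real.exp (-((1 + 1 / κ) * C ^ 2 / Λ ^ 2)) * (p / (Λ * s) ^ 4) ≤
      JJ (H.vol t) χ b (1 / (Λ * s) ^ 2) := by
  have Al := h.alg
  have s0 := c.s0; have θ0 := c.θ0; have κ0 := c.κ0; have C1 := c.C1
  have A0 : 0 < A := by linarith [c.CA]
  have cd := h.dist.cont t c.ht z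
  have k1 := setInt_le_int h c.ht (isClosed_An h c.ht z (2 * θ * s) (A / 2 * s)).measurableSet
    (P := fun x => Real.exp (-((1 + 1 / κ) * C ^ 2 / Λ ^ 2)) *
      Real.exp (-((1 + κ) ^ 3 / (Λ * s) ^ 2 * H.d t z x ^ 2)))
    (Al.integrable_cont h.int c.ht (by fun_prop))
    (Al.s0_mul c.sχ (s0_gau Al c.sb (1 / (Λ * s) ^ 2)))
    (fun x => mul_nonneg (c.χ01 x).1 (Real.exp_pos _).le) fun x hx => by
      have hx' : x ∈ H.An t z (θ * s) (A * s) :=
        ⟨le_trans (by nlinarith) hx.1, le_trans hx.2 (by nlinarith)⟩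
      have a1 : √(b x + 2 * s ^ 2) ≤ C * s + (1 + κ) * H.d t z x := by
        linarith [(abs_le.1 (c.val x hx')).2]
      have a2 := Real.sq_sqrt (show 0 ≤ b x + 2 * s ^ 2 by nlinarith [c.b_lo Al hx'])
      have a3 := pow_le_pow_left₀ (Real.sqrt_nonneg _) a1 2
      have a4 : (C * s + (1 + κ) * H.d t z x) ^ 2 ≤
          (1 + 1 / κ) * (C * s) ^ 2 + (1 + κ) * ((1 + κ) * H.d t z x) ^ 2 := by
        generalize (1 + κ) * H.d t z x = y
        have : (1 + 1 / κ) * (C * s) ^ 2 + (1 + κ) * y ^ 2 - (C * s + y) ^ 2 =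
          (C * s - κ * y) ^ 2 / κ := by field_simp; ring
        have : 0 ≤ (C * s - κ * y) ^ 2 / κ := by positivity
        linarith
      have a5 : 1 / (Λ * s) ^ 2 * b x ≤ 1 / (Λ * s) ^ 2 *
          ((1 + 1 / κ) * (C * s) ^ 2 + (1 + κ) * ((1 + κ) * H.d t z x) ^ 2) := by
        gcongr; nlinarith
      simp only [(c.one x hx).self_of_nhds, one_mul]
      rw [← Real.exp_add, ← neg_add]
      exact Real.exp_le_exp.2 (neg_le_neg (a5.trans_eq (by field_simp)))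
  rw [integral_const_mul] at k1
  have k2 := (mul_le_mul_of_nonneg_left hp (Real.exp_pos _).le).trans k1
  unfold JJ
  refine le_trans (le_of_eq ?_) (mul_le_mul_of_nonneg_left k2 (sq_nonneg _))
  field_simp

end CD

end Crest.Agent.N207.Ge

end
end

-- ▼ part N207/G/EnF2
section

/-!
# Row 207, block G (helper22): the Nash entropy on a Euclidean neck
-/

set_option autoImplicit false
set_option linter.dupNamespace false
set_option linter.unusedSectionVars false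
open Set MeasureTheory Filter Topology
open scoped ContDiff

noncomputable section

namespace Crest.Agent.N207.Ge

open HC

variable {M : Type*} [TopologicalSpace M] [CompactSpace M] [MeasurableSpace M]
  [OpensMeasurableSpace M] {H : HC M}

theorem exp_lip {x y E : ℝ} (hx : Real.exp (-x) ≤ E) :
    Real.exp (-x) ≤ Real.exp (-y) + E * |x - y| := by
  have h1 := Real.add_one_le_exp (x - y)
  have h2 : Real.exp (-y) = Real.exp (-x) * Real.exp (x - y) := by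
    rw [← Real.exp_add]; congr 1; ring
  have h3 := Real.exp_pos (-x)
  nlinarith [mul_le_mul_of_nonneg_left h1 h3.le, neg_abs_le (x - y),
    mul_le_mul_of_nonneg_right hx (abs_nonneg (x - y))]

theorem exp_pot {τ γ : ℝ} (hτ : 0 < τ) (hγ : 4 * τ * γ = 1) {u : M → ℝ} {x : M} (hu : 0 < u x) :
    (γ / Real.pi) ^ 2 * Real.exp (-pot τ u x) = u x := by
  have := Real.pi_pos
  have e : -pot τ u x = Real.log (u x) + Real.log ((4 * Real.pi * τ) ^ 2) := by
    rw [Real.log_pow, pot]; push_cast; ring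
  rw [e, Real.exp_add, Real.exp_log hu, Real.exp_log (by positivity),
    show γ = 1 / (4 * τ) by field_simp; linarith]
  field_simp

theorem num_oh {η h o X Xh j1 j2 Y m : ℝ} (h0 : 0 < h) (h1 : h ≤ η / 6) (o0 : 0 < o)
    (o1 : o ≤ 1 / 4) (o2 : o ≤ h * η / 60) (X0 : 0 < X) (Xh0 : 0 ≤ Xh) (hX : Xh ≤ max 1 X)
    (a1 : 1 - o ≤ j1) (a2 : j2 ≤ j1 + o) (a3 : X * j1 ≤ 1 + o)
    (a4 : Y ≤ (1 + o) * (Xh * X * j2 / (1 + h) ^ 2) + o) (a5 : 1 - o ≤ m) :
    2 - η ≤ (m - Y) / h := by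
  have b1 : X ≤ 1 + 4 * o := by
    by_contra hn
    nlinarith [mul_le_mul_of_nonneg_left a1 X0.le]
  have b2 : Xh ≤ 1 + 4 * o := hX.trans (max_le (by linarith) b1)
  have b3 : X * j2 ≤ 1 + 4 * o := by nlinarith [mul_le_mul_of_nonneg_left a2 X0.le]
  have b4 : Xh * (X * j2) ≤ (1 + 4 * o) * (1 + 4 * o) :=
    (mul_le_mul_of_nonneg_left b3 Xh0).trans (by gcongr)
  have b5 : (1 + o) * (Xh * (X * j2)) ≤ 1 + 28 * o := by
    nlinarith [mul_le_mul_of_nonneg_left b4 (show 0 ≤ 1 + o by linarith), mul_pos o0 o0]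
  have b6 : (1 + 28 * o) / (1 + h) ^ 2 ≤ 1 - 2 * h + 3 * h ^ 2 + 28 * o := by
    rw [div_le_iff₀ (by positivity)]
    nlinarith [pow_pos h0 3, pow_pos h0 4, mul_pos o0 h0, mul_pos o0 (pow_pos h0 2)]
  have b7 : (1 + o) * (Xh * X * j2 / (1 + h) ^ 2) ≤ (1 + 28 * o) / (1 + h) ^ 2 := by
    rw [← mul_div_assoc, mul_assoc Xh]; gcongr
  rw [le_div_iff₀ h0]
  nlinarith [mul_le_mul_of_nonneg_left h1 h0.le]

namespace CD

variable {t s θ A C κ e k V : ℝ} {z : M} {b χ : M → ℝ}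

theorem pair_k (h : H.Ok) (c : CD H t z s θ A C κ e k V b χ) {σ γ μ W F q : ℝ} {f g : M → ℝ}
    (hσ : σ ∈ Ioo 0 H.T) (sf : H.S0 f) (sg : H.S0 g) (γ0 : 0 < γ) (γ1 : 4 * γ * s ^ 2 ≤ 1)
    (hf : ∀ x ∈ H.An t z (θ * s) (A * s), f x = γ * (b x - μ + g x)) (hμ : |μ| ≤ C * s ^ 2)
    (l2 : ∫ x, g x ^ 2 ∂H.vol σ ≤ e ^ 2 * s ^ 8) (F0 : 0 ≤ F) (hF : ∀ x, -f x ≤ F)
    (W0 : 0 ≤ W) (w1 : ∀ p, H.S0 p → (∀ x, 0 ≤ p x) → ∫ x, p x ∂H.vol t ≤ W * ∫ x, p x ∂H.vol σ ∧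
      ∫ x, p x ∂H.vol σ ≤ W * ∫ x, p x ∂H.vol t) (W2 : W ≤ 2) (q1 : 1 ≤ q) (q2 : q ≤ 2) :
    Real.exp (q * γ * μ) * (JJ (H.vol t) χ b (q * γ) / Real.pi ^ 2) / q ^ 2 ≤
      W * (∫ x, χ x * ((γ / Real.pi) ^ 2 * Real.exp (-(q * f x))) ∂H.vol σ +
        Real.exp (2 * F + C + 1) * (1 + 32 * V * A ^ 4) * e) ∧
    ∫ x, χ x * ((γ / Real.pi) ^ 2 * Real.exp (-(q * f x))) ∂H.vol σ ≤
      W * (Real.exp (q * γ * μ) * (JJ (H.vol t) χ b (q * γ) / Real.pi ^ 2) / q ^ 2) +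
        Real.exp (2 * F + C + 1) * (1 + 32 * V * A ^ 4) * e := by
  have Al := h.alg
  have I := h.int
  have := I.fin t c.ht
  have s0 := c.s0; have e0 := c.e0; have C1 := c.C1
  have A0 : 0 < A := by linarith [c.CA]
  have s2 := pow_pos s0 2
  have π3 := Real.pi_gt_three
  obtain ⟨E, hE⟩ : ∃ E, E = Real.exp (2 * F + C + 1) := ⟨_, rfl⟩
  have E0 : 0 < E := hE ▸ Real.exp_pos _
  obtain ⟨P, hP⟩ : ∃ P, P = (γ / Real.pi) ^ 2 := ⟨_, rfl⟩
  have P0 : 0 < P := by rw [hP]; positivity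
  have P1 : P * (q * γ) * s ^ 6 ≤ 1 := by
    have a1 : γ / Real.pi ≤ γ := div_le_self γ0.le (by linarith)
    have a2 : P ≤ γ ^ 2 := by rw [hP]; gcongr
    have a3 : (γ * s ^ 2) ^ 3 ≤ (1 / 4) ^ 3 := by gcongr; linarith
    calc _ ≤ γ ^ 2 * (2 * γ) * s ^ 6 := by gcongr
      _ ≤ 1 := by nlinarith
  rw [← hE, ← hP]
  have sbm := Al.s0_sub c.sb (Al.s0_const μ)
  have s1 := Al.s0_mul c.sχ (Al.s0_cmul P (s0_gau Al sf q))
  have s3 := Al.s0_mul c.sχ (Al.s0_cmul P (s0_gau Al sbm (q * γ)))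
  have s4 := Al.s0_add (Al.s0_cmul (E / (e * s ^ 8)) (Al.s0_pow 2 sg))
    (Al.s0_cmul (E * e / s ^ 4) c.sχ)
  have k0 : ∫ x, χ x ∂H.vol σ ≤ 32 * V * A ^ 4 * s ^ 4 := by
    have a1 := int_le_vol' (μ := H.vol t) (isOpen_B h.dist c.ht z (2 * A * s)).measurableSet
      (fun x => (c.χ01 x).1) (fun x _ => (c.χ01 x).2) fun x hx =>
        (c.zero x fun h' => hx (lt_of_le_of_lt h'.2 (by nlinarith))).self_of_nhds
    have a2 := c.vol (2 * A * s) (by positivity)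
    have a3 := (w1 χ c.sχ fun x => (c.χ01 x).1).2
    have a4 := mul_le_mul_of_nonneg_right W2 (integral_nonneg (μ := H.vol t) fun x => (c.χ01 x).1)
    nlinarith
  have k1 : ∫ x, (E / (e * s ^ 8) * g x ^ 2 + E * e / s ^ 4 * χ x) ∂H.vol σ ≤
      E * (1 + 32 * V * A ^ 4) * e := by
    rw [int_add Al I hσ (Al.s0_cmul _ (Al.s0_pow 2 sg)) (Al.s0_cmul _ c.sχ), integral_const_mul,
      integral_const_mul]
    exact (add_le_add (mul_le_mul_of_nonneg_left l2 (by positivity))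
      (mul_le_mul_of_nonneg_left k0 (by positivity))).trans_eq (by field_simp)
  have k2 : ∀ x, (χ x * (P * Real.exp (-(q * γ * (b x - μ)))) ≤ χ x * (P * Real.exp (-(q * f x))) +
      (E / (e * s ^ 8) * g x ^ 2 + E * e / s ^ 4 * χ x)) ∧
      χ x * (P * Real.exp (-(q * f x))) ≤ χ x * (P * Real.exp (-(q * γ * (b x - μ)))) +
        (E / (e * s ^ 8) * g x ^ 2 + E * e / s ^ 4 * χ x) := fun x => by
    obtain ⟨χ0, χ1⟩ := c.χ01 x
    by_cases hx : x ∈ H.An t z (θ * s) (A * s)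
    swap
    · simp only [(c.zero x hx).self_of_nhds, zero_mul, mul_zero, add_zero, zero_add, and_self]
      positivity
    have a1 : Real.exp (-(q * f x)) ≤ E := hE ▸ Real.exp_le_exp.2 (by nlinarith [hF x])
    have a2 : Real.exp (-(q * γ * (b x - μ))) ≤ E := hE ▸ Real.exp_le_exp.2 (by
      have b1 : -(b x - μ) ≤ (C + 1) * s ^ 2 := by linarith [c.b_lo Al hx, (abs_le.1 hμ).2]
      have b2 := mul_le_mul_of_nonneg_left b1 (show 0 ≤ q * γ by positivity)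
      have b3 : q * γ * s ^ 2 ≤ 1 := by nlinarith [mul_pos γ0 s2]
      nlinarith)
    have a3 : |q * f x - q * γ * (b x - μ)| = q * γ * |g x| := by
      rw [hf x hx, show q * (γ * (b x - μ + g x)) - q * γ * (b x - μ) = q * γ * g x by ring,
        abs_mul, abs_of_pos (by positivity)]
    have a4 : χ x * (P * (E * (q * γ * |g x|))) ≤
        E / (e * s ^ 8) * g x ^ 2 + E * e / s ^ 4 * χ x := by
      have b1 : P * (q * γ) ≤ 1 / s ^ 6 := by rwa [le_div_iff₀ (by positivity)]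
      have b2 : χ x * |g x| ≤ g x ^ 2 / (e * s ^ 2) + e * s ^ 2 * χ x := by
        rw [← sq_abs (g x), div_add' _ _ _ (by positivity), le_div_iff₀ (by positivity)]
        have : 0 < e * s ^ 2 := by positivity
        generalize e * s ^ 2 = y at *
        nlinarith [sq_nonneg (|g x| - y * χ x), abs_nonneg (g x), mul_nonneg (mul_nonneg χ0
          (sub_nonneg.2 χ1)) (sq_nonneg y), mul_nonneg χ0 (sq_nonneg y)]
      calc _ = E * (P * (q * γ)) * (χ x * |g x|) := by ring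
        _ ≤ E * (1 / s ^ 6) * (g x ^ 2 / (e * s ^ 2) + e * s ^ 2 * χ x) := by gcongr
        _ = _ := by field_simp
    have a5 := exp_lip (y := q * γ * (b x - μ)) a1
    have a6 := exp_lip (y := q * f x) a2
    rw [abs_sub_comm] at a6
    rw [a3] at a5 a6
    constructor
    · nlinarith [mul_le_mul_of_nonneg_left a6 (mul_nonneg χ0 P0.le)]
    · nlinarith [mul_le_mul_of_nonneg_left a5 (mul_nonneg χ0 P0.le)]
  have k3 := int_mono Al I hσ s3 (Al.s0_add s1 s4) fun x => (k2 x).1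
  have k4 := int_mono Al I hσ s1 (Al.s0_add s3 s4) fun x => (k2 x).2
  rw [int_add Al I hσ s1 s4] at k3
  rw [int_add Al I hσ s3 s4] at k4
  have k5 := w1 _ s3 fun x => mul_nonneg (c.χ01 x).1 (by positivity)
  have k6 : ∫ x, χ x * (P * Real.exp (-(q * γ * (b x - μ)))) ∂H.vol t =
      Real.exp (q * γ * μ) * (JJ (H.vol t) χ b (q * γ) / Real.pi ^ 2) / q ^ 2 := by
    have : ∀ x, χ x * (P * Real.exp (-(q * γ * (b x - μ)))) =
        P * Real.exp (q * γ * μ) * (χ x * Real.exp (-(q * γ * b x))) := fun x => by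
      rw [show -(q * γ * (b x - μ)) = q * γ * μ + -(q * γ * b x) by ring, Real.exp_add]; ring
    simp only [this]
    rw [integral_const_mul, JJ, hP]
    field_simp
  rw [k6] at k5
  exact ⟨k5.1.trans (mul_le_mul_of_nonneg_left (by linarith) W0), by linarith [k5.2]⟩

end CD

end Crest.Agent.N207.Ge

end
end

-- ▼ part N207/G/EnN
section

/-! Row 207, block G: the entropy of a neighbour (`GNbr`). -/

set_option autoImplicit false
set_option linter.dupNamespace false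
set_option linter.unusedSectionVars false
open Set MeasureTheory Filter Topology Real
open scoped ContDiff

noncomputable section

namespace Crest.Agent.N207

namespace HC

variable {M : Type*} [TopologicalSpace M] [CompactSpace M] [MeasurableSpace M]
  [OpensMeasurableSpace M] {H : HC M}

/-- reverse Bernstein estimate `2 (t - a) |∇u|² + u² ≤ m²` -/
theorem revBern (A : H.Alg) (E : H.Evo) {a b : ℝ} {u : ℝ → M → ℝ} (hs : H.St a b)
    (hu : H.Heat a b u) {m : ℝ} (hm : ∀ x, |u a x| ≤ m) : ∀ t ∈ Icc a b, ∀ x,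
      2 * (t - a) * H.gam t (u t) (u t) x + u t x ^ 2 ≤ m ^ 2 := by
  have s1 : H.Sm a b fun t (_ : M) => 2 * (t - a) := A.sm_timeU (by fun_prop)
  have d1 : HasDt a b (fun t (_ : M) => 2 * (t - a)) fun _ _ => 2 :=
    HasDt.time (c' := fun _ => 2) fun t _ => by
      simpa using ((hasDerivAt_id t).sub_const a).const_mul 2
  have sg := A.sm_gam hs hu.1 hu.1
  have := A.sub_le hs (A.sm_add (A.sm_mul s1 sg) (A.sm_pow 2 hu.1))
    ((d1.mul (E.dt_gam hs hu.1 hu.2)).add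
      (A.heat_comp hs hu (φ := fun y => y ^ 2) (by fun_prop))) (m := m ^ 2) (c := 0)
    (fun x => by simpa using sq_le_sq' (abs_le.1 (hm x)).1 (abs_le.1 (hm x)).2) fun t ht x => by
      have ht' := Ioc_subset_Icc_self ht
      have hm' := hs.mem ht'
      have su := A.sm_s0 hu.1 t ht'
      have h1 := E.hh_nonneg t hm' su x
      have d2 : deriv (deriv fun y : ℝ => y ^ 2) (u t x) = 2 := by
        have : (deriv fun y : ℝ => y ^ 2) = fun y => 2 * y := by funext y; simp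
        rw [this]; simp
      rw [A.lap_add t hm' (A.s0_cmul _ (A.s0_gam hm' su su)) (A.s0_pow 2 su),
        A.lap_cmul hm' _ (A.s0_gam hm' su su), d2]
      simp only [sub_self, A.gam_const' hm' 0 su]
      nlinarith [mul_nonneg (sub_nonneg.2 ht'.1) h1]
  simpa using this

/-- a function with bounded gradient is Lipschitz -/
theorem lip_of_gam (A : H.Alg) (D : H.Dist) {t : ℝ} (ht : t ∈ Ioo 0 H.T) {u : M → ℝ}
    (hu : H.S0 u) {L : ℝ} (hL : 0 < L) (h : ∀ z, H.gam t u u z ≤ L ^ 2) (x y : M) :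
    |u y - u x| ≤ L * H.d t x y := by
  have := A.lip_glob D ht (A.s0_cmul L⁻¹ hu) (fun z => by
    rw [A.gam_cmul ht _ hu (A.s0_cmul _ hu), A.gam_cmul' ht _ hu hu, ← mul_assoc, ← sq, inv_pow,
      inv_mul_le_iff₀ (by positivity), mul_one]
    exact h z) x y
  rwa [← mul_sub, abs_mul, abs_of_pos (inv_pos.2 hL), inv_mul_le_iff₀ hL] at this

/-- pairing of a bounded Lipschitz function with a concentrated density -/
theorem pair_conc (A : H.Alg) (I : H.Intg) (D : H.Dist) {t : ℝ} (ht : t ∈ Ioo 0 H.T) {z : M}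
    {u w : M → ℝ} (hu : H.S0 u) (hw : H.S0 w) (hp : ∀ y, 0 ≤ w y) (hm : ∫ y, w y ∂H.vol t = 1)
    {ε m L : ℝ} (hε : 0 ≤ ε) (hL : 0 ≤ L) (hb : ∀ y, |u y| ≤ m)
    (hl : ∀ y, |u y - u z| ≤ L * H.d t z y) (ho : ∫ y in {y | ε ≤ H.d t z y}, w y ∂H.vol t ≤ ε) :
    |∫ y, u y * w y ∂H.vol t - u z| ≤ L * ε + 2 * m * ε := by
  have ms : MeasurableSet {y | ε ≤ H.d t z y} :=
    (isClosed_le continuous_const (D.cont t ht z)).measurableSet
  have iw := A.integrable I ht hw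
  have m0 : 0 ≤ m := (abs_nonneg _).trans (hb z)
  have e : ∫ y, u y * w y ∂H.vol t - u z = ∫ y, (u y - u z) * w y ∂H.vol t := by
    simp only [sub_mul]
    rw [integral_sub (A.integrable I ht (A.s0_mul hu hw)) (iw.const_mul _), integral_const_mul, hm,
      mul_one]
  have : ∫ y, |(u y - u z) * w y| ∂H.vol t ≤
      ∫ y, (L * ε * w y + 2 * m * {y | ε ≤ H.d t z y}.indicator w y) ∂H.vol t := by
    refine integral_mono (A.integrable I ht (A.s0_mul (A.s0_sub hu (A.s0_const _)) hw)).abs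
      ((iw.const_mul _).add ((iw.indicator ms).const_mul _)) fun y => ?_
    simp only [abs_mul, abs_of_nonneg (hp y)]
    by_cases hy : ε ≤ H.d t z y
    · have : {y | ε ≤ H.d t z y}.indicator w y = w y := indicator_of_mem (by exact hy) _
      simp only [this]
      have k : |u y - u z| ≤ 2 * m := (abs_sub _ _).trans (by linarith [hb y, hb z])
      nlinarith [mul_le_mul_of_nonneg_right k (hp y), mul_nonneg (mul_nonneg hL hε) (hp y)]
    · have : {y | ε ≤ H.d t z y}.indicator w y = 0 := indicator_of_notMem (by exact hy) _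
      simp only [this]
      have k := (hl y).trans (mul_le_mul_of_nonneg_left (not_le.1 hy).le hL)
      nlinarith [mul_le_mul_of_nonneg_right k (hp y)]
  rw [integral_add (iw.const_mul _) ((iw.indicator ms).const_mul _), integral_const_mul,
    integral_const_mul, hm, integral_indicator ms] at this
  rw [e]
  refine abs_integral_le_integral_abs.trans (this.trans ?_)
  nlinarith [mul_le_mul_of_nonneg_left ho m0]

/-- comparison of volumes at two times -/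
theorem vol_real_le (I : H.Intg) {K : ℝ} (hK : ∀ t ∈ Ioo 0 H.T, ∀ x, |H.R t x| ≤ K) {s t : ℝ}
    (hs : s ∈ Ioo 0 H.T) (ht : t ∈ Ioo 0 H.T) (S : Set M) :
    (H.vol t).real S ≤ exp (K * |t - s|) * (H.vol s).real S := by
  have := I.fin s hs
  have h := I.vol_le hK s hs t ht S
  rw [Measure.smul_apply, smul_eq_mul] at h
  have := ENNReal.toReal_mono (ENNReal.mul_ne_top ENNReal.ofReal_ne_top (measure_ne_top _ _)) h
  rwa [ENNReal.toReal_mul, ENNReal.toReal_ofReal (exp_pos _).le] at this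

/-- Gibbs inequality with the truncated potential of a second density -/
theorem gibbs (A : H.Alg) (I : H.Intg) {σ τ κ μ C0 η : ℝ} (hσ : σ ∈ Ioo 0 H.T) (hτ : 0 < τ)
    (hκ : 0 < κ) (hμ : 0 < μ) (hC : 0 ≤ C0) {v v' : M → ℝ} (sv : H.S0 v) (sv' : H.S0 v')
    (pv : ∀ x, 0 < v x) (pv' : ∀ x, 0 < v' x) (mv : ∫ x, v x ∂H.vol σ = 1)
    (mv' : ∫ x, v' x ∂H.vol σ = 1) (hb : ∀ x, log (κ * v' x + μ) ≤ C0) {Ω : Set M}
    (hΩ : MeasurableSet Ω) (h1 : 1 - η ≤ ∫ x in Ω, v x ∂H.vol σ)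
    (h2 : 2 - η ≤ ∫ x in Ω, pot τ v x * v x ∂H.vol σ) :
    3 - (2 + C0) * η - (κ + μ * (H.vol σ).real Ω) / (4 * π * τ) ^ 2 ≤
      ∫ x, -log (κ * v' x + μ) * v x ∂H.vol σ := by
  have := I.fin σ hσ
  have := pi_pos
  have pw : ∀ x, 0 < κ * v' x + μ := fun x => by have := pv' x; positivity
  have sw := A.s0_add (A.s0_cmul κ sv') (A.s0_const μ)
  have ia := A.integrable I hσ (A.s0_mul (A.s0_neg (A.s0_log sw pw)) sv)
  have iv := A.integrable I hσ sv
  have iv' := A.integrable I hσ sv'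
  have ip := A.integrable I hσ (A.s0_mul (A.s0_pot sv pv τ) sv)
  have iw := A.integrable I hσ sw
  rw [← integral_add_compl hΩ ia]
  have c1 : ∫ x in Ωᶜ, v x ∂H.vol σ ≤ η := by
    have := integral_add_compl hΩ iv
    linarith
  have k1 : -C0 * η ≤ ∫ x in Ωᶜ, -log (κ * v' x + μ) * v x ∂H.vol σ := by
    refine le_trans ?_ (setIntegral_mono (iv.const_mul (-C0)).integrableOn ia.integrableOn
      fun x => mul_le_mul_of_nonneg_right (neg_le_neg (hb x)) (pv x).le)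
    rw [integral_const_mul]
    nlinarith
  have j1 : IntegrableOn (fun x => pot τ v x * v x + v x) Ω (H.vol σ) := (ip.add iv).integrableOn
  have j2 : IntegrableOn (fun x => (κ * v' x + μ) / (4 * π * τ) ^ 2) Ω (H.vol σ) :=
    (iw.div_const _).integrableOn
  have k2 : ∫ x in Ω, (pot τ v x * v x + v x - (κ * v' x + μ) / (4 * π * τ) ^ 2) ∂H.vol σ ≤
      ∫ x in Ω, -log (κ * v' x + μ) * v x ∂H.vol σ := by
    refine setIntegral_mono (j1.sub j2) ia.integrableOn fun x => ?_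
    have q := Sob.mul_log_ge (a := v x) (b := (κ * v' x + μ) / (4 * π * τ) ^ 2) (pv x).le
      (div_pos (pw x) (by positivity))
    rw [log_div (pw x).ne' (by positivity), log_pow] at q
    simp only [pot]
    push_cast at q
    nlinarith
  rw [integral_sub j1 j2, integral_add ip.integrableOn iv.integrableOn, integral_div,
    integral_add (iv'.const_mul _).integrableOn (integrable_const _).integrableOn,
    integral_const_mul, setIntegral_const, smul_eq_mul] at k2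
  have k3 : ∫ x in Ω, v' x ∂H.vol σ ≤ 1 :=
    mv' ▸ setIntegral_le_integral iv' (Eventually.of_forall fun x => (pv' x).le)
  have k4 : (κ * ∫ x in Ω, v' x ∂H.vol σ + (H.vol σ).real Ω * μ) / (4 * π * τ) ^ 2 ≤
      (κ + μ * (H.vol σ).real Ω) / (4 * π * τ) ^ 2 :=
    div_le_div_of_nonneg_right (by nlinarith) (by positivity)
  linarith

/-- the pairing of a bounded function with two solutions from nearby bumps -/
theorem pair_near (h : H.Ok) {a t ε ε' τ0 τ0' s θ m σ : ℝ} {z z' : M} {v v' : ℝ → M → ℝ}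
    (c : H.CS a t z ε τ0 v) (c' : H.CS a t z' ε' τ0' v') (s0 : 0 < s) (s1 : s ≤ 1) (hθ : 0 < θ)
    (hε : ε ≤ θ * s ^ 2) (hε' : ε' ≤ θ * s ^ 2) (hd : H.d t z z' ≤ θ * s) (ha : a ≤ σ)
    (hσ : σ ≤ t - s ^ 2) {F : M → ℝ} (sF : H.S0 F) (m0 : 0 < m) (hF : ∀ x, |F x| ≤ m) :
    ∫ x, F x * v σ x ∂H.vol σ - 7 * m * θ ≤ ∫ x, F x * v' σ x ∂H.vol σ := by
  have A := h.alg
  have s2 : 0 < s ^ 2 := by positivity
  have hs : H.St σ t := c.st.mono ha (by linarith) le_rfl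
  have sm : σ ∈ Icc σ t := ⟨le_rfl, hs.2.1.le⟩
  have tm : t ∈ Icc σ t := ⟨hs.2.1.le, le_rfl⟩
  have ht := hs.mem tm
  obtain ⟨u, hu, rfl⟩ := h.solv.heat hs sF
  have hv := A.conj_mono c.conj ha le_rfl
  have hv' := A.conj_mono c'.conj ha le_rfl
  rw [A.dual h.int hs hu hv sm tm, A.dual h.int hs hu hv' sm tm]
  have su := A.sm_s0 hu.1 t tm
  have rb := revBern A h.evo hs hu hF t tm
  have b1 : ∀ y, |u t y| ≤ m := fun y => abs_le_of_sq_le_sq' (by
    have := rb y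
    have := mul_nonneg (sub_pos.2 hs.2.1).le (A.gam_nonneg t ht su y)
    nlinarith) m0.le |> abs_le.2
  have b2 := lip_of_gam A h.dist ht su (L := m / s) (by positivity) fun y => by
    have := rb y
    have g := A.gam_nonneg t ht su y
    rw [div_pow, le_div_iff₀ s2]
    nlinarith [sq_nonneg (u t y), mul_le_mul_of_nonneg_right (show s ^ 2 ≤ t - σ by linarith) g]
  have e0 : 0 < ε := c.t0.trans c.t1
  have e0' : 0 < ε' := c'.t0.trans c'.t1
  have k1 := pair_conc A h.int h.dist ht su (A.sm_s0 hv.1 t tm) (fun y => (c.pos y).le) c.mass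
    e0.le (by positivity) b1 (b2 z) c.conc
  have k2 := pair_conc A h.int h.dist ht su (A.sm_s0 hv'.1 t tm) (fun y => (c'.pos y).le) c'.mass
    e0'.le (by positivity) b1 (b2 z') c'.conc
  have k3 := (b2 z z').trans (mul_le_mul_of_nonneg_left hd (by positivity))
  have q : ∀ e : ℝ, e ≤ θ * s ^ 2 → m / s * e + 2 * m * e ≤ 3 * (m * θ) := fun e he => by
    have q1 : m / s * e ≤ m / s * (θ * s ^ 2) := mul_le_mul_of_nonneg_left he (by positivity)
    have q2 : m / s * (θ * s ^ 2) = m * θ * s := by field_simp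
    have q3 : m * θ * s ≤ m * θ := mul_le_of_le_one_right (by positivity) s1
    have q4 : m * e ≤ m * (θ * s ^ 2) := mul_le_mul_of_nonneg_left he m0.le
    have q5 : m * (θ * s ^ 2) ≤ m * θ := by
      rw [← mul_assoc]; exact mul_le_of_le_one_right (by positivity) (by nlinarith)
    linarith
  have q2 : m / s * (θ * s) = m * θ := by field_simp
  have := q ε hε
  have := q ε' hε'
  have := abs_le.1 k1
  have := abs_le.1 k2
  have := abs_le.1 k3
  linarith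

/-- from the Nash entropy at an earlier time to `W` -/
theorem W_of_Na (h : H.Ok) {a t ε τ0 s η σ σ' : ℝ} {z : M} {v : ℝ → M → ℝ}
    (c : H.CS a t z ε τ0 v) (s0 : 0 < s) (η0 : 0 < η) (hε : ε ≤ η * s ^ 2) (η1 : η ≤ 1) (s1 : s ≤ 1)
    (ha : a ≤ σ) (hσ : σ ∈ Icc (t - 2 * s ^ 2) (t - s ^ 2)) (hσ' : σ' ∈ Icc (t - s ^ 2 / 2) t)
    (hN : -η ≤ H.Na σ (τ0 + t - σ) (v σ)) : -(10 * η) ≤ H.Wv t τ0 v σ' := by
  have A := h.alg
  have s2 : 0 < s ^ 2 := by positivity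
  have pv := A.conj_pos h.evo c.st c.conj c.pos
  have m1 : σ ∈ Icc a t := ⟨ha, by linarith [hσ.2]⟩
  have m2 : σ' ∈ Icc a t := ⟨by linarith [hσ.2, hσ'.1], hσ'.2⟩
  have k1 := (A.Na_bounds h.int h.evo c.st c.conj pv c.t0 c.mass m1 m2
    (by linarith [hσ.2, hσ'.1])).2
  have k2 := A.Na_le h.int h.evo c.st c.conj pv c.t0 c.mass c.hW (abs_le.1 c.hN).2 σ' m2
  have t0 := c.t0
  have t1 := c.t1
  have e1 : ε ≤ s ^ 2 := hε.trans (mul_le_of_le_one_left s2.le η1)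
  have e2 : ε ≤ η := hε.trans (mul_le_of_le_one_right η0.le (by nlinarith))
  have k3 : -(3 * s ^ 2 * η) ≤ (τ0 + t - σ) * H.Na σ (τ0 + t - σ) (v σ) := by
    have := mul_le_mul_of_nonneg_left hN (show 0 ≤ τ0 + t - σ by linarith [m1.2])
    nlinarith [mul_le_mul_of_nonneg_right (show τ0 + t - σ ≤ 3 * s ^ 2 by linarith [hσ.1]) η0.le]
  have k4 : (τ0 + t - σ') * H.Na σ' (τ0 + t - σ') (v σ') ≤ 2 * s ^ 2 * η := by
    have := mul_le_mul_of_nonneg_left (k2.trans e2) (show 0 ≤ τ0 + t - σ' by linarith [m2.2])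
    nlinarith [mul_le_mul_of_nonneg_right (show τ0 + t - σ' ≤ 2 * s ^ 2 by linarith [hσ'.1]) η0.le]
  by_contra hn
  have hn' : H.W σ' (τ0 + t - σ') (v σ') < -(10 * η) := not_le.1 hn
  have k5 : s ^ 2 / 2 ≤ σ' - σ := by linarith [hσ.2, hσ'.1]
  nlinarith [mul_lt_mul_of_pos_left hn' (show 0 < σ' - σ by linarith),
    mul_le_mul_of_nonneg_right k5 η0.le]


end HC

end Crest.Agent.N207

end
end

-- ▼ part N207/G/EnN2
section

/-! Row 207, block G: the entropy of a neighbour, `η` independent of `A` (copy of helper78's proof). -/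

set_option autoImplicit false
set_option linter.dupNamespace false
set_option linter.unusedSectionVars false
open Set MeasureTheory Filter Topology Real
open scoped ContDiff

noncomputable section

namespace Crest.Agent.N207

namespace HC

variable {M : Type*} [TopologicalSpace M] [CompactSpace M] [MeasurableSpace M]
  [OpensMeasurableSpace M] {H : HC M}

/-- `GNbr` with `η` chosen before `A` -/
def GNbr' (H : HC M) : Prop :=
  ∀ t0 > 0, ∀ η' > (0 : ℝ), ∃ η : ℝ, 0 < η ∧ ∀ A ≥ (1 : ℝ), ∃ θ : ℝ, 0 < θ ∧ θ ≤ 1 ∧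
    ∀ {a t ε τ0 s : ℝ} {z : M} {v : ℝ → M → ℝ}, t0 ≤ a → H.CS a t z ε τ0 v → 0 < s → s ≤ 1 →
      ε ≤ θ * s ^ 2 → ∀ σ ∈ Icc (t - 2 * s ^ 2) (t - s ^ 2), a ≤ σ → ∀ Ω : Set M,
      MeasurableSet Ω → Ω ⊆ H.B t z (A * s) → 1 - η ≤ ∫ x in Ω, v σ x ∂H.vol σ →
      2 - η ≤ ∫ x in Ω, pot (τ0 + t - σ) (v σ) x * v σ x ∂H.vol σ →
      ∀ {ε' τ0' : ℝ} {z' : M} {v' : ℝ → M → ℝ}, H.CS a t z' ε' τ0' v' → ε' ≤ θ * s ^ 2 →
        H.d t z z' ≤ θ * s → ∀ σ' ∈ Icc (t - s ^ 2 / 2) t, -η' ≤ H.Wv t τ0' v' σ'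

theorem gNbr' (h : H.Ok) : H.GNbr' := fun t0 h0 η' hη' => by
  have A := h.alg
  have I := h.int
  obtain ⟨Ck, hCk, hk⟩ := h.kerC t0 h0
  obtain ⟨Cv, hCv, hv⟩ := volUp h t0 h0
  obtain ⟨K, hK⟩ := h.evo.R_bd
  have hK' : ∀ t ∈ Ioo 0 H.T, ∀ x, |H.R t x| ≤ |K| := fun t ht x =>
    (hK t ht x).trans (le_abs_self _)
  have := pi_pos
  set e := min 1 (η' / 10) with he
  have e0 : 0 < e := by positivity
  have e1 : e ≤ 1 := min_le_left _ _
  have e2 : e ≤ η' / 10 := min_le_right _ _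
  set C0 := log ((8 * π) ^ 2 * Ck + 1) with hC0
  have C00 : 0 ≤ C0 := log_nonneg (by nlinarith [sq_nonneg (8 * π)])
  refine ⟨e / (4 * (2 + C0)), by positivity, fun A' hA => ?_⟩
  set V := exp (|K| * 2) * (Cv * A' ^ 4) with hV
  have V0 : 0 < V := by positivity
  set μ := min 1 (e / (4 * V)) with hμ
  have μ0 : 0 < μ := by positivity
  have μ1 : μ ≤ 1 := min_le_left _ _
  have μ2 : μ * V ≤ e / 4 := by
    have := mul_le_mul_of_nonneg_right (min_le_right 1 (e / (4 * V))) V0.le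
    refine this.trans_eq ?_
    field_simp
  set m := C0 - log μ + 1 with hm
  have lμ : log μ ≤ 0 := log_nonpos μ0.le μ1
  have m0 : 1 ≤ m := by linarith
  refine ⟨e / (28 * m), by positivity, ?_,
    fun {a t ε τ0 s z v} ha c s0 s1 hε σ hσ haσ Ω mΩ sΩ h1 h2 {ε' τ0' z' v'} c' hε' hd σ' hσ' => ?_⟩
  · rw [div_le_one (by positivity)]; linarith
  set θ := e / (28 * m) with hθ
  have θ0 : 0 < θ := by positivity
  have θm : m * θ = e / 28 := by rw [hθ]; field_simp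
  have θ1 : θ ≤ e / 28 := θm ▸ le_mul_of_one_le_left θ0.le m0
  have s2 : 0 < s ^ 2 := by positivity
  have s3 : s ^ 2 ≤ 1 := pow_le_one₀ s0.le s1
  have m1 : σ ∈ Icc a t := ⟨haσ, by linarith [hσ.2]⟩
  have tm : t ∈ Icc a t := ⟨c.st.2.1.le, le_rfl⟩
  have hσm := c.st.mem m1
  have pv := A.conj_pos h.evo c.st c.conj c.pos σ m1
  have pv' := A.conj_pos h.evo c'.st c'.conj c'.pos σ m1
  have mv := (A.conj_mass I c.st c.conj m1 tm).trans c.mass
  have mv' := (A.conj_mass I c'.st c'.conj m1 tm).trans c'.mass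
  have sv := A.sm_s0 c.conj.1 σ m1
  have sv' := A.sm_s0 c'.conj.1 σ m1
  have t0' := c'.t0
  have t1' := c'.t1
  have hh : s ^ 2 ≤ t - σ := by linarith [hσ.2]
  have h0' : 0 < t - σ := by linarith
  have τ1 : τ0' + t - σ ≤ (1 + θ) * (t - σ) := by
    have := mul_le_mul_of_nonneg_left hh θ0.le
    linarith
  have τ0p : 0 < τ0' + t - σ := by linarith
  set κ := (4 * π * (τ0' + t - σ)) ^ 2 with hκ
  have κ0 : 0 < κ := by positivity
  have pw : ∀ x, 0 < κ * v' σ x + μ := fun x => by have := pv' x; positivity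
  have ub : ∀ x, log (κ * v' σ x + μ) ≤ C0 := fun x => by
    refine log_le_log (pw x) (add_le_add ?_ μ1)
    have k := hk ha c'.st c'.conj (fun x => (c'.pos x).le) σ ⟨haσ, by linarith⟩ x
    rw [c'.mass, mul_one] at k
    have k2 : κ ≤ (8 * π) ^ 2 * (t - σ) ^ 2 := by
      rw [hκ, ← mul_pow]
      refine pow_le_pow_left₀ (by positivity) ?_ 2
      have := τ1.trans (mul_le_mul_of_nonneg_right (show 1 + θ ≤ 2 by linarith) h0'.le)
      calc _ ≤ 4 * π * (2 * (t - σ)) := by gcongr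
        _ = _ := by ring
    refine (mul_le_mul k2 k (pv' x).le (by positivity)).trans_eq ?_
    field_simp
  have g := gibbs A I hσm (τ := τ0 + t - σ) (by linarith [c.t0]) κ0 μ0 C00 sv sv' pv pv' mv mv'
    ub mΩ h1 h2
  have sF : H.S0 fun x => -log (κ * v' σ x + μ) :=
    A.s0_neg (A.s0_log (A.s0_add (A.s0_cmul κ sv') (A.s0_const μ)) pw)
  have pn := pair_near h c c' s0 s1 θ0 hε hε' hd haσ hσ.2 sF (m := m) (by linarith) fun x => by
    have k1 := ub x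
    have k2 : log μ ≤ log (κ * v' σ x + μ) :=
      log_le_log μ0 (by linarith [mul_pos κ0 (pv' x)])
    rw [abs_le]; constructor <;> linarith
  have cmp : ∫ x, -log (κ * v' σ x + μ) * v' σ x ∂H.vol σ ≤
      ∫ x, pot (τ0' + t - σ) (v' σ) x * v' σ x ∂H.vol σ := by
    refine integral_mono (A.integrable I hσm (A.s0_mul sF sv'))
      (A.integrable I hσm (A.s0_mul (A.s0_pot sv' pv' _) sv')) fun x => ?_
    refine mul_le_mul_of_nonneg_right ?_ (pv' x).le
    have k := log_le_log (mul_pos κ0 (pv' x)) (show κ * v' σ x ≤ κ * v' σ x + μ by linarith)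
    rw [log_mul κ0.ne' (pv' x).ne', hκ, log_pow] at k
    simp only [pot]
    push_cast at k
    linarith
  have vol : (H.vol σ).real Ω ≤ V * s ^ 4 := by
    have ht := c.st.mem tm
    have := I.fin t ht
    have k1 := vol_real_le I hK' ht hσm Ω
    have k2 : (H.vol t).real Ω ≤ Cv * (A' * s) ^ 4 := (measureReal_mono sΩ).trans
      (hv t ⟨ha.trans tm.1, ht.2⟩ z _ (by positivity))
    have k3 : exp (|K| * |σ - t|) ≤ exp (|K| * 2) := exp_le_exp.2 (mul_le_mul_of_nonneg_left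
      (abs_le.2 ⟨by linarith [hσ.1], by linarith⟩) (abs_nonneg _))
    refine k1.trans ((mul_le_mul k3 k2 measureReal_nonneg (exp_pos _).le).trans_eq ?_)
    rw [hV]; ring
  have rat : (κ + μ * (H.vol σ).real Ω) / (4 * π * (τ0 + t - σ)) ^ 2 ≤ 1 + e / 4 + e / 4 := by
    have p : 0 < τ0 + t - σ := by linarith [c.t0]
    rw [div_le_iff₀ (by positivity)]
    have q0 : t - σ ≤ τ0 + t - σ := by linarith [c.t0]
    have q1 : κ ≤ (1 + e / 4) * (4 * π * (τ0 + t - σ)) ^ 2 := by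
      have r1 : κ ≤ ((1 + θ) * (4 * π * (τ0 + t - σ))) ^ 2 := by
        rw [hκ]
        refine pow_le_pow_left₀ (by positivity) ?_ 2
        have := τ1.trans (mul_le_mul_of_nonneg_left q0 (by positivity))
        calc _ ≤ 4 * π * ((1 + θ) * (τ0 + t - σ)) := by gcongr
          _ = _ := by ring
      rw [mul_pow] at r1
      have r2 : θ * θ ≤ θ := mul_le_of_le_one_left θ0.le (by linarith)
      exact r1.trans (mul_le_mul_of_nonneg_right (by linarith [sq (1 + θ), add_mul_self_eq 1 θ])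
        (by positivity))
    have q2 : s ^ 4 ≤ (4 * π * (τ0 + t - σ)) ^ 2 := by
      rw [show s ^ 4 = (s ^ 2) ^ 2 by ring]
      refine pow_le_pow_left₀ s2.le ((hh.trans q0).trans (le_mul_of_one_le_left p.le ?_)) 2
      linarith [pi_gt_three]
    have q3 : μ * (H.vol σ).real Ω ≤ e / 4 * (4 * π * (τ0 + t - σ)) ^ 2 := by
      refine (mul_le_mul_of_nonneg_left vol μ0.le).trans ?_
      rw [← mul_assoc]
      exact mul_le_mul μ2 q2 (by positivity) (by positivity)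
    linarith
  have ee : (2 + C0) * (e / (4 * (2 + C0))) = e / 4 := by field_simp
  have hN : -e ≤ H.Na σ (τ0' + t - σ) (v' σ) := by
    unfold Na
    linarith
  have := W_of_Na h c' s0 e0 (hε'.trans (mul_le_mul_of_nonneg_right (by linarith) s2.le)) e1 s1
    haσ hσ hσ' hN
  linarith

end HC

end Crest.Agent.N207

end
end

-- ▼ part N207/G/EnF4

/-!
# Row 207, block G (helper22): no concentration inside a Euclidean neck (scalar part)
-/

set_option autoImplicit false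
set_option linter.dupNamespace false
set_option linter.unusedSectionVars false
open Set MeasureTheory Filter Topology
open scoped ContDiff

noncomputable section

namespace Crest.Agent.N207.Ge

open HC

variable {M : Type*} [TopologicalSpace M] [CompactSpace M] [MeasurableSpace M]
  [OpensMeasurableSpace M] {H : HC M}

theorem exists_bigA {Λ o : ℝ} (hΛ : 0 < Λ) (ho : 0 < o) (X A0 : ℝ) :
    ∃ A, A0 ≤ A ∧ X * A ^ 4 * Real.exp (-(A ^ 2 / (128 * Λ ^ 2))) ≤ o := by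
  have t1 : Tendsto (fun A : ℝ => A ^ 2 / (128 * Λ ^ 2)) atTop atTop :=
    (tendsto_pow_atTop two_ne_zero).atTop_div_const (by positivity)
  have t2 := ((Real.tendsto_pow_mul_exp_neg_atTop_nhds_zero 2).comp t1).const_mul
    (X * (128 * Λ ^ 2) ^ 2)
  rw [mul_zero] at t2
  obtain ⟨A, a1, a2⟩ := ((eventually_ge_atTop A0).and (t2.eventually (gt_mem_nhds ho))).exists
  exact ⟨A, a1, le_trans (le_of_eq (by simp only [Function.comp]; field_simp)) a2.le⟩

theorem num_lo {o y κ : ℝ} (o1 : o ≤ 1 / 4) (hy : y ≤ o / 8) (κ0 : 0 < κ) (κ1 : κ ≤ o / 48) :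
    1 - o / 2 ≤ Real.exp (-y) * ((1 - o / 8) / (1 + κ) ^ 6) := by
  have a1 := Real.add_one_le_exp (-y)
  have a2 := one_add_mul_le_pow (a := -κ) (by linarith) 6
  have a3 : (1 + -κ) ^ 6 * (1 + κ) ^ 6 ≤ 1 := by
    rw [← mul_pow]; exact pow_le_one₀ (by nlinarith) (by nlinarith)
  have a4 : 1 - o / 8 ≤ 1 / (1 + κ) ^ 6 := by
    rw [le_div_iff₀ (by positivity)]
    refine le_trans (mul_le_mul_of_nonneg_right ?_ (by positivity)) a3
    push_cast at a2; linarith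
  have a5 : (1 - o / 8) * ((1 - o / 8) * (1 - o / 8)) ≤
      Real.exp (-y) * ((1 - o / 8) * (1 / (1 + κ) ^ 6)) := by
    exact mul_le_mul (by linarith) (mul_le_mul_of_nonneg_left a4 (by linarith))
      (mul_nonneg (by linarith) (by linarith)) (Real.exp_pos _).le
  rw [mul_one_div] at a5
  nlinarith [mul_nonneg (show 0 ≤ o by linarith) (show 0 ≤ o by linarith)]

theorem mass_lo (h : H.Ok) {t σ r R r' m p : ℝ} {z : M} {u : M → ℝ} (ht : t ∈ Ioo 0 H.T)
    (hσ : σ ∈ Ioo 0 H.T) (su : H.S0 u) (pu : ∀ x, 0 < u x) (mu : ∫ x, u x ∂H.vol σ = 1)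
    (ku : ∀ x, u x ≤ m) (m0 : 0 ≤ m) (tl : ∫ y in {y | r' ≤ H.d t z y}, u y ∂H.vol σ ≤ p)
    (hr : r' ≤ R) :
    1 - (H.vol σ).real (H.B t z r) * m - p ≤ ∫ x in H.An t z r R, u x ∂H.vol σ := by
  have := h.int.fin σ hσ
  have mΩ := (isClosed_An h ht z r R).measurableSet
  have iv := h.alg.integrable h.int hσ su
  have a1 := integral_add_compl mΩ iv
  have mB := (isOpen_B h.dist ht z r).measurableSet
  have mS : MeasurableSet {y | r' ≤ H.d t z y} :=
    (isClosed_le continuous_const (h.dist.cont t ht z)).measurableSet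
  have a3 : ∫ x in (H.An t z r R)ᶜ, u x ∂H.vol σ ≤ ∫ x, ((H.B t z r).indicator (fun _ => m) x +
      {y | r' ≤ H.d t z y}.indicator u x) ∂H.vol σ := by
    rw [← integral_indicator mΩ.compl]
    refine integral_mono (iv.indicator mΩ.compl) (((integrable_const _).indicator mB).add
      (iv.indicator mS)) fun x => ?_
    have b1 : 0 ≤ (H.B t z r).indicator (fun _ => m) x := indicator_nonneg (fun _ _ => m0) x
    have b2 : 0 ≤ {y | r' ≤ H.d t z y}.indicator u x := indicator_nonneg (fun y _ => (pu y).le) x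
    by_cases hx : x ∈ H.An t z r R
    · simpa [hx] using add_nonneg b1 b2
    simp only [indicator_of_mem (mem_compl hx)]
    rcases lt_or_ge (H.d t z x) r with h1 | h1
    · rw [indicator_of_mem (show x ∈ H.B t z r from h1)]
      exact le_add_of_le_of_nonneg (ku x) b2
    · rw [indicator_of_mem (show x ∈ {y | r' ≤ H.d t z y} from
        hr.trans (not_le.1 fun h2 => hx ⟨h1, h2⟩).le)]
      exact le_add_of_nonneg_left b1
  rw [integral_add ((integrable_const _).indicator mB) (iv.indicator mS), integral_indicator mB,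
    integral_indicator mS, setIntegral_const, smul_eq_mul] at a3
  linarith

theorem CD.nash {t s θ A C κ e k V : ℝ} {z : M} {b χ : M → ℝ} (h : H.Ok)
    (c : CD H t z s θ A C κ e k V b χ) {σ τ μ F Λ o p η : ℝ} {u g : M → ℝ} (hσ : σ ∈ Ioo 0 H.T)
    (sv : H.S0 u) (pv : ∀ x, 0 < u x) (mv : ∫ x, u x ∂H.vol σ = 1) (sg : H.S0 g) (τ1 : s ^ 2 ≤ τ)
    (τ3 : τ ≤ 3 * s ^ 2)
    (eq : ∀ x ∈ H.An t z (θ * s) (A * s), 4 * τ * pot τ u x = b x - μ + g x) (hμ : |μ| ≤ C * s ^ 2)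
    (l2 : ∫ x, g x ^ 2 ∂H.vol σ ≤ e ^ 2 * s ^ 8) (F0 : 0 ≤ F) (fF : ∀ x, -pot τ u x ≤ F)
    (w1 : ∀ f, H.S0 f → (∀ x, 0 ≤ f x) → ∫ x, f x ∂H.vol t ≤ (1 + o / 4) * ∫ x, f x ∂H.vol σ ∧
      ∫ x, f x ∂H.vol σ ≤ (1 + o / 4) * ∫ x, f x ∂H.vol t) (p0 : 0 < p) (p1 : p ≤ 1)
    (p2 : p ≤ η / 6) (o0 : 0 < o) (o1 : o ≤ 1 / 4) (o2 : o ≤ p * η / 60) (Λ4 : 4 ≤ Λ)
    (hY : Real.exp (2 * F + C + 1) * (1 + 32 * V * A ^ 4) * e ≤ o / 4)
    (hJ : 4 * V * A ^ 4 * (9 * e + 12 * k * Real.exp (-(A ^ 2 / (128 * Λ ^ 2)))) +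
      122 * k * (C + 4) * V * θ ^ 3 ≤ o / 2)
    (k4 : 1 - o / 2 ≤ JJ (H.vol t) χ b (1 / (Λ * s) ^ 2) / Real.pi ^ 2)
    (k5 : 1 - o ≤ ∫ x in H.An t z (2 * θ * s) (A / 2 * s), u x ∂H.vol σ) :
    2 - η ≤ ∫ x in H.An t z (2 * θ * s) (A / 2 * s), pot τ u x * u x ∂H.vol σ := by
  have Al := h.alg
  have I := h.int
  have π3 := Real.pi_gt_three
  have s0 := c.s0
  have s2 := pow_pos s0 2
  have Λ0 : 0 < Λ := by linarith
  have τ0' : 0 < τ := by linarith
  obtain ⟨γ, hγ⟩ : ∃ γ, γ = 1 / (4 * τ) := ⟨_, rfl⟩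
  have γ0 : 0 < γ := by rw [hγ]; positivity
  have γ1 : 4 * τ * γ = 1 := by rw [hγ]; field_simp
  have γ2 : 4 * γ * s ^ 2 ≤ 1 := by nlinarith
  have m0 : 1 / (Λ * s) ^ 2 ≤ γ := by
    rw [hγ]; refine one_div_le_one_div_of_le (by positivity) ?_
    nlinarith [mul_le_mul_of_nonneg_right (show 16 ≤ Λ ^ 2 by nlinarith) s2.le]
  have m1 : (1 + p) * γ ≤ 1 / s ^ 2 := by
    rw [le_div_iff₀ s2]; nlinarith [mul_pos γ0 s2]
  have m2 : γ ≤ (1 + p) * γ := by nlinarith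
  have π1 : 1 ≤ Real.pi ^ 2 := by nlinarith
  have ep := fun x => exp_pot τ0' γ1 (pv x)
  have sf := Al.s0_pot sv pv τ
  have pk := fun q => c.pair_k h (q := q) hσ sf sg γ0 γ2 (fun x hx => by
    rw [← eq x hx]; linear_combination (-pot τ u x) * γ1) hμ l2 F0 fF (by linarith) w1 (by linarith)
  have k1 := (pk 1 le_rfl one_le_two).1
  have k2 := (pk (1 + p) (by linarith) (by linarith)).2
  simp only [one_mul, ep, one_pow, div_one] at k1
  have jl : ∀ x ∈ Icc (1 / (Λ * s) ^ 2) (1 / s ^ 2), ∀ y ∈ Icc (1 / (Λ * s) ^ 2) (1 / s ^ 2),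
      JJ (H.vol t) χ b y / Real.pi ^ 2 ≤ JJ (H.vol t) χ b x / Real.pi ^ 2 + o / 2 :=
    fun x hx y hy => by
      rw [← sub_le_iff_le_add', ← sub_div]
      exact (div_le_div_of_nonneg_right ((abs_le.1 (c.JJ_lip h Λ0 hx hy)).2.trans hJ)
        (by positivity)).trans (div_le_self (by positivity) π1)
  have mΩ := (isClosed_An h c.ht z (2 * θ * s) (A / 2 * s)).measurableSet
  have iv := Al.integrable I hσ sv
  have se := Al.s0_cmul ((γ / Real.pi) ^ 2) (s0_gau Al sf (1 + p))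
  have k6 := setInt_le_int h hσ mΩ (Al.integrable I hσ se) (Al.s0_mul c.sχ se)
    (fun x => mul_nonneg (c.χ01 x).1 (by positivity)) fun x hx => by
      simp only [(c.one x hx).self_of_nhds, one_mul, le_refl]
  have k7 : ∫ x, χ x * u x ∂H.vol σ ≤ 1 := mv ▸ int_mono Al I hσ (Al.s0_mul c.sχ sv) sv fun x =>
    mul_le_of_le_one_left (pv x).le (c.χ01 x).2
  have j0 : 0 ≤ JJ (H.vol t) χ b ((1 + p) * γ) / Real.pi ^ 2 := div_nonneg (mul_nonneg
    (sq_nonneg _) (integral_nonneg fun x => mul_nonneg (c.χ01 x).1 (Real.exp_pos _).le))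
    (sq_nonneg _)
  have j1 : (1 + o / 4) * (1 + o / 4) ≤ 1 + o := by nlinarith
  have k8 := num_oh (X := Real.exp (γ * μ)) (Xh := Real.exp (p * (γ * μ)))
    (j1 := JJ (H.vol t) χ b γ / Real.pi ^ 2) (j2 := JJ (H.vol t) χ b ((1 + p) * γ) / Real.pi ^ 2)
    p0 p2 o0 o1 o2 (Real.exp_pos _) (Real.exp_pos _).le (by
      rcases le_total (γ * μ) 0 with h1 | h1
      · exact le_max_of_le_left (Real.exp_le_one_iff.2 (mul_nonpos_of_nonneg_of_nonpos p0.le h1))
      · exact le_max_of_le_right (Real.exp_le_exp.2 (mul_le_of_le_one_left h1 p1)))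
    (by linarith [jl γ ⟨m0, m2.trans m1⟩ _ ⟨le_rfl, m0.trans (m2.trans m1)⟩])
    (by linarith [jl γ ⟨m0, m2.trans m1⟩ _ ⟨m0.trans m2, m1⟩])
    (k1.trans ((mul_le_mul_of_nonneg_left (add_le_add k7 hY) (by linarith)).trans j1))
    (k6.trans (k2.trans (by
      rw [← Real.exp_add, show p * (γ * μ) + γ * μ = (1 + p) * γ * μ by ring]
      exact add_le_add (mul_le_mul_of_nonneg_right (by linarith) (by positivity))
        (by linarith)))) k5
  refine k8.trans ?_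
  rw [← integral_sub iv.integrableOn (Al.integrable I hσ se).integrableOn, ← integral_div]
  refine setIntegral_mono ((iv.sub (Al.integrable I hσ se)).div_const p).integrableOn
    (Al.integrable I hσ (Al.s0_mul sf sv)).integrableOn fun x => ?_
  have a1 : (γ / Real.pi) ^ 2 * Real.exp (-((1 + p) * pot τ u x)) =
      u x * Real.exp (-(p * pot τ u x)) := by
    rw [← ep x, mul_assoc, ← Real.exp_add]; congr 2; ring
  simp only [a1]
  rw [div_le_iff₀ p0]
  linarith [mul_le_mul_of_nonneg_left (Real.add_one_le_exp (-(p * pot τ u x))) (pv x).le]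

theorem CD.lo {t s θ A C o e k V Λ ι : ℝ} {z : M} {b χ : M → ℝ} (h : H.Ok)
    (c : CD H t z s θ A C (o / 48) e k V b χ) (o1 : o ≤ 1 / 4) (Λ4 : 4 ≤ Λ)
    (Λy : (1 + 1 / (o / 48)) * C ^ 2 / Λ ^ 2 ≤ o / 8) (θ2 : θ ≤ ι / 16) (hA : 4 * Λ ^ 2 ≤ A * ι)
    (eu : ∀ l > (0 : ℝ), l * (2 * θ * s) ^ 2 ≤ ι → 1 ≤ ι * (l * (A / 2 * s) ^ 2) →
      (1 - o / 8) * (Real.pi / l) ^ 2 ≤ ∫ x in H.An t z (2 * θ * s) (A / 2 * s),
        Real.exp (-(l * H.d t z x ^ 2)) ∂H.vol t) :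
    1 - o / 2 ≤ JJ (H.vol t) χ b (1 / (Λ * s) ^ 2) / Real.pi ^ 2 := by
  have o0 : 0 < o := by linarith [c.κ0]
  have s0 := c.s0; have θ0 := c.θ0; have π0 := Real.pi_pos
  have Λ0 : 0 < Λ := by linarith
  have A1 : 1 ≤ A := by linarith [c.CA, c.C1]
  have ι0 : 0 < ι := by linarith
  have κ3 : (1 + o / 48) ^ 3 ≤ (3 / 2) ^ 3 := by gcongr; linarith
  have κ4 : 1 ≤ (1 + o / 48) ^ 3 := one_le_pow₀ (by linarith)
  have k3 := c.JJ_lo h Λ0 (eu ((1 + o / 48) ^ 3 / (Λ * s) ^ 2) (by positivity) (by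
    rw [show (1 + o / 48) ^ 3 / (Λ * s) ^ 2 * (2 * θ * s) ^ 2 = (1 + o / 48) ^ 3 * 4 * θ ^ 2 / Λ ^ 2
      by field_simp; ring]
    refine (div_le_self (by positivity) (by nlinarith)).trans ?_
    nlinarith [mul_le_of_le_one_left θ0.le c.θ1, mul_le_mul_of_nonneg_right κ3 (sq_nonneg θ)]) (by
    rw [show ι * ((1 + o / 48) ^ 3 / (Λ * s) ^ 2 * (A / 2 * s) ^ 2) =
      (1 + o / 48) ^ 3 * (A ^ 2 * ι) / (4 * Λ ^ 2) by field_simp; ring, le_div_iff₀ (by positivity)]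
    have a2 := mul_le_mul_of_nonneg_right (show A ≤ A ^ 2 by nlinarith) ι0.le
    linarith [mul_le_mul_of_nonneg_right κ4 (show 0 ≤ A ^ 2 * ι by positivity)]))
  refine (num_lo o1 Λy (κ := o / 48) (by positivity) le_rfl).trans ?_
  rw [le_div_iff₀ (by positivity)]
  exact le_trans (le_of_eq (by field_simp)) k3

set_option maxHeartbeats 1000000 in
/-- the mass and the Nash entropy on a Euclidean neck -/
theorem nash_neck (h : H.Ok) (Co : H.COut) (GG : H.GGood) (GC : H.GCut) {t0 η : ℝ} (h0 : 0 < t0)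
    (hη : 0 < η) : ∃ o, 0 < o ∧ ∀ ι > (0 : ℝ), ∃ θ A C : ℝ, 0 < θ ∧ θ ≤ 1 ∧ 1 ≤ C ∧ 1 ≤ A ∧
      ∀ B ≥ (0 : ℝ), ∃ β : ℝ, 0 < β ∧ β ≤ 1 / 4 ∧ ∀ {a t ε τ0 s : ℝ} {z : M} {v : ℝ → M → ℝ},
        t0 ≤ a → H.CS a t z ε τ0 v → 0 < s → s ≤ β → ε ≤ β * s ^ 2 → a ≤ t - 2 * s ^ 2 →
        H.Reg t s B β (H.An t z (θ / C * s) (C * A * s)) → H.drop t τ0 v s ≤ β →
        (∀ l > (0 : ℝ), l * (2 * θ * s) ^ 2 ≤ ι → 1 ≤ ι * (l * (A / 2 * s) ^ 2) →
          (1 - o) * (Real.pi / l) ^ 2 ≤ ∫ x in H.An t z (2 * θ * s) (A / 2 * s),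
            Real.exp (-(l * H.d t z x ^ 2)) ∂H.vol t) →
        ∃ σ ∈ Icc (t - 2 * s ^ 2) (t - s ^ 2),
          1 - η ≤ ∫ x in H.An t z (2 * θ * s) (A / 2 * s), v σ x ∂H.vol σ ∧
          2 - η ≤ ∫ x in H.An t z (2 * θ * s) (A / 2 * s),
            pot (τ0 + t - σ) (v σ) x * v σ x ∂H.vol σ := by
  have Al := h.alg
  have I := h.int
  have π3 := Real.pi_gt_three
  obtain ⟨V, V0, hV⟩ := Co.up t0 h0
  obtain ⟨Ck, Ck0, hk⟩ := Co.kerC t0 h0
  obtain ⟨K, K1, GC⟩ := GC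
  obtain ⟨R, hR⟩ := h.evo.R_bd
  have hR' : ∀ t ∈ Ioo 0 H.T, ∀ x, |H.R t x| ≤ |R| := fun t ht x =>
    (hR t ht x).trans (le_abs_self _)
  have R0 := abs_nonneg R
  obtain ⟨p, hp⟩ : ∃ p, p = min 1 (η / 6) := ⟨_, rfl⟩
  have p0 : 0 < p := by rw [hp]; positivity
  have p1 : p ≤ 1 := hp ▸ min_le_left _ _
  obtain ⟨o, ho⟩ : ∃ o, o = min (1 / 4) (p * η / 60) := ⟨_, rfl⟩
  have o0 : 0 < o := by rw [ho]; positivity
  have o1 : o ≤ 1 / 4 := ho ▸ min_le_left _ _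
  have o2 : o ≤ p * η / 60 := ho ▸ min_le_right _ _
  obtain ⟨At, At1, hT⟩ := gTight h Co t0 h0 (o / 4) (by positivity)
  obtain ⟨C, C1, GG⟩ := GG t0 h0 (o / 48) (by positivity)
  obtain ⟨Λ, hΛ⟩ : ∃ Λ, Λ = 4 + 8 * ((1 + 1 / (o / 48)) * C ^ 2) / o := ⟨_, rfl⟩
  have y0 : 0 < (1 + 1 / (o / 48)) * C ^ 2 := by positivity
  have Λ4 : 4 ≤ Λ := by rw [hΛ]; exact le_add_of_nonneg_right (by positivity)
  have Λ0 : 0 < Λ := by linarith
  have Λy : (1 + 1 / (o / 48)) * C ^ 2 / Λ ^ 2 ≤ o / 8 := by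
    have : 8 * ((1 + 1 / (o / 48)) * C ^ 2) ≤ Λ * o := by
      rw [← div_le_iff₀ o0]; linarith
    rw [div_le_iff₀ (by positivity)]
    nlinarith [mul_le_mul_of_nonneg_right (show Λ ≤ Λ ^ 2 by nlinarith) o0.le]
  have k0 := Real.sqrt_nonneg K
  refine ⟨o / 8, by positivity, fun ι ι0 => ?_⟩
  obtain ⟨A, A1, A2⟩ := exists_bigA (o := o / 8) Λ0 (by positivity) (48 * V * √K)
    (16 * C + 4 * At + 4 * Λ ^ 2 / ι)
  have q0 : 0 < 4 * Λ ^ 2 / ι := by positivity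
  have A0 : 0 < A := by linarith
  obtain ⟨X, hX⟩ : ∃ X, X = 64 * Ck * V + 8 * (122 * √K * (C + 4) * V) := ⟨_, rfl⟩
  have X1 : 0 < 64 * Ck * V := by positivity
  have X2 : 0 ≤ 8 * (122 * √K * (C + 4) * V) := by positivity
  obtain ⟨θ, hθ⟩ : ∃ θ, θ = min 1 (min (ι / 16) (o / X)) := ⟨_, rfl⟩
  have θ0 : 0 < θ := by rw [hθ, hX]; positivity
  have θ1 : θ ≤ 1 := hθ ▸ min_le_left _ _
  have θ2 : θ ≤ ι / 16 := hθ ▸ (min_le_right _ _).trans (min_le_left _ _)
  have θ3 : θ * X ≤ o := (le_div_iff₀ (by linarith)).1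
    (hθ ▸ (min_le_right _ _).trans (min_le_right _ _))
  have θ4 : ∀ n, θ ^ (n + 1) ≤ θ := fun n => pow_le_of_le_one θ0.le θ1 n.succ_ne_zero
  refine ⟨θ, A, C, θ0, θ1, C1, by linarith, fun B B0 => ?_⟩
  obtain ⟨F, hF⟩ : ∃ F, F = Real.log (1 + Ck * (8 * Real.pi) ^ 2) := ⟨_, rfl⟩
  have F0 : 0 ≤ F := hF ▸ Real.log_nonneg (le_add_of_nonneg_right (by positivity))
  obtain ⟨Y, hY⟩ : ∃ Y, Y = Real.exp (2 * F + C + 1) * (1 + 32 * V * A ^ 4) := ⟨_, rfl⟩
  have Y0 : 0 < Y := by rw [hY]; positivity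
  obtain ⟨e, he⟩ : ∃ e, e = min 1 (o / (4 * Y + 288 * V * A ^ 4)) := ⟨_, rfl⟩
  have e0 : 0 < e := by rw [he]; positivity
  have e2 : e * (4 * Y + 288 * V * A ^ 4) ≤ o :=
    (le_div_iff₀ (by positivity)).1 (he ▸ min_le_right _ _)
  have e3 : 0 < V * A ^ 4 * e := by positivity
  have n1 : Real.exp (2 * F + C + 1) * (1 + 32 * V * A ^ 4) * e ≤ o / 4 := by
    rw [← hY]; linarith
  rw [hX] at θ3
  have n4 : 32 * Ck * V * θ ^ 4 ≤ o / 2 := by
    linarith [mul_le_mul_of_nonneg_left (show θ ^ 4 ≤ θ from θ4 3) X1.le, mul_nonneg θ0.le X2]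
  have n2 : 4 * V * A ^ 4 * (9 * e + 12 * √K * Real.exp (-(A ^ 2 / (128 * Λ ^ 2)))) +
      122 * √K * (C + 4) * V * θ ^ 3 ≤ o / 2 := by
    linarith [mul_le_mul_of_nonneg_left (show θ ^ 3 ≤ θ from θ4 2) X2, mul_pos e0 Y0,
      mul_pos θ0 X1]
  have n3 := (div_le_iff₀ ι0).1 (show 4 * Λ ^ 2 / ι ≤ A by linarith)
  have n5 : o ≤ η := by linarith [mul_le_of_le_one_left hη.le p1]
  obtain ⟨β, β0, β1, GG⟩ := GG θ A B (e ^ 2) θ0 θ1 (by linarith) B0 (by positivity)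
  have l0 : 0 < Real.log (1 + o / 4) := Real.log_pos (by linarith)
  refine ⟨min β (min (o / 4) (Real.log (1 + o / 4) / (2 * |R| + 1))), by positivity,
    (min_le_left _ _).trans β1, fun {a t ε τ0 s z v} ha cs s0 s1 hε has reg dr eu => ?_⟩
  simp only [le_min_iff] at s1 dr
  obtain ⟨s1, s3, s4⟩ := s1
  have s2 := pow_pos s0 2
  have s5 : s ^ 2 ≤ s := pow_le_of_le_one s0.le (by linarith) two_ne_zero
  have ε1 := hε.trans (mul_le_mul_of_nonneg_right (min_le_left _ _) s2.le)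
  have ε2 : ε ≤ s ^ 2 := ε1.trans (mul_le_of_le_one_left s2.le (by linarith))
  obtain ⟨σ, μ, b, g, pc, hμ, val, -⟩ := GG False ha cs s0 s1 ε1 has
    (reg_mono reg s0 (min_le_left _ _) fun x hx => ⟨hx.1.resolve_left id, hx.2⟩) dr.1
  obtain ⟨σ1, σ2⟩ := pc.σ1
  have tm : t ∈ Icc a t := ⟨cs.st.2.1.le, le_rfl⟩
  have σm : σ ∈ Ico a t := ⟨by linarith, by linarith⟩
  have σm' := Ico_subset_Icc_self σm
  have ht := cs.st.mem tm
  have hσ := cs.st.mem σm'
  have vt := hV t ⟨by linarith [tm.1], ht.2⟩ z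
  obtain ⟨χ, sχ, χ01, χ1, χ0, χg⟩ := GC t ht z (θ * s) (2 * θ * s) (A / 2 * s) (A * s)
    (by linarith [mul_pos θ0 s0]) (mul_le_mul_of_nonneg_right (by linarith) s0.le)
    (by linarith [mul_pos A0 s0])
  have c : CD H t z s θ A C (o / 48) e √K V b χ :=
    ⟨ht, s0, θ0, θ1, C1, by linarith, by positivity, by linarith, e0, he ▸ min_le_left _ _, k0, vt,
      pc.sb, sχ, χ01, χ1, fun x hx => χ0 x (by
        by_contra hn; push Not at hn; exact hx ⟨hn.1.le, hn.2.le⟩),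
      fun x hx => ((χg x).1 hx).trans_eq (by
        rw [div_pow, Real.sq_sqrt (by linarith)]; congr 2; ring),
      fun x hx => ((χg x).2 hx).trans_eq (by
        rw [div_pow, Real.sq_sqrt (by linarith)]; congr 2; ring), pc.hess, pc.gam, val⟩
  have τ1 : s ^ 2 ≤ τ0 + t - σ := by linarith [cs.t0]
  have τ2 : τ0 + t - σ ≤ 2 * (t - σ) := by linarith [cs.t1]
  have τ0' : 0 < τ0 + t - σ := by linarith
  have pv := Al.conj_pos h.evo cs.st cs.conj cs.pos σ σm'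
  have sv := Al.sm_s0 cs.conj.1 σ σm'
  have mv : ∫ x, v σ x ∂H.vol σ = 1 := (Al.conj_mass I cs.st cs.conj σm' tm).trans cs.mass
  have kv : ∀ x, v σ x ≤ Ck / (t - σ) ^ 2 := fun x => by
    simpa [cs.mass] using hk ha cs.st cs.conj (fun x => (cs.pos x).le) σ σm x
  have fF : ∀ x, -pot (τ0 + t - σ) (v σ) x ≤ F := fun x => by
    rw [hF, Real.le_log_iff_exp_le (by positivity)]
    have a1 : Real.exp (-pot (τ0 + t - σ) (v σ) x) = v σ x * (4 * Real.pi * (τ0 + t - σ)) ^ 2 := by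
      rw [← exp_pot τ0' (γ := 1 / (4 * (τ0 + t - σ))) (by field_simp) (pv x)]; field_simp
    have a2 : 0 < t - σ := by linarith
    have a3 : v σ x * (4 * Real.pi * (τ0 + t - σ)) ^ 2 ≤
        Ck / (t - σ) ^ 2 * (4 * Real.pi * (2 * (t - σ))) ^ 2 := by
      have := pv x; gcongr; exact kv x
    rw [a1]
    exact a3.trans ((le_of_eq (by field_simp; ring)).trans (le_add_of_nonneg_left zero_le_one))
  have w0 : ∀ r r', |r - r'| ≤ 2 * s ^ 2 → Real.exp (|R| * |r - r'|) ≤ 1 + o / 4 := fun r r' hr => by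
    rw [← Real.le_log_iff_exp_le (by linarith)]
    have := (le_div_iff₀ (by positivity)).1 s4
    linarith [mul_le_mul_of_nonneg_left hr R0, mul_le_mul_of_nonneg_left s5 R0]
  have w2 := w0 t σ (abs_le.2 ⟨by linarith, by linarith⟩)
  have w3 := w0 σ t (abs_le.2 ⟨by linarith, by linarith⟩)
  have k5 : 1 - o ≤ ∫ x in H.An t z (2 * θ * s) (A / 2 * s), v σ x ∂H.vol σ := by
    have q1 : s ≤ √(t - σ) := Real.le_sqrt_of_sq_le (by linarith)
    have q2 : √(t - σ) ≤ 2 * s := Real.sqrt_le_iff.2 ⟨by positivity, by linarith⟩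
    have a1 := mass_lo h (r := 2 * θ * s) (R := A / 2 * s) (m := Ck / s ^ 4) ht hσ sv pv mv
      (fun x => (kv x).trans (by
        rw [show s ^ 4 = (s ^ 2) ^ 2 by ring]; gcongr; linarith)) (by positivity)
      (hT ha cs σ σm (by linarith)) (by
        linarith [mul_le_mul_of_nonneg_left q2 (show 0 ≤ At by linarith),
          mul_le_mul_of_nonneg_right (show 4 * At ≤ A by linarith) s0.le])
    have a4 : (H.vol σ).real (H.B t z (2 * θ * s)) ≤ 2 * (V * (2 * θ * s) ^ 4) :=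
      (vol_real_le2 I hR' ht hσ _).trans (mul_le_mul (by linarith) (vt _ (by positivity))
        measureReal_nonneg (by norm_num))
    have a5 : (H.vol σ).real (H.B t z (2 * θ * s)) * (Ck / s ^ 4) ≤ 32 * Ck * V * θ ^ 4 :=
      (mul_le_mul_of_nonneg_right a4 (by positivity)).trans_eq (by field_simp; ring)
    linarith
  exact ⟨σ, ⟨σ1, σ2⟩, by linarith, c.nash h hσ sv pv mv pc.sg τ1 (by linarith [cs.t1]) pc.eq hμ
    pc.l2 F0 fF (fun f sf f0 => ⟨(int_cmp0 Al I hR' hσ ht (Al.integrable I hσ sf) f0).trans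
      (mul_le_mul_of_nonneg_right w2 (integral_nonneg f0)),
      (int_cmp0 Al I hR' ht hσ (Al.integrable I ht sf) f0).trans
        (mul_le_mul_of_nonneg_right w3 (integral_nonneg f0))⟩) p0 p1 (hp ▸ min_le_right _ _) o0 o1
    o2 Λ4 n1 n2 (c.lo h o1 Λ4 Λy θ2 n3 eu) k5⟩

end Crest.Agent.N207.Ge

end
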