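import Crest.Agent.N207.G.Gl2
import Crest.Agent.N207.G.Df
import Crest.Agent.N207.C.Cutf
import Crest.Agent.N207.G.EnBad

-- ▼ part N207/G/Gl3
section

/-!
# Row 207, block G (helper93): the long neck
-/

set_option autoImplicit false
set_option linter.unusedSectionVars false

open scoped ContDiff Manifold Topology Nat
open Set Filter Metric

noncomputable section

namespace Crest.Agent.N207.G

open Sk

variable {M : Type*} [TopologicalSpace M] [ChartedSpace E4 M] [IsManifold 𝓘(ℝ, E4) ∞ M]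
  [T3Space M] [ConnectedSpace M] [MeasurableSpace M] [BorelSpace M]

/-- a centred chart with `C²` control -/
def CJ (g : Met 4 M) (z : M) (η : ℝ) (Γ : Subgroup (E4 ≃ₗᵢ[ℝ] E4)) (Ψ : E4 → M) (a b δ : ℝ) :
    Prop :=
  Ch g z η Γ Ψ a b ∧ ∀ x ∈ shell a b, JG 2 (g.pm Ψ) x ‖x‖ δ

theorem CJ.res {g : Met 4 M} {z : M} {η : ℝ} {Γ : Subgroup (E4 ≃ₗᵢ[ℝ] E4)} {Ψ : E4 → M}
    {a b δ : ℝ} (h : CJ g z η Γ Ψ a b δ) (h0 : 0 ≤ η) (h1 : η ≤ 1) {a' b' δ' : ℝ} (ha : a ≤ a')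
    (hb : b' ≤ b) (hδ : δ ≤ δ') : CJ g z η Γ Ψ a' b' δ' :=
  ⟨h.1.res h0 h1 ha hb, fun x hx => jg_mono (h.2 x (shell_mono ha hb hx)) hδ⟩

theorem step (T : TRANS M) : ∃ δ0 C : ℝ, 0 < δ0 ∧ 1 ≤ C ∧ ∀ (g : Met 4 M) (z : M)
    (Γ Γ' : Subgroup (E4 ≃ₗᵢ[ℝ] E4)) (Ψ Ψ' : E4 → M) (r δ η : ℝ), 0 < r → 0 ≤ δ → δ ≤ δ0 →
    0 ≤ η → η ≤ 1 / 5 → Γ ≠ ⊥ → Γ' ≠ ⊥ → CJ g z η Γ Ψ (r / 64) (8 * r) δ →
    CJ g z η Γ' Ψ' (r / 64) (8 * r) δ →
    ∃ (A : E4 ≃ₗᵢ[ℝ] E4) (ι : Γ ≃* Γ') (P : E4 → E4), (∀ γ : Γ, ∀ x, A (γ.1 x) = (ι γ).1 (A x)) ∧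
      Pert 3 P r (C * δ) ∧ (∀ x ∈ shell (r / 2) r, Ψ' (A (x + P x)) = Ψ x) ∧
      ∀ γ ∈ Γ, ∀ x, r / 2 < ‖x‖ → P (γ x) = γ (P x) := by
  obtain ⟨η0, hη0, T⟩ := T
  obtain ⟨C, hC, T⟩ := T 1
  obtain ⟨C', hC', hP⟩ := exists_P 3
  refine ⟨η0, C' * (C + 1), hη0, one_le_mul_of_one_le_of_one_le hC' (by linarith),
    fun g z Γ Γ' Ψ Ψ' r δ η hr h0 h1 e0 e1 hΓ hΓ' h h' => ?_⟩
  set N := nk g z Γ Ψ (r / 16) (8 * r) with hN
  set N' := nk g z Γ' Ψ' (r / 16) (8 * r) with hN'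
  have ha : 0 < r / 16 := by positivity
  have haa : 3 * (r / 64) ≤ r / 16 := by linarith
  have hab : r / 16 < 8 * r := by linarith
  set V := max (g.vol.real N.In) (g.vol.real N'.In) / (r / 16) ^ 4 with hV
  have hVe : V * (r / 16) ^ 4 = max (g.vol.real N.In) (g.vol.real N'.In) :=
    div_mul_cancel₀ _ (by positivity)
  have hs : shell (r / 16) (8 * r) ⊆ shell (r / 64) (8 * r) := shell_mono (by linarith) le_rfl
  obtain ⟨Θ, ι, hΘ, h2, h3⟩ := T g N N' V (r / 8) (8 * r) (h.1.top e0 e1 ha haa hab hΓ)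
    (h'.1.top e0 e1 ha haa hab hΓ')
    ⟨fun x hx => jg_mono (jg_of_le (h.2 x (hs hx)) one_le_two) h1,
      (le_max_left _ _).trans_eq hVe.symm⟩
    ⟨fun x hx => jg_mono (jg_of_le (h'.2 x (hs hx)) one_le_two) h1,
      (le_max_right _ _).trans_eq hVe.symm⟩
    (show 2 * (r / 16) ≤ _ by linarith) (show 2 * (r / 16) ≤ _ by linarith) le_rfl le_rfl
    (by linarith) (h.1.cmp h'.1 e0 e1 ha haa hab ha haa hab (by linarith) (by linarith)
      le_rfl le_rfl)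
  obtain ⟨A, hA, hJ⟩ := h3 r δ (by linarith) le_rfl h0 h1
    (fun x hx => h.2 x (shell_mono (by linarith) (by linarith) hx))
    (fun x hx => h'.2 x (shell_mono (by linarith) le_rfl hx))
  have hs2 : shell (r / 2) (2 * r) ⊆ shell (r / 8) (8 * r / 2) :=
    shell_mono (by linarith) (by linarith)
  obtain ⟨P, p1, p2, p3⟩ := hP Θ A r ((C + 1) * δ) hr (by positivity) (hΘ.mono hs2)
    fun x hx k hk => (hJ x hx k hk).trans (by gcongr; linarith)
  refine ⟨A, ι, P, hA, by rwa [mul_assoc], fun x hx => ?_, fun γ hγ => ?_⟩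
  · rw [p2 x hx]
    exact (h2 x (shell_mono (by linarith) (by linarith) hx)).2.1
  · exact p3 γ (ι ⟨γ, hγ⟩).1 (hA ⟨γ, hγ⟩) fun x hx => (h2 x (hs2 hx)).2.2 ⟨γ, hγ⟩

theorem lng (T : TRANS M) (η : ℝ) (hη : 0 < η) : ∃ δ : ℝ, 0 < δ ∧ δ ≤ 1 / 10 ∧
    ∀ (g : Met 4 M) (z : M) (s : ℝ) (n : ℕ), 0 < s →
    (∀ i ≤ n, ∃ Γ Ψ, Γ ≠ ⊥ ∧ CJ g z δ Γ Ψ (4 ^ i * s / 64) (64 * (4 ^ i * s)) δ) →
    ∃ Γ Ψ, Γ ≠ ⊥ ∧ CJ g z (1 / 10) Γ Ψ (s / 64) (64 * (4 ^ n * s)) η := by
  obtain ⟨δ0, C, hδ0, hC, hstep⟩ := step T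
  obtain ⟨Cr, hCr, hrot⟩ := jg_rot (M := M) 1
  obtain ⟨Cp, hCp, hpert⟩ := jg_pert (M := M) 1
  set K : ℝ := (16 + C) * Cr with hK
  have hK1 : Cr ≤ K := le_mul_of_one_le_left (by linarith) (by linarith)
  have hK2 : C * Cr ≤ K := by rw [hK]; gcongr; linarith
  have hK3 : 16 * Cr ≤ K := by rw [hK]; gcongr; linarith
  set μ : ℝ := min (min δ0 (1 / 100)) (η / (4 * Cp)) with hμ
  have hμ0 : 0 < μ := by positivity
  have hμ1 : μ ≤ δ0 := (min_le_left _ _).trans (min_le_left _ _)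
  have hμ2 : μ ≤ 1 / 100 := (min_le_left _ _).trans (min_le_right _ _)
  have hμ3 : 4 * Cp * μ ≤ η := by
    have : μ ≤ η / (4 * Cp) := min_le_right _ _
    rwa [le_div_iff₀' (by positivity)] at this
  have hμ4 : μ ≤ η := by nlinarith
  set δ : ℝ := μ / K with hδ
  have hKpos : 0 < K := by linarith
  have hδ0' : 0 < δ := by positivity
  have hKδ : K * δ = μ := mul_div_cancel₀ _ hKpos.ne'
  have d1 : Cr * δ ≤ μ := hKδ ▸ by gcongr
  have d2 : C * (Cr * δ) ≤ μ := by rw [← mul_assoc, ← hKδ]; gcongr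
  have d3 : 16 * (Cr * δ) ≤ μ := by rw [← mul_assoc, ← hKδ]; gcongr
  have d4 : δ ≤ Cr * δ := le_mul_of_one_le_left hδ0'.le hCr
  refine ⟨δ, hδ0', by linarith, fun g z s n hs H => ?_⟩
  suffices h : ∃ Γ Ψ Ψl, Γ ≠ ⊥ ∧ CJ g z δ Γ Ψ (4 ^ n * s / 64) (64 * (4 ^ n * s)) (Cr * δ) ∧
      CJ g z (1 / 10) Γ Ψl (s / 64) (64 * (4 ^ n * s)) η ∧
      ∀ x, 2 * (4 ^ n * s) ≤ ‖x‖ → Ψl x = Ψ x by
    obtain ⟨Γ, -, Ψl, h1, -, h2, -⟩ := h
    exact ⟨Γ, Ψl, h1, h2⟩
  induction n with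
  | zero =>
    obtain ⟨Γ, Ψ, h1, h2⟩ := H 0 le_rfl
    refine ⟨Γ, Ψ, Ψ, h1, h2.res hδ0'.le (by linarith) le_rfl le_rfl d4, ?_, fun _ _ => rfl⟩
    simp only [pow_zero, one_mul] at h2 ⊢
    exact ⟨h2.1.mono (by linarith) (by positivity) (by positivity),
      fun x hx => jg_mono (h2.2 x hx) (by linarith)⟩
  | succ n ih =>
    obtain ⟨Γ, Ψ, Ψl, hΓ, h1, h2, h3⟩ := ih fun i hi => H i (hi.trans (Nat.le_succ n))
    obtain ⟨Γ', Ψ', hΓ', h'⟩ := H (n + 1) le_rfl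
    set S : ℝ := 4 ^ n * s with hS
    have hS0 : s ≤ S := le_mul_of_one_le_left hs.le (one_le_pow₀ (by norm_num))
    set r : ℝ := 4 ^ (n + 1) * s with hr
    have hrS : r = 4 * S := by rw [hr, hS, pow_succ]; ring
    have hr0 : 0 < r := by linarith
    obtain ⟨A, ι, P, hA, hP, he, hq⟩ := hstep g z Γ Γ' Ψ Ψ' r (Cr * δ) δ hr0 (by positivity)
      (by linarith) hδ0'.le (by linarith) hΓ hΓ'
      (h1.res hδ0'.le (by linarith) (by linarith) (by linarith) le_rfl)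
      (h'.res hδ0'.le (by linarith) le_rfl (by linarith) d4)
    set Ψ2 : E4 → M := fun x => Ψ' (A x) with hΨ2
    have c2 : CJ g z δ Γ Ψ2 (r / 64) (64 * r) (Cr * δ) :=
      ⟨h'.1.rot ι A hA, fun x hx => hrot g Ψ' _ A x _ δ h'.1.par ((shell_iso A).2 hx)
        (by linarith [hx.1]) (by simpa only [A.norm_map] using h'.2 _ ((shell_iso A).2 hx))⟩
    have he' : ∀ x ∈ shell (r / 2) r, Ψ2 (x + P x) = Ψl x := fun x hx => by
      rw [h3 x (by linarith [hx.1])]; exact he x hx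
    have hε : C * (Cr * δ) ≤ 1 / 100 := by linarith
    refine ⟨Γ, Ψ2, gl Ψl Ψ2 P r, hΓ, c2, ⟨Ch.glue (h2.1.res (by norm_num) (by norm_num) le_rfl
      (by linarith)) c2.1 (hP.of_le (by norm_num)) hr0 hε hδ0'.le (by linarith) le_rfl
      (by linarith) (by linarith) (by linarith) he' hq, fun x hx => ?_⟩, fun x hx => ?_⟩
    · by_cases k1 : ‖x‖ < r
      · refine jg_congr (h2.2 x ⟨hx.1, by linarith⟩) (pm_ev_congr g ?_)
        filter_upwards [continuous_norm.continuousAt.eventually (gt_mem_nhds k1)] with y hy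
        exact gl_in hr0 he' hy
      push Not at k1
      by_cases k2 : 3 / 2 * r < ‖x‖
      · refine jg_congr (jg_mono (c2.2 x ⟨by linarith, hx.2⟩) (by linarith)) (pm_ev_congr g ?_)
        filter_upwards [continuous_norm.continuousAt.eventually (lt_mem_nhds k2)] with y hy
        have hy' : 3 / 2 * r < ‖y‖ := hy
        rw [gl_out hr0 he' (by linarith), hP.zero y hy'.le, add_zero]
      push Not at k2
      have k3 : r / 2 < ‖x‖ := by linarith
      have k4 : x + P x ∈ shell (r / 4) (64 * r) :=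
        hP.mem hr0 hε le_rfl (by linarith) ⟨k3, hx.2⟩
      have k5 : x + P x ∈ shell (r / 64) (64 * r) := shell_mono (by linarith) le_rfl k4
      have k6 : JG 2 (g.pm Ψ2) (x + P x) r μ := jg_of_jb fun i j =>
        ((jb_of_jg (pm_smooth g c2.1.par k5) (c2.2 _ k5) i j).scale (l := 4) (norm_nonneg _)
          hr0.le (by norm_num) (by linarith [k4.1])).mono (by linarith)
      have k7 := hpert g Ψ2 _ P x r μ c2.1.par k5 hr0 (by linarith) k6
        ((hP.jb x k3).mono (by gcongr))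
      have k8 : Par (fun y => Ψ2 (y + P y)) (shell (r / 2) (64 * r)) :=
        (hP.of_le (by norm_num)).par hr0 hε (by linarith) (by linarith) c2.1.par
      have k9 : JG 2 (g.pm fun y => Ψ2 (y + P y)) x ‖x‖ η := jg_of_jb fun i j =>
        ((jb_of_jg (pm_smooth g k8 ⟨k3, hx.2⟩) k7 i j).scale (l := 2) hr0.le (norm_nonneg _)
          (by norm_num) (by linarith)).mono (by norm_num; linarith)
      refine jg_congr k9 (pm_ev_congr g ?_)
      filter_upwards [continuous_norm.continuousAt.eventually (lt_mem_nhds k3)] with y hy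
      exact gl_out hr0 he' hy
    · rw [gl_out hr0 he' (by linarith), hP.zero x (by linarith), add_zero]

end Crest.Agent.N207.G

end
end

-- ▼ part N207/G/Cone
section

/-!
# Row 207, block G (helper93): `CONE` from the pieces
-/

set_option autoImplicit false
set_option linter.unusedSectionVars false

open scoped ContDiff Manifold Topology Nat
open Set Filter Metric MeasureTheory

noncomputable section

namespace Crest.Agent.N207.G

open Sk Gs

variable {M : Type*} [TopologicalSpace M] [ChartedSpace E4 M] [IsManifold 𝓘(ℝ, E4) ∞ M]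
  [T3Space M] [ConnectedSpace M] [MeasurableSpace M] [BorelSpace M]

section

variable {g : Met 4 M} {z : M} {θ : ℝ} {Γ : Subgroup (E4 ≃ₗᵢ[ℝ] E4)} {Ψ : E4 → M} {a b : ℝ}

theorem pn_mem (h : PN g z Γ Ψ a b θ) (h0 : 0 ≤ θ) (h1 : θ < 1) {a' b' : ℝ} {q : M}
    (q1 : 6 / 5 * a ≤ g.d z q) (q2 : g.d z q ≤ 4 / 5 * b) (q3 : (1 + θ) * a' < g.d z q)
    (q4 : g.d z q < (1 - θ) * b') : ∃ x ∈ shell a' b', Ψ x = q := by
  obtain ⟨x, hx, rfl⟩ := h.onto q q1 q2
  have := abs_le.1 (h.sw x hx)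
  exact ⟨x, ⟨lt_of_mul_lt_mul_left (a := 1 + θ) (by linarith) (by linarith),
    lt_of_mul_lt_mul_left (a := 1 - θ) (by linarith) (by linarith)⟩, rfl⟩

theorem pn_ch (h : PN g z Γ Ψ a b θ) (h0 : 0 ≤ θ) (h1 : θ < 1) {a' b' : ℝ} (ha : 0 ≤ a)
    (hb : 0 ≤ b') (haa : 2 * a ≤ a') (hbb : 2 * b' ≤ b) : Ch g z θ Γ Ψ a' b' := by
  have hs : shell a' b' ⊆ shell a b := shell_mono (by linarith) (by linarith)
  exact ⟨h.fin, h.free, par_mono h.par (isOpen_shell _ _) hs,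
    fun x hx y hy => h.fib x (hs hx) y (hs hy), fun x hx => h.sw x (hs hx), fun q q1 q2 =>
      pn_mem h h0 h1 (by nlinarith) (by nlinarith) q1 q2⟩

theorem pn_res (h : PN g z Γ Ψ a b θ) (h0 : 0 ≤ θ) (h1 : θ ≤ 1 / 10) {a' b' θ' : ℝ} (ha : 0 < a')
    (hb : 0 < b') (haa : a ≤ a') (hbb : b' ≤ b) (hθ : θ ≤ θ') : PN g z Γ Ψ a' b' θ' := by
  have hs : shell a' b' ⊆ shell a b := shell_mono haa hbb
  exact ⟨h.fin, h.free, par_mono h.par (isOpen_shell _ _) hs,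
    fun x hx y hy => h.fib x (hs hx) y (hs hy), fun x hx => (h.sw x (hs hx)).trans (by gcongr),
    fun q q1 q2 => pn_mem h h0 (by linarith) (by linarith) (by linarith) (by nlinarith)
      (by nlinarith)⟩

end

theorem en_eq (F : Flow M) (t : ℝ) (z : M) (r : ℝ) : en (F.m t) z r = F.hc.en t z r := by
  have : (F.m t).ball z r = F.hc.B t z r := by
    ext q; exact Iff.of_eq (congrArg (· < r) (d_comm _ q z))
  unfold en HC.en
  rw [this]; rfl

theorem late_Ioo {F : Flow M} {t : ℝ} (ht : t ∈ late F) : t ∈ Ioo 0 F.T :=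
  ⟨lt_of_lt_of_le (half_pos F.hT) ht.1, ht.2⟩

theorem cone [CompactSpace M] (F : Flow M) (B : Base F) (T : TRANS M) (O : ONE M) (E1 : ENT1 F)
    (E2 : ENT2 F) : CONE F := by
  intro η ε hη hε
  obtain ⟨κ, hκ, E1⟩ := E1
  obtain ⟨δ1, hδ1, hδ1', hl⟩ := lng T η hη
  obtain ⟨L2, η2, K2, r2, n2, hL2, hη2, hK2, hr2, E2⟩ := E2 ε hε
  set L := max 128 L2 with hL
  have hL1 : 128 ≤ L := le_max_left _ _
  have hL3 : L2 ≤ L := le_max_right _ _
  obtain ⟨K1, hK1, E1⟩ := E1 L (by linarith)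
  set θ := min δ1 η2 with hθ
  have hθ0 : 0 < θ := lt_min hδ1 hη2
  have hθ1 : θ ≤ δ1 := min_le_left _ _
  have hθ2 : θ ≤ η2 := min_le_right _ _
  obtain ⟨δ, hδ, O⟩ := O κ L K1 θ 2 hκ (by linarith) hK1 hθ0
  obtain ⟨r1, n1, hr1, E1⟩ := E1 δ hδ
  obtain ⟨C, hC, hV⟩ := B.c.up (F.T / 2) (half_pos F.hT)
  refine ⟨16 * C, max 16 K2, min r1 r2 / 16, n1 + n2, le_trans (by norm_num) (le_max_left _ _),
    by positivity, fun t ht z => ?_⟩
  obtain ⟨B1, c1, E1⟩ := E1 t ht z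
  obtain ⟨B2, c2, E2⟩ := E2 t ht z
  refine ⟨B1 ∪ B2, (Finset.card_union_le _ _).trans (add_le_add c1 c2),
    fun a b ha hab hb hbad hen => ?_⟩
  set K := max 16 K2 with hK
  have hK16 : 16 ≤ K := le_max_left _ _
  have hKK : K2 ≤ K := le_max_right _ _
  obtain ⟨j0, hj0⟩ := exists_mem_Ico_zpow (x := 16 * a) (y := 2) (by positivity) one_lt_two
  set s : ℝ := 2 ^ j0 with hs
  have hs0 : 0 < s := by positivity
  have hs1 : s ≤ 16 * a := hj0.1
  have hs2 : 8 * a < s := by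
    have := hj0.2
    rw [zpow_add_one₀ two_ne_zero] at this
    linarith
  have hex : ∃ n : ℕ, b ≤ 64 * (4 ^ n * s) := by
    obtain ⟨n, hn⟩ := pow_unbounded_of_one_lt (b / s) (show (1 : ℝ) < 4 by norm_num)
    rw [div_lt_iff₀ hs0] at hn
    have : 0 < (4 : ℝ) ^ n * s := by positivity
    exact ⟨n, by linarith⟩
  classical
  set n := Nat.find hex with hn
  have hn1 : b ≤ 64 * (4 ^ n * s) := Nat.find_spec hex
  have hn2 : 4 ^ n * s ≤ 16 * b := by
    rcases Nat.eq_zero_or_pos n with h | h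
    · rw [h, pow_zero]; linarith
    · obtain ⟨k, hk⟩ := Nat.exists_eq_add_of_le' h
      have := Nat.find_min hex (m := k) (by omega)
      rw [hk, pow_succ]
      linarith
  obtain ⟨Γ, Ψ, hΓ, hc⟩ := hl (F.m t) z s n hs0 fun i hi => by
    set S : ℝ := 4 ^ i * s with hS
    have e : (2 : ℝ) ^ (j0 + 2 * i) = S := by
      rw [zpow_add₀ two_ne_zero, zpow_mul, zpow_natCast, hS, mul_comm, ← hs]; norm_num
    have s1 : s ≤ S := le_mul_of_one_le_left hs0.le (one_le_pow₀ (by norm_num))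
    have s2 : S ≤ 16 * b := le_trans (by rw [hS]; gcongr; norm_num) hn2
    have S0 : 0 < S := by linarith
    have nb : j0 + 2 * i ∉ B1 ∪ B2 := fun hm => by
      rcases hbad _ hm with h | h
      · have : a / K ≤ a := div_le_self ha.le (by linarith)
        linarith
      · have : 16 * b ≤ K * b := by gcongr; linarith
        linarith
    have m1 := min_le_left r1 r2
    have m2 := min_le_right r1 r2
    obtain ⟨u, hu1, hu2⟩ := E1 _ (fun h => nb (Finset.mem_union_left _ h)) (by linarith)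
    rw [e] at hu1 hu2
    obtain ⟨Γ, Ψ, p1, p2⟩ := O (F.m t) z u S S0 hu1 hu2
    have l1 : 2 * (S / L) ≤ S / 64 := by
      have : S / L ≤ S / 128 := by gcongr
      linarith
    have l2 : 2 * (64 * S) ≤ L * S := by nlinarith
    have l0 : 0 ≤ S / L := by positivity
    refine ⟨Γ, Ψ, fun h => ?_, (pn_ch p1 hθ0.le (by linarith) l0 (by positivity) l1 l2).mono hθ1
      (by positivity) (by positivity), fun x hx =>
        jg_mono (p2 x (shell_mono (by linarith) (by linarith) hx)) hθ1⟩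
    subst h
    have l3 : S / L ≤ S / L2 := by gcongr
    have l4 : L2 * S ≤ L * S := by gcongr
    have := E2 _ (fun h => nb (Finset.mem_union_right _ h)) (by linarith) Ψ (by
      rw [e]
      exact ⟨pn_res p1 hθ0.le (by linarith) (by positivity) (by positivity) l3 l4 hθ2,
        fun x hx => jg_mono (p2 x (shell_mono l3 l4 hx)) hθ2⟩)
    rw [e, en_eq] at this
    rw [en_eq] at hen
    have l5 : a / K ≤ S / K2 := by gcongr; linarith
    have := HC.en_mono_set B.ok (late_Ioo ht) (x := z) (y := z) (r := a / K) (s := S / K2)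
      fun q hq => lt_of_lt_of_le hq l5
    linarith
  have h1 : Ch (F.m t) z (1 / 10) Γ Ψ (s / 64) b := hc.1.res (by norm_num) (by norm_num) le_rfl hn1
  have haa : 3 * (s / 64) ≤ a := by linarith
  refine ⟨nk (F.m t) z Γ Ψ a b, h1.top (by norm_num) (by norm_num) ha haa hab hΓ, rfl, rfl,
    h1.mem_in (by norm_num) (by norm_num) ha haa hab,
    fun x hx => hc.2 x (shell_mono (show s / 64 ≤ a by linarith) hn1 hx), ?_⟩
  have := B.ok.int.fin t (late_Ioo ht)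
  have h2 : (nk (F.m t) z Γ Ψ a b).In ⊆ F.hc.B t z (2 * a) := fun q hq => by
    have := h1.in_le (by norm_num) (by norm_num) ha haa hab hq
    exact lt_of_le_of_lt this (by linarith)
  calc _ ≤ (F.hc.vol t).real (F.hc.B t z (2 * a)) := measureReal_mono h2
    _ ≤ C * (2 * a) ^ 4 := hV t ht z _ (by positivity)
    _ = 16 * C * a ^ 4 := by ring

end Crest.Agent.N207.G

end
end

-- ▼ part N207/G/Ent1

/-!
# Row 207, block G (helper93): `ENT1`
-/

set_option autoImplicit false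
set_option linter.unusedSectionVars false

open scoped ContDiff Manifold Topology
open Set Filter MeasureTheory

noncomputable section

namespace Crest.Agent.N207.Ge

open Sk Gs HC

variable {M : Type*} [TopologicalSpace M] [ChartedSpace E4 M] [IsManifold 𝓘(ℝ, E4) ∞ M]
  [T3Space M] [ConnectedSpace M] [MeasurableSpace M] [BorelSpace M]

theorem ac_mono {g : Met 4 M} {z : M} {b : M → ℝ} {S δ δ' κ : ℝ} (h : AC g z b S δ κ)
    (h0 : 0 < δ) (hδ : δ ≤ δ') (hS : 0 < S) : AC g z b S δ' κ := by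
  have k : ∀ x, δ' * S ≤ g.d z x → δ' * g.d z x ≤ S → δ * S ≤ g.d z x ∧ δ * g.d z x ≤ S :=
    fun x h1 h2 => by
      have : 0 ≤ g.d z x := dist_nonneg (α := Sl g)
      exact ⟨le_trans (by gcongr) h1, le_trans (by gcongr) h2⟩
  exact ⟨h.sm, fun n hn x h1 h2 => (h.rm n (le_trans (by gcongr) hn) x (k x h1 h2).1
      (k x h1 h2).2).trans (by gcongr),
    fun x h1 h2 => (h.hess x (k x h1 h2).1 (k x h1 h2).2).trans hδ,
    fun x h1 h2 => (h.gam x (k x h1 h2).1 (k x h1 h2).2).trans (by gcongr),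
    fun x h1 h2 => (h.val x (k x h1 h2).1 (k x h1 h2).2).trans (by gcongr), h.vol, h.ne⟩

theorem ball_eq (F : Flow M) (t : ℝ) (z : M) (r : ℝ) : (F.m t).ball z r = F.hc.B t z r := by
  ext q; exact Iff.of_eq (congrArg (· < r) (G.d_comm _ q z))

theorem ball_sub_An (F : Flow M) {t : ℝ} {z x : M} {r p q : ℝ} (h1 : p + r ≤ F.hc.d t z x)
    (h2 : F.hc.d t z x + r ≤ q) : F.hc.B t x r ⊆ F.hc.An t z p q := fun y hy => by
  have h3 : dist (α := Sl (F.m t)) x y < r := hy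
  have h4 := dist_triangle (α := Sl (F.m t)) z x y
  have h5 := dist_triangle_right (α := Sl (F.m t)) z x y
  have h1' : p + r ≤ dist (α := Sl (F.m t)) z x := h1
  have h2' : dist (α := Sl (F.m t)) z x + r ≤ q := h2
  exact ⟨show p ≤ dist (α := Sl (F.m t)) z y by linarith,
    show dist (α := Sl (F.m t)) z y ≤ q by linarith⟩

theorem val_est {b d s S δ e : ℝ} (hδ : 0 < δ) (hδ1 : δ ≤ 1) (hS : 0 < S) (hs : 0 < s)
    (h1 : δ * S ≤ d) (h2 : δ * d ≤ S) (he : e ≤ δ ^ 2 / 6 * S) (hs1 : s ≤ δ ^ 2 / 12 * S)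
    (h : |√(b + 2 * s ^ 2) - d| ≤ e) : |b - d ^ 2| ≤ δ * S ^ 2 := by
  obtain ⟨h3, h4⟩ := abs_le.1 h
  have q1 : δ ^ 2 ≤ δ := by nlinarith
  have q2 : e ≤ δ * S / 6 := by nlinarith
  have q3 : 0 < δ * S := by positivity
  have hw : 0 < √(b + 2 * s ^ 2) := by linarith
  have hb := Real.sq_sqrt (Real.sqrt_pos.1 hw).le
  set w := √(b + 2 * s ^ 2)
  have e0 : 0 ≤ e := (abs_nonneg _).trans h
  have q4 : e * d ≤ δ * S ^ 2 / 6 := by
    calc e * d ≤ δ ^ 2 / 6 * S * d := by gcongr; linarith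
      _ = δ * S / 6 * (δ * d) := by ring
      _ ≤ δ * S / 6 * S := by gcongr
      _ = _ := by ring
  have q5 : e * e ≤ e * d := by gcongr; linarith
  have q6 : s ^ 2 ≤ δ * S ^ 2 / 12 := by
    have a1 : s ≤ S := by nlinarith
    have a2 : s ≤ δ / 12 * S := by nlinarith
    calc s ^ 2 = s * s := sq s
      _ ≤ δ / 12 * S * S := by gcongr
      _ = _ := by ring
  have q7 : |w ^ 2 - d ^ 2| ≤ e * (2 * d + e) := by
    rw [sq_sub_sq, abs_mul, mul_comm, abs_of_pos (by linarith : 0 < w + d)]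
    exact mul_le_mul h (by linarith) (by linarith) e0
  obtain ⟨q8, q9⟩ := abs_le.1 q7
  have q10 : 0 < δ * S ^ 2 := by positivity
  rw [abs_le]; constructor <;> nlinarith

set_option maxHeartbeats 1600000 in
theorem ent1 [CompactSpace M] (F : Flow M) (B : Base F) (G1 : F.hc.GGood) (G2 : F.hc.GOne) :
    ENT1 F := by
  have hT := F.hT
  obtain ⟨κ, hκ, hlo⟩ := B.c.lo (F.T / 2) (by positivity)
  obtain ⟨Cv, hCv, hup⟩ := B.c.up (F.T / 2) (by positivity)
  obtain ⟨θ1, Λ1, β1, hθ1, hθ1', hΛ1, hβ1, G2⟩ := G2 (F.T / 4) (by positivity)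
  obtain ⟨ε0, B0, hε0, hB0, G3⟩ := gRegE B.ok B.e.statB (F.T / 2) (by positivity)
  obtain ⟨ε1, c1, r0, hε1, hc1, hr0, -, G4⟩ := B.e.reg (F.T / 2) (by positivity)
  choose Ck hCk G4 using G4
  refine ⟨κ, hκ, fun L hL => ?_⟩
  set A1 := max Λ1 (L ^ 2) with hA1
  have a1 : Λ1 ≤ A1 := le_max_left _ _
  have a2 : L ^ 2 ≤ A1 := le_max_right _ _
  have a3 : L ≤ L / θ1 := by rw [le_div_iff₀ hθ1]; nlinarith
  refine ⟨L / θ1 + 2 * A1, by linarith, fun δ' hδ' => ?_⟩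
  obtain ⟨β3, hβ3, G3a⟩ := G3 (θ1 / 2) (1 / 4) (by positivity) (by norm_num)
  set δ := min δ' 1 with hδd
  have hδ : 0 < δ := lt_min hδ' one_pos
  have hδ1 : δ ≤ 1 := min_le_right _ _
  obtain ⟨C, hC, G1⟩ := G1 (F.T / 4) (by positivity) (δ ^ 3 / 12) (by positivity)
  set c := δ ^ 2 / (12 * C) with hc
  have hc0 : 0 < c := by positivity
  have hcC : C * c = δ ^ 2 / 12 := by rw [hc]; field_simp
  have hc1' : c ≤ δ ^ 2 / 12 := by nlinarith
  have hc2 : c ≤ δ := by nlinarith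
  have hA : 1 ≤ 1 / (δ * c) := by rw [le_div_iff₀ (by positivity)]; nlinarith
  obtain ⟨β, hβ, -, G1⟩ := G1 1 (1 / (δ * c)) (B0 / (1 / (2 * C)) ^ 2) δ one_pos le_rfl hA
    (by positivity) hδ
  obtain ⟨β2, hβ2, G3b⟩ := G3 (1 / (2 * C)) β (by positivity) hβ
  have e1 : ∀ᶠ ν in 𝓝[>] (0 : ℝ), 0 < ν ∧ ∀ k ∈ Finset.range (⌈1 / δ⌉₊ + 1),
      ν ≤ δ ^ 2 * (δ / 2) ^ (4 + 2 * k) / Ck k :=
    eventually_mem_nhdsWithin.and ((Finset.eventually_all _).2 fun k _ =>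
      (eventually_le_nhds (by have := hCk k; positivity)).filter_mono nhdsWithin_le_nhds)
  obtain ⟨ν, hν, hν'⟩ := e1.exists
  have e2 : ∀ᶠ Λ in atTop, 1 ≤ Λ ∧ 2 * L / θ1 ≤ Λ ∧ 2 * C / c ≤ Λ ∧ 2 / δ ≤ Λ ∧ Λ1 + 1 ≤ Λ ∧
      C / δ + 1 ≤ Λ := by
    refine (eventually_ge_atTop _).and ((eventually_ge_atTop _).and ((eventually_ge_atTop _).and
      ((eventually_ge_atTop _).and ((eventually_ge_atTop _).and (eventually_ge_atTop _)))))
  obtain ⟨Λ, l1, l2, l3, l4, l5, l6⟩ := e2.exists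
  obtain ⟨n1, G5⟩ := gBad B.ok (F.T / 4) (by positivity) β hβ
  obtain ⟨n2, G6⟩ := gBadE B.ok B.d.glob (F.T / 2) (by positivity) (min (min ε0 ε1) (ν / 2))
    (by positivity) Λ l1
  refine ⟨min (min (min 1 β) (min β1 β2)) (min (min β3 (F.T / 8)) (min (min r0 ν) (κ / (2 * Cv)))),
    n1 + n2, by positivity, fun t ht z => ?_⟩
  have ht' := G.late_Ioo ht
  obtain ⟨B1, b1, G5⟩ := G5 t ⟨by linarith [ht.1], ht.2⟩ z c
    (fun j => min (β * (c * 2 ^ j) ^ 2) (β1 * (2 ^ j / L))) hc0 fun j => by positivity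
  obtain ⟨B2, b2, G6⟩ := G6 t ht z
  refine ⟨B1 ∪ B2, (Finset.card_union_le _ _).trans (add_le_add b1 b2), fun j hj hS => ?_⟩
  have G5 := G5 j fun h => hj (Finset.mem_union_left _ h)
  have G6 := G6 j fun h => hj (Finset.mem_union_right _ h)
  set S : ℝ := 2 ^ j with hSd
  have S0 : 0 < S := by positivity
  simp only [le_min_iff] at hS G5 G6
  obtain ⟨⟨⟨S1, S2⟩, S3, S4⟩, ⟨S5, S6⟩, ⟨S7, S8⟩, S9⟩ := hS
  have hs : c * S ≤ S := mul_le_of_le_one_left S0.le (by linarith)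
  have hs0 : 0 < c * S := by positivity
  have hs' : S / L ≤ S := div_le_self S0.le (by linarith)
  have hs0' : 0 < S / L := by positivity
  have win : ∀ s, 0 < s → s ≤ S → F.T / 4 ≤ t - 2 * s ^ 2 := fun s h1 h2 => by
    have : s ^ 2 ≤ S := by nlinarith
    linarith [ht.1]
  have lo : ∀ u, 0 < u → 1 / u ≤ Λ → S / Λ ≤ u * S := fun u hu h => by
    rw [div_le_iff₀ (by linarith)]
    rw [div_le_iff₀ hu] at h
    nlinarith
  obtain ⟨ε, τ0, v, ⟨hε, hε'⟩, hv, hd⟩ := G5 (win _ hs0 hs)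
  obtain ⟨σ, μ, b, g, hP, -, hb, -⟩ := G1 False le_rfl hv hs0 (hs.trans S2) hε (win _ hs0 hs)
    (G3b t ht _ _ hs0 (hs.trans S4) fun x hx => (G6 x _ (ball_sub_An F (by
      have h1 : 1 / C * (c * S) ≤ F.hc.d t z x := by simpa using hx.1
      have h2 := lo (c / (2 * C)) (by positivity) (by rwa [one_div_div])
      have h3 : 1 / C * (c * S) = c / (2 * C) * S + 1 / (2 * C) * (c * S) := by field_simp; ring
      linarith) (by
      have h1 := hx.2
      have h2 : C * (1 / (δ * c)) * (c * S) = C / δ * S := by field_simp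
      have h3 : 1 / (2 * C) * (c * S) ≤ 1 * S := by
        gcongr; rw [div_le_one (by positivity)]; linarith
      have h4 : (C / δ + 1) * S ≤ Λ * S := by gcongr
      linarith))).1.1) hd
  obtain ⟨Cn, c1', c2, c3⟩ := G2 (A := A1) le_rfl hv hs0' (hs'.trans S3) hε' (win _ hs0' hs') a1
    (G3a t ht _ _ hs0' (hs'.trans S5) fun x hx => (G6 x _ (ball_sub_An F (by
      have h1 := hx.1
      have h2 := lo (θ1 / (2 * L)) (by positivity) (by rwa [one_div_div])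
      have h3 : θ1 * (S / L) = θ1 / (2 * L) * S + θ1 / 2 * (S / L) := by field_simp; ring
      linarith) (by
      have h1 := hx.2
      have h2 : Λ1 * (S / L) ≤ Λ1 * S := by gcongr
      have h3 : θ1 / 2 * (S / L) ≤ 1 * S := by gcongr; linarith
      have h4 : (Λ1 + 1) * S ≤ Λ * S := by gcongr
      linarith))).1.1)
  have mem : ∀ x, δ * S ≤ (F.m t).d z x → δ * (F.m t).d z x ≤ S →
      x ∈ F.hc.An t z (1 * (c * S)) (1 / (δ * c) * (c * S)) := fun x h1 h2 => by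
    refine ⟨le_trans ?_ h1, ?_⟩
    · rw [one_mul]; gcongr
    · rw [show 1 / (δ * c) * (c * S) = S / δ by field_simp, le_div_iff₀' hδ]; exact h2
  refine ⟨b, ac_mono (δ := δ) ⟨hP.sb, fun k hk x h1 h2 => ?_, fun x h1 h2 => ?_,
    fun x h1 h2 => (hP.gam x (mem x h1 h2)).trans (by gcongr), fun x h1 h2 => ?_,
    fun p s hs => ?_, ?_⟩ hδ (min_le_left _ _) S0, Cn, c1', fun x h1 h2 => c2 ⟨h1, h2.trans ?_⟩,
    fun x hx => ⟨le_trans ?_ (c3 hx).1, (c3 hx).2.trans ?_⟩⟩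
  · have hr : 0 < δ / 2 * S := by positivity
    have hr1 : δ / 2 * S ≤ 1 / 2 * S := by gcongr
    have h3 := G6 x (δ / 2 * S) (ball_sub_An F (by
      have := lo (δ / 2) (by positivity) (by rwa [one_div_div])
      exact le_trans (by linarith) h1) (by
      have h4 : (F.m t).d z x ≤ 1 / δ * S := by rwa [one_div_mul_eq_div, le_div_iff₀' hδ]
      have h5 : 1 / δ * S ≤ C / δ * S := by gcongr
      have h6 : (C / δ + 1) * S ≤ Λ * S := by gcongr
      exact le_trans (add_le_add h4 le_rfl) (by linarith)))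
    have h4 := ((G4 k t ht x _ hr (by linarith) h3.1.2 x (by
      show F.hc.d t x x < _
      rw [B.ok.dist.self t ht']; positivity)).1 t ht' (by rw [sub_self, abs_zero]; positivity)).1
    have h5 := hν' k (Finset.mem_range.2 (Nat.lt_succ_of_le (by
      have : (k : ℝ) ≤ 1 / δ := by rwa [le_div_iff₀ hδ]
      exact_mod_cast this.trans (Nat.le_ceil _))))
    have h6 := hCk k
    rw [le_div_iff₀' h6] at h5
    refine h4.trans ?_
    calc _ ≤ Ck k * ν / (δ / 2 * S) ^ (4 + 2 * k) := by gcongr; linarith [h3.2]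
      _ ≤ δ ^ 2 * (δ / 2) ^ (4 + 2 * k) / (δ / 2 * S) ^ (4 + 2 * k) := by gcongr
      _ = _ := by rw [mul_pow]; field_simp; ring
  · have := hP.hess x (mem x h1 h2)
    unfold HC.Pc at this
    have e : (F.m t).nsq ((F.m t).hess b) x - 4 * (F.m t).lap b x + 16 =
      F.hc.hh t b x - 2 * 2 * F.hc.lap t b x + 4 * 2 ^ 2 := by
      rw [F.hc_hh, F.hc_lap]; ring
    rw [e]; exact this
  · refine val_est hδ hδ1 S0 hs0 h1 h2 ?_ (by gcongr) (hb x (mem x h1 h2))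
    have h3 : δ ^ 3 / 12 * F.hc.d t z x ≤ δ ^ 2 / 12 * S := by
      calc _ = δ ^ 2 / 12 * (δ * (F.m t).d z x) := by rw [F.hc_d]; ring
        _ ≤ _ := by gcongr
    rw [← mul_assoc, hcC]; linarith
  · rw [ball_eq]; exact hlo t ht p s ⟨hs.1, hs.2.trans S1⟩
  · have : ∃ q, S ≤ (F.m t).d z q := by
      by_contra hn
      push Not at hn
      have := B.ok.int.fin t ht'
      have h1 := hlo t ht z 1 ⟨one_pos, le_rfl⟩
      have h2 := hup t ht z S S0
      have h3 : (F.hc.vol t).real (F.hc.B t z 1) ≤ (F.hc.vol t).real (F.hc.B t z S) :=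
        measureReal_mono fun q _ => hn q
      have h4 : S ^ 4 ≤ S := pow_le_of_le_one S0.le S1 (by norm_num)
      rw [le_div_iff₀ (by positivity)] at S9
      nlinarith
    obtain ⟨q, hq⟩ := this
    exact intermediate_value_univ z q (G.cont_d _ z) ⟨by rw [G.d_self]; exact S0.le, hq⟩
  · calc L * S = L ^ 2 * (S / L) := by field_simp
      _ ≤ _ := by gcongr
  · calc S / (L / θ1 + 2 * A1) ≤ S / (L / θ1) := by gcongr; linarith
      _ = _ := by field_simp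
  · have h1 : 2 * A1 * (S / L) ≤ 2 * A1 * S := by gcongr
    have h2 : 0 ≤ L / θ1 * S := by positivity
    linarith

end Crest.Agent.N207.Ge

end
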