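import Crest.Agent.N207.Sk.Defs
import Crest.Agent.N207.G.Tr
import Crest.Agent.N207.G.Jb

-- ▼ part N207/G/Ch
section

/-!
# Row 207, block G (helper93): centred neck charts
-/

set_option autoImplicit false
set_option linter.unusedSectionVars false

open scoped ContDiff Manifold Topology
open Set Filter
open Crest.GeometryTopology.CoordMetric

noncomputable section

namespace Crest.Agent.N207.G

open Sk

variable {M : Type*} [TopologicalSpace M] [ChartedSpace E4 M] [IsManifold 𝓘(ℝ, E4) ∞ M]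
  [T3Space M] [ConnectedSpace M]

/-- a chart of the metric annulus around `z`, with deck group `Γ` (possibly trivial) -/
structure Ch (g : Met 4 M) (z : M) (η : ℝ) (Γ : Subgroup (E4 ≃ₗᵢ[ℝ] E4)) (Ψ : E4 → M)
    (a b : ℝ) : Prop where
  fin : Finite Γ
  free : ∀ γ ∈ Γ, ∀ x : E4, x ≠ 0 → γ x = x → γ = 1
  par : Par Ψ (shell a b)
  fib : ∀ x ∈ shell a b, ∀ y ∈ shell a b, Ψ x = Ψ y ↔ ∃ γ ∈ Γ, γ x = y
  sand : ∀ x ∈ shell a b, |g.d z (Ψ x) - ‖x‖| ≤ η * ‖x‖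
  onto : ∀ q, (1 + η) * a < g.d z q → g.d z q < (1 - η) * b → ∃ x ∈ shell a b, Ψ x = q


theorem isOpen_shell (a b : ℝ) : IsOpen (shell a b) :=
  (isOpen_lt continuous_const continuous_norm).inter (isOpen_lt continuous_norm continuous_const)

theorem shell_mono {a b a' b' : ℝ} (ha : a ≤ a') (hb : b' ≤ b) : shell a' b' ⊆ shell a b :=
  fun _ hx => ⟨lt_of_le_of_lt ha hx.1, lt_of_lt_of_le hx.2 hb⟩

theorem shell_iso {a b : ℝ} {x : E4} (A : E4 ≃ₗᵢ[ℝ] E4) : A x ∈ shell a b ↔ x ∈ shell a b := by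
  simp only [shell, mem_ofPred_eq, A.norm_map]

theorem cont_d (g : Met 4 M) (z : M) : Continuous (g.d z) :=
  (continuous_const.dist continuous_id : Continuous fun q : Sl g => dist (α := Sl g) z q)

theorem d_self (g : Met 4 M) (z : M) : g.d z z = 0 := dist_self (α := Sl g) z

theorem d_comm (g : Met 4 M) (z q : M) : g.d z q = g.d q z := dist_comm (α := Sl g) z q

variable {g : Met 4 M} {z : M} {η : ℝ} {Γ : Subgroup (E4 ≃ₗᵢ[ℝ] E4)} {Ψ : E4 → M} {a b : ℝ}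

theorem Ch.le (h : Ch g z η Γ Ψ a b) {x : E4} (hx : x ∈ shell a b) :
    g.d z (Ψ x) ≤ (1 + η) * ‖x‖ := by
  have := (abs_le.1 (h.sand x hx)).2
  linarith

theorem Ch.ge (h : Ch g z η Γ Ψ a b) {x : E4} (hx : x ∈ shell a b) :
    (1 - η) * ‖x‖ ≤ g.d z (Ψ x) := by
  have := (abs_le.1 (h.sand x hx)).1
  linarith

theorem Ch.res (h : Ch g z η Γ Ψ a b) (h0 : 0 ≤ η) (h1 : η ≤ 1) {a' b' : ℝ} (ha : a ≤ a')
    (hb : b' ≤ b) : Ch g z η Γ Ψ a' b' := by
  have hs := shell_mono ha hb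
  refine ⟨h.fin, h.free, Gs.par_mono h.par (isOpen_shell _ _) hs,
    fun x hx y hy => h.fib x (hs hx) y (hs hy), fun x hx => h.sand x (hs hx), fun q q1 q2 => ?_⟩
  obtain ⟨x, hx, rfl⟩ := h.onto q (lt_of_le_of_lt (by gcongr) q1)
    (lt_of_lt_of_le q2 (mul_le_mul_of_nonneg_left hb (by linarith)))
  refine ⟨x, ⟨?_, ?_⟩, rfl⟩
  · exact lt_of_mul_lt_mul_left (q1.trans_le (h.le hx)) (by linarith)
  · exact lt_of_mul_lt_mul_left ((h.ge hx).trans_lt q2) (by linarith)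

theorem Ch.mono (h : Ch g z η Γ Ψ a b) {η' : ℝ} (hη : η ≤ η') (ha : 0 ≤ a) (hb : 0 ≤ b) :
    Ch g z η' Γ Ψ a b :=
  ⟨h.fin, h.free, h.par, h.fib, fun x hx => (h.sand x hx).trans (by gcongr), fun q q1 q2 =>
    h.onto q (lt_of_le_of_lt (by gcongr) q1) (lt_of_lt_of_le q2 (by gcongr))⟩

theorem Ch.congr (h : Ch g z η Γ Ψ a b) {Ψ' : E4 → M} (e : ∀ x ∈ shell a b, Ψ' x = Ψ x) :
    Ch g z η Γ Ψ' a b :=
  ⟨h.fin, h.free, Gs.par_congr h.par e, fun x hx y hy => by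
    rw [e x hx, e y hy]; exact h.fib x hx y hy, fun x hx => by rw [e x hx]; exact h.sand x hx,
    fun q q1 q2 => by
      obtain ⟨x, hx, rfl⟩ := h.onto q q1 q2
      exact ⟨x, hx, e x hx⟩⟩

theorem Ch.inv (h : Ch g z η Γ Ψ a b) {x : E4} (hx : x ∈ shell a b) {γ : E4 ≃ₗᵢ[ℝ] E4}
    (hγ : γ ∈ Γ) : Ψ (γ x) = Ψ x :=
  ((h.fib x hx _ ((shell_iso γ).2 hx)).2 ⟨γ, hγ, rfl⟩).symm

theorem Ch.norm_eq (h : Ch g z η Γ Ψ a b) {x y : E4} (hx : x ∈ shell a b) (hy : y ∈ shell a b)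
    (e : Ψ x = Ψ y) : ‖x‖ = ‖y‖ := by
  obtain ⟨γ, -, rfl⟩ := (h.fib x hx y hy).1 e
  exact (γ.norm_map x).symm

/-- change of the chart by an isometry that intertwines the groups -/
theorem Ch.rot (h : Ch g z η Γ Ψ a b) {Γ0 : Subgroup (E4 ≃ₗᵢ[ℝ] E4)} (ι : Γ0 ≃* Γ)
    (A : E4 ≃ₗᵢ[ℝ] E4) (hA : ∀ γ : Γ0, ∀ x, A (γ.1 x) = (ι γ).1 (A x)) :
    Ch g z η Γ0 (fun x => Ψ (A x)) a b := by
  have := h.fin
  refine ⟨Finite.of_equiv _ ι.toEquiv.symm, fun γ hγ x hx e => ?_,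
    Gs.par_comp h.par (isOpen_shell _ _) A.contDiff.contDiffOn (fun y hy => (shell_iso A).2 hy)
      fun y _ => ?_, fun x hx y hy => ?_, fun x hx => ?_, fun q q1 q2 => ?_⟩
  · have h1 := hA ⟨γ, hγ⟩ x
    simp only [e] at h1
    have h2 := h.free _ (ι ⟨γ, hγ⟩).2 (A x) (by simpa using hx) h1.symm
    have h3 : ι ⟨γ, hγ⟩ = 1 := Subtype.ext h2
    exact congrArg Subtype.val ((map_eq_one_iff ι ι.injective).1 h3)
  · have : fderiv ℝ (fun x => A x) y = (A.toContinuousLinearEquiv : E4 →L[ℝ] E4) :=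
      A.toContinuousLinearEquiv.fderiv
    rw [show fderiv ℝ (⇑A) y = fderiv ℝ (fun x => A x) y from rfl, this]
    exact A.injective
  · rw [h.fib _ ((shell_iso A).2 hx) _ ((shell_iso A).2 hy)]
    constructor
    · rintro ⟨γ, hγ, e⟩
      refine ⟨(ι.symm ⟨γ, hγ⟩).1, (ι.symm ⟨γ, hγ⟩).2, A.injective ?_⟩
      rw [hA, ι.apply_symm_apply]; exact e
    · rintro ⟨γ, hγ, rfl⟩
      exact ⟨(ι ⟨γ, hγ⟩).1, (ι ⟨γ, hγ⟩).2, (hA ⟨γ, hγ⟩ x).symm⟩
  · simpa only [A.norm_map] using h.sand _ ((shell_iso A).2 hx)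
  · obtain ⟨x, hx, rfl⟩ := h.onto q q1 q2
    exact ⟨A.symm x, (shell_iso A.symm).2 hx, by simp⟩

/-- the neck of the skeleton defined by a centred chart -/
def nk (g : Met 4 M) (z : M) (Γ : Subgroup (E4 ≃ₗᵢ[ℝ] E4)) (Ψ : E4 → M) (a b : ℝ) : Nk M :=
  ⟨Γ, Ψ, {q | g.d z q ≤ 3 / 4 * a} ∪ Ψ '' {x | a / 2 ≤ ‖x‖ ∧ ‖x‖ ≤ a}, a, b⟩

section nk

variable {a0 : ℝ} (h : Ch g z η Γ Ψ a0 b) (h0 : 0 ≤ η) (h1 : η ≤ 1 / 5) (ha : 0 < a)
  (haa : 3 * a0 ≤ a) (hab : a < b)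
include h h0 h1 ha haa hab

theorem Ch.mem_in : z ∈ (nk g z Γ Ψ a b).In := Or.inl (by
  show g.d z z ≤ _
  rw [d_self]; positivity)

theorem Ch.mem_om {r : ℝ} (hr : a ≤ r) (hrb : r ≤ b) {q : M} (hq : g.d z q < (1 - η) * r) :
    q ∈ (nk g z Γ Ψ a b).Om r := by
  by_cases h3 : g.d z q ≤ 3 / 4 * a
  · exact Or.inl (Or.inl h3)
  push Not at h3
  obtain ⟨x, hx, rfl⟩ := h.onto q (by nlinarith) (lt_of_lt_of_le hq
    (mul_le_mul_of_nonneg_left hrb (by linarith)))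
  have h4 : ‖x‖ < r := lt_of_mul_lt_mul_left ((h.ge hx).trans_lt hq) (by linarith)
  have h5 : a / 2 ≤ ‖x‖ := by
    have := h.le hx
    nlinarith [norm_nonneg x]
  by_cases h6 : ‖x‖ ≤ a
  · exact Or.inl (Or.inr ⟨x, ⟨h5, h6⟩, rfl⟩)
  · exact Or.inr ⟨x, ⟨not_le.1 h6, h4⟩, rfl⟩

theorem Ch.in_le {q : M} (hq : q ∈ (nk g z Γ Ψ a b).In) : g.d z q ≤ (1 + η) * a := by
  rcases hq with hq | ⟨x, hx, rfl⟩
  · have : g.d z q ≤ 3 / 4 * a := hq
    nlinarith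
  · exact (h.le ⟨by linarith [hx.1], by linarith [hx.2]⟩).trans (by gcongr; exact hx.2)

theorem Ch.om_le {r : ℝ} (hr : a ≤ r) (hrb : r ≤ b) {q : M} (hq : q ∈ (nk g z Γ Ψ a b).Om r) :
    g.d z q ≤ (1 + η) * r := by
  rcases hq with hq | ⟨x, hx, rfl⟩
  · exact (h.in_le h0 h1 ha haa hab hq).trans (by gcongr)
  · have hx1 : a < ‖x‖ := hx.1
    exact (h.le ⟨by linarith, lt_of_lt_of_le hx.2 hrb⟩).trans (by gcongr; exact hx.2.le)

theorem Ch.top (hΓ : Γ ≠ ⊥) : (nk g z Γ Ψ a b).Top := by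
  have hs : shell a b ⊆ shell a0 b := shell_mono (by linarith) le_rfl
  refine ⟨⟨h.fin, hΓ, h.free⟩, ha, hab, Gs.par_mono h.par (isOpen_shell _ _) hs,
    fun x hx y hy => h.fib x (hs hx) y (hs hy), fun x hx hi => ?_, fun r hr => ?_, fun r hr => ?_,
    ⟨z, h.mem_in h0 h1 ha haa hab⟩⟩
  · have hx1 : a < ‖x‖ := hx.1
    rcases hi with hi | ⟨y, hy, e⟩
    · have h2 : g.d z (Ψ x) ≤ 3 / 4 * a := hi
      have := h.ge (hs hx)
      nlinarith
    · have := h.norm_eq ⟨by linarith [hy.1], by linarith [hy.2]⟩ (hs hx) e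
      linarith [hy.2]
  · have hr1 : a < r := hr.1
    have hr2 : r ≤ b := hr.2
    have e : (nk g z Γ Ψ a b).Om r = {q | g.d z q < (1 - η) * a} ∪ Ψ '' shell (a / 2) r := by
      refine Subset.antisymm ?_ (union_subset (fun q hq => ?_) ?_)
      · rintro q ((hq | ⟨x, hx, rfl⟩) | ⟨x, hx, rfl⟩)
        · have : g.d z q ≤ 3 / 4 * a := hq
          exact Or.inl (show g.d z q < _ by nlinarith)
        · rcases eq_or_lt_of_le hx.1 with e | e
          · have := h.le (x := x) ⟨by linarith, by linarith⟩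
            exact Or.inl (show g.d z (Ψ x) < _ by nlinarith)
          · exact Or.inr ⟨x, ⟨e, by linarith [hx.2]⟩, rfl⟩
        · have hx1 : a < ‖x‖ := hx.1
          exact Or.inr ⟨x, ⟨by linarith, hx.2⟩, rfl⟩
      · have hq' : g.d z q < (1 - η) * a := hq
        exact h.mem_om h0 h1 ha haa hab hr1.le hr2 (hq'.trans_le
          (mul_le_mul_of_nonneg_left hr1.le (by linarith)))
      · rintro _ ⟨x, hx, rfl⟩
        by_cases h6 : ‖x‖ ≤ a
        · exact Or.inl (Or.inr ⟨x, ⟨hx.1.le, h6⟩, rfl⟩)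
        · exact Or.inr ⟨x, ⟨not_le.1 h6, hx.2⟩, rfl⟩
    rw [e]
    exact (isOpen_lt (cont_d g z) continuous_const).union
      (Gs.par_isOpen h.par (isOpen_shell _ _) (shell_mono (by linarith) hr2))
  · have hr1 : a < r := hr.1
    have hr2 : r < b := hr.2
    have e : (nk g z Γ Ψ a b).In ∪ Ψ '' {x | a < ‖x‖ ∧ ‖x‖ ≤ r} =
        {q | g.d z q ≤ 3 / 4 * a} ∪ Ψ '' {x | a / 2 ≤ ‖x‖ ∧ ‖x‖ ≤ r} := by
      refine Subset.antisymm ?_ ?_
      · rintro q ((hq | ⟨x, hx, rfl⟩) | ⟨x, hx, rfl⟩)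
        · exact Or.inl hq
        · exact Or.inr ⟨x, ⟨hx.1, by linarith [hx.2]⟩, rfl⟩
        · exact Or.inr ⟨x, ⟨by linarith [hx.1], hx.2⟩, rfl⟩
      · rintro q (hq | ⟨x, hx, rfl⟩)
        · exact Or.inl (Or.inl hq)
        · by_cases h6 : ‖x‖ ≤ a
          · exact Or.inl (Or.inr ⟨x, ⟨hx.1, h6⟩, rfl⟩)
          · exact Or.inr ⟨x, ⟨not_le.1 h6, hx.2⟩, rfl⟩
    have hc : IsCompact {x : E4 | a / 2 ≤ ‖x‖ ∧ ‖x‖ ≤ r} :=
      (isCompact_closedBall (0 : E4) r).of_isClosed_subset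
        ((isClosed_le continuous_const continuous_norm).inter
          (isClosed_le continuous_norm continuous_const)) fun x hx => by simpa using hx.2
    show IsClosed ((nk g z Γ Ψ a b).In ∪ Ψ '' {x | a < ‖x‖ ∧ ‖x‖ ≤ r})
    rw [e]
    exact (isClosed_le (cont_d g z) continuous_const).union
      (hc.image_of_continuousOn ((Gs.par_cont h.par).mono fun x hx =>
        ⟨by linarith [hx.1], by linarith [hx.2]⟩)).isClosed

end nk

/-- two centred charts with the same centre are comparable -/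
theorem Ch.cmp {Γ' : Subgroup (E4 ≃ₗᵢ[ℝ] E4)} {Ψ' : E4 → M} {a0 a0' a' b' r1 r2 : ℝ}
    (h : Ch g z η Γ Ψ a0 b) (h' : Ch g z η Γ' Ψ' a0' b') (h0 : 0 ≤ η) (h1 : η ≤ 1 / 5) (ha : 0 < a)
    (haa : 3 * a0 ≤ a) (hab : a < b) (ha' : 0 < a') (haa' : 3 * a0' ≤ a') (hab' : a' < b')
    (e1 : 2 * a ≤ r1) (e1' : 2 * a' ≤ r1) (e2 : r2 ≤ b) (e2' : r2 ≤ b') :
    Cmp (nk g z Γ Ψ a b) (nk g z Γ' Ψ' a' b') r1 r2 := fun r hr => by
  have r1' := hr.1
  have r2' := hr.2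
  constructor
  · intro q hq
    have := h.om_le h0 h1 ha haa hab (by linarith) (by linarith) hq
    exact h'.mem_om h0 h1 ha' haa' hab' (by linarith) (by linarith) (by nlinarith)
  · intro q hq
    have := h'.om_le h0 h1 ha' haa' hab' (by linarith) (by linarith) hq
    exact h.mem_om h0 h1 ha haa hab (by linarith) (by linarith) (by nlinarith)

end Crest.Agent.N207.G

end
end

-- ▼ part N207/G/Gl1

/-!
# Row 207, block G (helper93): jets of pulled back metrics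
-/

set_option autoImplicit false
set_option linter.unusedSectionVars false

open scoped ContDiff Manifold Topology Nat
open Set Filter
open Crest.GeometryTopology.CoordMetric

noncomputable section

namespace Crest.Agent.N207.G

open Sk

/-- basis vectors -/
abbrev ee (i : Fin 4) : E4 := EuclideanSpace.single i (1 : ℝ)

theorem jb_of_jg {m : ℕ} {G : MetricField 4} {x : E4} {s c : ℝ}
    (hs : ∀ i j, ContDiffAt ℝ ∞ (fun y => G y i j) x) (h : JG m G x s c) (i j : Fin 4) :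
    JB m (dv G i j) x s c :=
  ⟨(hs i j).sub contDiffAt_const, fun k hk => h k hk i j⟩

theorem jg_of_jb {m : ℕ} {G : MetricField 4} {x : E4} {s c : ℝ}
    (h : ∀ i j, JB m (dv G i j) x s c) : JG m G x s c := fun k hk i j => (h i j).bd k hk

theorem jg_mono {m : ℕ} {G : MetricField 4} {x : E4} {s c c' : ℝ} (h : JG m G x s c)
    (hc : c ≤ c') : JG m G x s c' := fun k hk i j => (h k hk i j).trans hc

theorem jg_of_le {m m' : ℕ} {G : MetricField 4} {x : E4} {s c : ℝ} (h : JG m G x s c)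
    (hm : m' ≤ m) : JG m' G x s c := fun k hk i j => h k (hk.trans hm) i j

theorem jg_congr {m : ℕ} {G G' : MetricField 4} {x : E4} {s c : ℝ} (h : JG m G x s c)
    (e : G' =ᶠ[𝓝 x] G) : JG m G' x s c := fun k hk i j => by
  have e' : dv G' i j =ᶠ[𝓝 x] dv G i j := e.mono fun y hy => by simp only [dv, hy]
  unfold J1
  rw [(e'.iteratedFDeriv ℝ k).eq_of_nhds]
  exact h k hk i j

theorem jb_coord {m : ℕ} {f : E4 → E4 →L[ℝ] E4} {x : E4} {s c : ℝ} (hs : 0 ≤ s)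
    (h : JB m f x s c) (i a : Fin 4) : JB m (fun y => f y (ee i) a) x s c := by
  have h1 := h.clm (ContinuousLinearMap.apply ℝ E4 (ee i)) hs (l := 1)
    (ContinuousLinearMap.opNorm_le_bound _ zero_le_one fun L => by
      simpa using L.le_opNorm (ee i))
  have h2 := h1.clm (EuclideanSpace.proj a : E4 →L[ℝ] ℝ) hs (l := 1)
    (ContinuousLinearMap.opNorm_le_bound _ zero_le_one fun v => by
      simpa using PiLp.norm_apply_le v a)
  simpa using h2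

theorem jg_pull {m : ℕ} {G G' : MetricField 4} {T : E4 → E4} {x : E4} {s δ δ' D : ℝ} (hs : 0 < s)
    (hD : 1 ≤ D) (hG : ∀ a b, JB (m + 1) (dv G a b) (T x) s δ) (hT : ContDiffAt ℝ ∞ T x)
    (hd : JB (m + 1) (fderiv ℝ T) x s D)
    (ho : ∀ i j, JB (m + 1) (fun y => (∑ a, fderiv ℝ T y (ee i) a * fderiv ℝ T y (ee j) a) -
      (1 : Matrix (Fin 4) (Fin 4) ℝ) i j) x s δ')
    (e : ∀ᶠ y in 𝓝 x, ∀ i j, G' y i j =
      ∑ a, ∑ b, G (T y) a b * fderiv ℝ T y (ee i) a * fderiv ℝ T y (ee j) b) (i j : Fin 4) :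
    JB (m + 1) (dv G' i j) x s
      (4 * (4 * (2 ^ (m + 1) * (2 ^ (m + 1) * ((m + 1)! * D ^ (m + 1) * δ * D) * D))) + δ') := by
  have h1 := fun a b => ((JB.comp hs hD (hG a b) hT (hd.of_le (Nat.le_succ m))).mul hs.le
    (jb_coord hs.le hd i a)).mul hs.le (jb_coord hs.le hd j b)
  have h2 := (JB.sum Finset.univ hs.le fun a _ => JB.sum Finset.univ hs.le fun b _ => h1 a b).add
    hs.le (ho i j)
  simp only [Finset.card_univ, Fintype.card_fin, Nat.cast_ofNat] at h2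
  refine h2.congr (e.mono fun y hy => ?_)
  simp only [dv, hy i j, sub_mul, Finset.sum_sub_distrib, Matrix.one_apply, ite_mul, one_mul,
    zero_mul, Finset.sum_ite_eq, Finset.mem_univ, if_true]
  ring

theorem inner_ee (v w : E4) : ∑ a, v a * w a = inner ℝ v w := by
  rw [PiLp.inner_apply]
  exact Finset.sum_congr rfl fun a _ => by simp [mul_comm]

theorem inner_ee_ee (i j : Fin 4) :
    inner ℝ (ee i) (ee j) = (1 : Matrix (Fin 4) (Fin 4) ℝ) i j := by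
  rw [← inner_ee]
  simp [Matrix.one_apply, eq_comm]

variable {M : Type*} [TopologicalSpace M] [ChartedSpace E4 M] [IsManifold 𝓘(ℝ, E4) ∞ M]
  [T3Space M] [ConnectedSpace M]

theorem pm_smooth (g : Met 4 M) {Ψ : E4 → M} {U : Set E4} (h : Par Ψ U) {x : E4} (hx : x ∈ U)
    (i j : Fin 4) : ContDiffAt ℝ ∞ (fun y => g.pm Ψ y i j) x :=
  ((Gs.par_riem g h).contDiffOn i j).contDiffAt (h.isOpen.mem_nhds hx)

theorem pm_ev (g : Met 4 M) {Ψ : E4 → M} {U : Set E4} (h : Par Ψ U) {T : E4 → E4} {x : E4}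
    (hT : ContDiffAt ℝ ∞ T x) (hx : T x ∈ U) : ∀ᶠ y in 𝓝 x, ∀ i j, g.pm (fun w => Ψ (T w)) y i j =
      ∑ a, ∑ b, g.pm Ψ (T y) a b * fderiv ℝ T y (ee i) a * fderiv ℝ T y (ee j) b := by
  filter_upwards [hT.continuousAt.eventually (h.isOpen.mem_nhds hx),
    (hT.of_le (kle 1)).eventually (by simp)] with y h1 h2 i j
  exact Gs.pm_comp g (Gs.par_md h h1) (h2.differentiableAt (by simp)) i j

theorem pm_ev_congr (g : Met 4 M) {Ψ Ψ' : E4 → M} {x : E4} (e : Ψ' =ᶠ[𝓝 x] Ψ) :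
    g.pm Ψ' =ᶠ[𝓝 x] g.pm Ψ := e.eventually_nhds.mono fun _ hy => Gs.pm_congr g hy

/-- rotation of a chart -/
theorem jg_rot (m : ℕ) : ∃ C, 1 ≤ C ∧ ∀ (g : Met 4 M) (Ψ : E4 → M) (U : Set E4)
    (A : E4 ≃ₗᵢ[ℝ] E4) (x : E4) (s δ : ℝ), Par Ψ U → A x ∈ U → 0 < s →
    JG (m + 1) (g.pm Ψ) (A x) s δ → JG (m + 1) (g.pm fun y => Ψ (A y)) x s (C * δ) := by
  refine ⟨4 * (4 * (2 ^ (m + 1) * (2 ^ (m + 1) * (m + 1)!))), ?_,
    fun g Ψ U A x s δ h hx hs hJ => jg_of_jb fun i j => ?_⟩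
  · have h1 : (1 : ℝ) ≤ (m + 1)! := by exact_mod_cast Nat.factorial_pos _
    have h2 : (1 : ℝ) ≤ 2 ^ (m + 1) := one_le_pow₀ (by norm_num)
    have h3 := one_le_mul_of_one_le_of_one_le h2 (one_le_mul_of_one_le_of_one_le h2 h1)
    linarith
  have hf : fderiv ℝ (fun y => A y) = fun _ => (A.toContinuousLinearEquiv : E4 →L[ℝ] E4) :=
    funext fun y => A.toContinuousLinearEquiv.fderiv
  have := jg_pull (T := fun y => A y) (δ' := 0) hs le_rfl
    (jb_of_jg (pm_smooth g h hx) hJ) A.contDiff.contDiffAt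
    (by rw [hf]; exact JB.const _ A.toLinearIsometry.norm_toContinuousLinearMap_le)
    (fun i j => by
      rw [hf]
      refine JB.const _ (le_of_eq ?_)
      rw [inner_ee, norm_eq_zero, sub_eq_zero, ← inner_ee_ee]
      exact A.inner_map_map _ _)
    (pm_ev g h A.contDiff.contDiffAt hx) i j
  exact this.mono (le_of_eq (by ring))

/-- perturbation of a chart -/
theorem jg_pert (m : ℕ) : ∃ C, 1 ≤ C ∧ ∀ (g : Met 4 M) (Ψ : E4 → M) (U : Set E4)
    (P : E4 → E4) (x : E4) (s δ : ℝ), Par Ψ U → x + P x ∈ U → 0 < s → δ ≤ 1 →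
    JG (m + 1) (g.pm Ψ) (x + P x) s δ → JB (m + 2) P x s (δ * s) →
    JG (m + 1) (g.pm fun y => Ψ (y + P y)) x s (C * δ) := by
  refine ⟨4 * (4 * (2 ^ (m + 1) * (2 ^ (m + 1) * ((m + 1)! * 2 ^ (m + 1) * 2) * 2))) +
    (2 + 4 * 2 ^ (m + 1)), ?_, fun g Ψ U P x s δ h hx hs hδ hJ hP => jg_of_jb fun i j => ?_⟩
  · have : (0 : ℝ) ≤ 4 * (4 * (2 ^ (m + 1) * (2 ^ (m + 1) * ((m + 1)! * 2 ^ (m + 1) * 2) * 2))) :=
      by positivity
    have : (0 : ℝ) ≤ 4 * 2 ^ (m + 1) := by positivity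
    linarith
  have hdP := JB.fderiv hs hP
  have h0 := hdP.nonneg
  have hT : ContDiffAt ℝ ∞ (fun y => y + P y) x := contDiffAt_id.add hP.sm
  have hf : fderiv ℝ (fun y => y + P y) =ᶠ[𝓝 x]
      fun y => ContinuousLinearMap.id ℝ E4 + fderiv ℝ P y := by
    filter_upwards [(hP.sm.of_le (kle 1)).eventually (by simp)] with y hy
    exact ((hasFDerivAt_id y).add (hy.differentiableAt (by simp)).hasFDerivAt).fderiv
  have hd : JB (m + 1) (fderiv ℝ fun y => y + P y) x s 2 :=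
    (((JB.const _ ContinuousLinearMap.norm_id_le).add hs.le hdP).mono (by linarith)).congr hf
  have := jg_pull (T := fun y => y + P y) (δ' := δ + δ + 4 * (2 ^ (m + 1) * (δ * δ))) hs
    one_le_two (jb_of_jg (pm_smooth g h hx) hJ) hT hd (fun i j => by
      have h1 := ((jb_coord hs.le hdP j i).add hs.le (jb_coord hs.le hdP i j)).add hs.le
        (JB.sum Finset.univ hs.le fun a _ =>
          (jb_coord hs.le hdP i a).mul hs.le (jb_coord hs.le hdP j a))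
      simp only [Finset.card_univ, Fintype.card_fin, Nat.cast_ofNat] at h1
      refine h1.congr (hf.mono fun y hy => ?_)
      simp only [hy, add_apply, ContinuousLinearMap.id_apply, PiLp.add_apply,
        add_mul, mul_add, Finset.sum_add_distrib]
      rw [inner_ee, inner_ee_ee]
      simp
      ring)
    (pm_ev g h hT hx) i j
  refine this.mono ?_
  have : 2 ^ (m + 1) * (δ * δ) ≤ 2 ^ (m + 1) * δ := by
    gcongr; nlinarith
  nlinarith

end Crest.Agent.N207.G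

end
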