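import Crest.Agent.N207.G.Tr
import Crest.Agent.N207.I.Jet2

-- ▼ part N207/G/Ai
section

/-!
# Row 207, block G (helper25): asymptotically Euclidean coordinate metrics along a filter
-/

set_option autoImplicit false
set_option linter.unusedSectionVars false
set_option maxSynthPendingDepth 3

open scoped ContDiff Manifold Topology
open Set Filter
open Crest.GeometryTopology.CoordMetric
open Crest.Agent.R202.Tens Crest.Agent.N207.Jt

noncomputable section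

namespace Crest.Agent.N207.Gs

variable {n : ℕ} {ι : Type} {l : Filter ι}

/-- the jets of `G j` at `x j` converge to the jets of the Euclidean metric -/
def GC (l : Filter ι) (G : ι → MetricField n) (x : ι → En n) : Prop :=
  ∀ a b, GE l (fun j y => G j y a b) x (fun _ _ => (1 : Matrix (Fin n) (Fin n) ℝ) a b) x

/-- uniform version -/
def MC (l : Filter ι) (G : ι → MetricField n) (S : ι → Set (En n)) : Prop :=
  GC (un l S) (fun p => G p.1) Prod.snd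

theorem MC.at {G : ι → MetricField n} {S : ι → Set (En n)} (h : MC l G S) {κ : Type}
    {m : Filter κ} {e : κ → ι} {y : κ → En n} (he : Tendsto e m l)
    (hy : ∀ᶠ j in m, y j ∈ S (e j)) : GC m (fun j => G (e j)) y := fun a b =>
  GE.comap (h a b) (tendsto_un he hy)

theorem MC.comap {G : ι → MetricField n} {S : ι → Set (En n)} (h : MC l G S) {κ : Type}
    {m : Filter κ} {e : κ → ι} {S' : κ → Set (En n)} (he : Tendsto e m l)
    (hS : ∀ᶠ j in m, S' j ⊆ S (e j)) : MC m (fun j => G (e j)) S' :=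
  h.at (he.comp (un_fst _ _)) (ev_un.2 (hS.mono fun _ hj _ hz => hj hz))

theorem MC.mono {G : ι → MetricField n} {S S' : ι → Set (En n)} (h : MC l G S)
    (hS : ∀ᶠ j in l, S' j ⊆ S j) : MC l G S' := h.comap (e := id) tendsto_id hS

theorem ge_det {X : Type} [NormedAddCommGroup X] [NormedSpace ℝ X]
    {A A' : ι → X → Matrix (Fin n) (Fin n) ℝ} {x x' : ι → X}
    (h : ∀ a b, GE l (fun j y => A j y a b) x (fun j y => A' j y a b) x') :
    GE l (fun j y => (A j y).det) x (fun j y => (A' j y).det) x' := by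
  simp only [Matrix.det_apply']
  exact GE.sum _ fun σ _ => (GE.const' _).mul (GE.prod _ fun i _ => h _ _)

theorem ge_inv {G : ι → MetricField n} {x : ι → En n} (h : GC l G x) (a b : Fin n) :
    GE l (fun j y => (G j y)⁻¹ a b) x (fun _ _ => (1 : Matrix (Fin n) (Fin n) ℝ) a b) x := by
  have hd := ge_det (A' := fun _ _ => (1 : Matrix (Fin n) (Fin n) ℝ)) h
  have hv : ∀ᶠ j in l, (G j (x j)).det ∈ Icc (1 / 2 : ℝ) (3 / 2) := by
    have := Metric.tendsto_nhds.1 hd.val (1 / 2) (by norm_num)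
    filter_upwards [this] with j hj
    rw [Matrix.det_one, dist_zero_right, Real.norm_eq_abs, abs_lt] at hj
    constructor <;> linarith [hj.1, hj.2]
  have hi := hd.smoothOn (Φ := fun t : ℝ => t⁻¹) (K := Icc (1 / 2) (3 / 2)) isCompact_Icc
    (fun t ht => contDiffAt_inv ℝ (by linarith [ht.1])) hv
    (Eventually.of_forall fun _ => by rw [Matrix.det_one]; constructor <;> norm_num)
  have ha : GE l (fun j y => (G j y).adjugate a b) x
      (fun _ _ => (1 : Matrix (Fin n) (Fin n) ℝ).adjugate a b) x := by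
    simp only [Matrix.adjugate_apply]
    refine ge_det fun c d => ?_
    by_cases hc : c = b
    · subst hc; simp only [Matrix.updateRow_self]; exact GE.const' _
    · simp only [Matrix.updateRow_ne hc]; exact h c d
  have := hi.mul ha
  simp only [Matrix.det_one, inv_one, Matrix.adjugate_one, one_mul] at this
  simpa only [Matrix.inv_def, Ring.inverse_eq_inv', Matrix.smul_apply, smul_eq_mul] using this

theorem ge_pderiv {u : ι → En n → ℝ} {x : ι → En n} {c : ℝ} (h : GE l u x (fun _ _ => c) x)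
    (i : Fin n) : GE l (fun j y => pderiv i (u j) y) x (fun _ _ => 0) x := by
  have := h.fderiv.app (GE.const' (x := x) (x' := x) (EuclideanSpace.single i (1 : ℝ) : En n))
  simpa only [pderiv, fderiv_fun_const, Pi.zero_apply, zero_apply] using this

theorem ge_chris {G : ι → MetricField n} {x : ι → En n} (h : GC l G x) (k a b : Fin n) :
    GE l (fun j y => christoffel (G j) y k a b) x (fun _ _ => 0) x := by
  have := (GE.const' (l := l) (x := x) (x' := x) (1 / 2 : ℝ)).mul (GE.sum Finset.univ fun c _ =>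
    (ge_inv h k c).mul (((ge_pderiv (h b c) a).add (ge_pderiv (h a c) b)).sub (ge_pderiv (h a b) c)))
  simp only [add_zero, sub_zero, mul_zero, Finset.sum_const_zero] at this
  exact this

theorem ge_gam {G : ι → MetricField n} {x : ι → En n} (h : GC l G x) :
    GE l (fun j => Gam (G j)) x (fun _ _ => 0) x := by
  have := GE.sum Finset.univ fun a _ => GE.sum Finset.univ fun b _ => GE.sum Finset.univ fun k _ =>
    (ge_chris h k a b).smul (GE.const' (l := l) (x := x) (x' := x)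
      ((EuclideanSpace.proj a : En n →L[ℝ] ℝ).smulRight ((EuclideanSpace.proj b : En n →L[ℝ] ℝ).smulRight
        (EuclideanSpace.single k (1:ℝ) : En n))))
  simp only [zero_smul, Finset.sum_const_zero] at this
  exact this

theorem ge_gf {G : ι → MetricField n} {x : ι → En n} (h : GC l G x) :
    GE l (fun j y => bil (G j y)) x (fun _ _ => bil (1 : Matrix (Fin n) (Fin n) ℝ)) x :=
  GE.sum Finset.univ fun a _ => GE.sum Finset.univ fun b _ =>
    (h a b).smul (GE.const' (l := l) (x := x) (x' := x) _)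

theorem bil_one (X Y : En n) : bil (1 : Matrix (Fin n) (Fin n) ℝ) X Y = inner ℝ X Y := by
  rw [bil_apply, PiLp.inner_apply]
  refine Finset.sum_congr rfl fun i _ => ?_
  simp [Matrix.one_apply, mul_comm]


/-- pull-back of an asymptotically Euclidean metric by an asymptotically orthogonal map -/
theorem gc_pull {G G' : ι → MetricField n} {x : ι → En n} {T : ι → En n → En n}
    {A : ι → En n ≃ₗᵢ[ℝ] En n} (h : GC l G' fun j => T j (x j))
    (hT : GE l (fun j => fderiv ℝ (T j)) x (fun j _ => (A j : En n →L[ℝ] En n)) x) (hB : GB l T x)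
    (e : ∀ᶠ j in l, ∀ᶠ y in 𝓝 (x j), ∀ X Y, bil (G j y) X Y =
      bil (G' j (T j y)) (fderiv ℝ (T j) y X) (fderiv ℝ (T j) y Y)) : GC l G x := fun a b => by
  have h1 : GE l (fun j y => bil (G' j (T j y))) x
      (fun _ _ => bil (1 : Matrix (Fin n) (Fin n) ℝ)) x := (ge_gf h).comp hB.ge
  have h2 := (h1.app (hT.app (GE.const' (EuclideanSpace.single a (1 : ℝ) : En n)))).app
    (hT.app (GE.const' (EuclideanSpace.single b (1 : ℝ) : En n)))
  have h3 : GE l (fun j y => G j y a b) x _ x := h2.congr_left (e.mono fun j hj =>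
    ⟨rfl, hj.mono fun y hy => (bil_single (G j y) a b).symm.trans (hy _ _)⟩)
  refine h3.congr_right (Eventually.of_forall fun j => ⟨rfl, Eventually.of_forall fun y => ?_⟩)
  show (1 : Matrix (Fin n) (Fin n) ℝ) a b = bil 1 (A j _) (A j _)
  rw [bil_one, LinearIsometryEquiv.inner_map_map, ← bil_one, bil_single]

/-- quadratic form bounds -/
theorem ev_quad {G : ι → MetricField n} {x : ι → En n} (h : GC l G x) {ε : ℝ} (hε : 0 < ε) :
    ∀ᶠ j in l, ∀ X Y, |bil (G j (x j)) X Y - inner ℝ X Y| ≤ ε * ‖X‖ * ‖Y‖ := by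
  have := (tendsto_zero_iff_norm_tendsto_zero.1 (ge_gf h).val).eventually (gt_mem_nhds hε)
  filter_upwards [this] with j hj X Y
  rw [← bil_one]
  have h1 := (bil (G j (x j)) - bil (1 : Matrix (Fin n) (Fin n) ℝ)).le_opNorm₂ X Y
  rw [Real.norm_eq_abs] at h1
  refine h1.trans ?_
  gcongr

theorem ev_gam {G : ι → MetricField n} {x : ι → En n} (h : GC l G x) {ε : ℝ} (hε : 0 < ε) :
    ∀ᶠ j in l, ‖Gam (G j) (x j)‖ ≤ ε := by
  have := (tendsto_zero_iff_norm_tendsto_zero.1 (ge_gam h).val).eventually (gt_mem_nhds hε)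
  filter_upwards [this] with j hj
  rw [sub_zero] at hj
  exact hj.le

end Crest.Agent.N207.Gs

end
end

-- ▼ part N207/G/Rg

/-!
# Row 207, block G (helper25): rigidity of transitions between almost isometric parametrisations
-/

set_option autoImplicit false
set_option linter.unusedSectionVars false
set_option maxSynthPendingDepth 3

open scoped ContDiff Manifold Topology
open Set Filter Metric
open Crest.GeometryTopology.CoordMetric
open Crest.Agent.R202.Tens Crest.Agent.N207.Jt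

noncomputable section

namespace Crest.Agent.N207.Gs

variable {n : ℕ} {M : Type*} [TopologicalSpace M] [ChartedSpace (En n) M]
  [IsManifold 𝓘(ℝ, En n) ∞ M]

/-- local injectivity at scale `ρ` -/
def LI (Ψ : En n → M) (U : Set (En n)) (ρ : ℝ) : Prop :=
  ∀ a ∈ U, ∀ b ∈ U, ‖a - b‖ < ρ → Ψ a = Ψ b → a = b

/-- `L` is the derivative of the transition from `Ψ` at `y` to `Ψ'` at `y'` -/
def IsD (Ψ Ψ' : En n → M) (y y' : En n) (L : En n →L[ℝ] En n) : Prop :=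
  ∀ X : En n, (mfderiv 𝓘(ℝ, En n) 𝓘(ℝ, En n) Ψ y X : En n) =
    (mfderiv 𝓘(ℝ, En n) 𝓘(ℝ, En n) Ψ' y' (L X) : En n)

theorem IsD.unique {Ψ Ψ' : En n → M} {U' : Set (En n)} (h' : Par Ψ' U') {y y' : En n} (hy : y' ∈ U')
    {L L' : En n →L[ℝ] En n} (h1 : IsD Ψ Ψ' y y' L) (h2 : IsD Ψ Ψ' y y' L') : L = L' :=
  ContinuousLinearMap.ext fun X => h'.inj y' hy ((h1 X).symm.trans (h2 X))

theorem IsD.comp {Ψ Ψ' Ψ'' : En n → M} {y y' y'' : En n} {L L' : En n →L[ℝ] En n}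
    (h1 : IsD Ψ Ψ' y y' L) (h2 : IsD Ψ' Ψ'' y' y'' L') : IsD Ψ Ψ'' y y'' (L'.comp L) :=
  fun X => (h1 X).trans (h2 (L X))

theorem isD_refl (Ψ : En n → M) (y : En n) : IsD Ψ Ψ y y (ContinuousLinearMap.id ℝ _) := fun _ => rfl

theorem isD_of {Ψ Ψ' : En n → M} {T : En n → En n} {y : En n}
    (hΨ : MDifferentiableAt 𝓘(ℝ, En n) 𝓘(ℝ, En n) Ψ' (T y)) (hT : DifferentiableAt ℝ T y)
    (e : Ψ =ᶠ[𝓝 y] fun z => Ψ' (T z)) : IsD Ψ Ψ' y (T y) (fderiv ℝ T y) := fun X => by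
  have e2 : (mfderiv 𝓘(ℝ, En n) 𝓘(ℝ, En n) Ψ y : En n →L[ℝ] En n) =
      mfderiv 𝓘(ℝ, En n) 𝓘(ℝ, En n) (fun z => Ψ' (T z)) y := e.mfderiv_eq
  exact (congrArg (fun L : En n →L[ℝ] En n => L X) e2).trans (mfderiv_comp_T hΨ hT X)

theorem exists_isD {Ψ Ψ' : En n → M} {U U' : Set (En n)} (h : Par Ψ U) (h' : Par Ψ' U')
    {y y' : En n} (hy : y ∈ U) (hy' : y' ∈ U') (e : Ψ' y' = Ψ y) : ∃ L, IsD Ψ Ψ' y y' L := by
  obtain ⟨T, V, hV, hyV, -, rfl, hT, hm⟩ := exists_trans0 h h' hy hy' e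
  exact ⟨_, isD_of (par_md h' hy') ((hT.contDiffAt (hV.mem_nhds hyV)).differentiableAt infty_ne)
    (mem_of_superset (hV.mem_nhds hyV) fun z hz => (hm z hz).2.symm)⟩

theorem IsD.bil (m : Met n M) {Ψ Ψ' : En n → M} {y y' : En n} {L : En n →L[ℝ] En n}
    (h : IsD Ψ Ψ' y y' L) (e : Ψ' y' = Ψ y) (X Y : En n) :
    bil (m.pm Ψ y) X Y = bil (m.pm Ψ' y') (L X) (L Y) := by
  have k : ∀ p q : M, p = q → ∀ a b : En n, m.inner p a b = m.inner q a b := by
    rintro p q rfl a b; rfl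
  rw [pm_bil, pm_bil]
  refine (k _ _ e.symm _ _).trans ?_
  exact congrArg₂ (fun a b : En n => m.inner (Ψ' y') a b) (h X) (h Y)

open Classical in
/-- the transition close to `A` -/
def tr (Ψ Ψ' : En n → M) (A : En n ≃ₗᵢ[ℝ] En n) (ρ : ℝ) (y : En n) : En n :=
  if h : ∃ y', ‖y' - A y‖ < ρ / 4 ∧ Ψ' y' = Ψ y then h.choose else 0

/-- its domain -/
def trD (Ψ Ψ' : En n → M) (A : En n ≃ₗᵢ[ℝ] En n) (ρ : ℝ) (O : Set (En n)) : Set (En n) :=
  {y | y ∈ O ∧ ∃ y', ‖y' - A y‖ < ρ / 4 ∧ Ψ' y' = Ψ y}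

/-- the standing hypotheses -/
structure RH (Ψ Ψ' : En n → M) (U U' : Set (En n)) (A : En n ≃ₗᵢ[ℝ] En n) (ρ : ℝ)
    (O : Set (En n)) : Prop where
  p : Par Ψ U
  p' : Par Ψ' U'
  li : LI Ψ' U' ρ
  op : IsOpen O
  sub : O ⊆ U
  th : ∀ y ∈ O, closedBall (A y) (ρ / 4) ⊆ U'

namespace RH

variable {Ψ Ψ' : En n → M} {U U' O : Set (En n)} {A : En n ≃ₗᵢ[ℝ] En n} {ρ : ℝ}

theorem spec {y : En n} (hy : y ∈ trD Ψ Ψ' A ρ O) :
    ‖tr Ψ Ψ' A ρ y - A y‖ < ρ / 4 ∧ Ψ' (tr Ψ Ψ' A ρ y) = Ψ y := by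
  unfold tr; rw [dif_pos hy.2]; exact hy.2.choose_spec

theorem mem (h : RH Ψ Ψ' U U' A ρ O) {y y' : En n} (hy : y ∈ O) (h1 : ‖y' - A y‖ < ρ / 4) :
    y' ∈ U' := h.th y hy (by rw [mem_closedBall, dist_eq_norm]; exact h1.le)

theorem eq (h : RH Ψ Ψ' U U' A ρ O) {y y' : En n} (hy : y ∈ O) (h1 : ‖y' - A y‖ < ρ / 4)
    (h2 : Ψ' y' = Ψ y) : tr Ψ Ψ' A ρ y = y' := by
  obtain ⟨a, b⟩ := spec (O := O) (ρ := ρ) (A := A) ⟨hy, y', h1, h2⟩
  refine h.li _ (h.mem hy a) _ (h.mem hy h1) ?_ (b.trans h2.symm)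
  have := norm_sub_le_norm_sub_add_norm_sub (tr Ψ Ψ' A ρ y) (A y) y'
  rw [norm_sub_rev (A y)] at this
  linarith [norm_nonneg (y' - A y)]

theorem loc (h : RH Ψ Ψ' U U' A ρ O) {y : En n} (hy : y ∈ trD Ψ Ψ' A ρ O) :
    trD Ψ Ψ' A ρ O ∈ 𝓝 y ∧ ContDiffAt ℝ ∞ (tr Ψ Ψ' A ρ) y := by
  obtain ⟨a, b⟩ := spec hy
  obtain ⟨T, V, hV, hyV, -, hTy, hT, hm⟩ := exists_trans0 h.p h.p' (h.sub hy.1) (h.mem hy.1 a) b
  have hTa := hT.contDiffAt (hV.mem_nhds hyV)
  have hc : ContinuousAt (fun z => ‖T z - A z‖) y :=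
    (hTa.continuousAt.sub A.continuous.continuousAt).norm
  have h1 : ∀ᶠ z in 𝓝 y, ‖T z - A z‖ < ρ / 4 := hc.eventually (gt_mem_nhds (show ‖T y - A y‖ < ρ / 4 by rw [hTy]; exact a))
  have h2 : ∀ᶠ z in 𝓝 y, z ∈ trD Ψ Ψ' A ρ O ∧ tr Ψ Ψ' A ρ z = T z := by
    filter_upwards [h1, hV.mem_nhds hyV, h.op.mem_nhds hy.1] with z z1 z2 z3
    exact ⟨⟨z3, T z, z1, (hm z z2).2⟩, h.eq z3 z1 (hm z z2).2⟩
  exact ⟨h2.mono fun z hz => hz.1, hTa.congr_of_eventuallyEq (h2.mono fun z hz => hz.2)⟩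

theorem isOpen (h : RH Ψ Ψ' U U' A ρ O) : IsOpen (trD Ψ Ψ' A ρ O) :=
  isOpen_iff_mem_nhds.2 fun _ hy => (h.loc hy).1

theorem isD (h : RH Ψ Ψ' U U' A ρ O) {y : En n} (hy : y ∈ trD Ψ Ψ' A ρ O) :
    IsD Ψ Ψ' y (tr Ψ Ψ' A ρ y) (fderiv ℝ (tr Ψ Ψ' A ρ) y) :=
  isD_of (par_md h.p' (h.mem hy.1 (spec hy).1)) ((h.loc hy).2.differentiableAt infty_ne)
    (mem_of_superset (h.loc hy).1 fun _ hz => (spec hz).2.symm)

variable [T3Space M] [ConnectedSpace M]

theorem pull (h : RH Ψ Ψ' U U' A ρ O) (m : Met n M) :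
    Pull (m.pm Ψ) (m.pm Ψ') (tr Ψ Ψ' A ρ) (trD Ψ Ψ' A ρ O) U' :=
  pull_of' m h.p h.p' h.isOpen (fun _ hz => h.sub hz.1) (fun _ hz => (h.loc hz).2.contDiffWithinAt)
    fun _ hz => ⟨h.mem hz.1 (spec hz).1, (spec hz).2⟩

end RH

/-- first order closeness to the Euclidean metric -/
def NE (G : MetricField n) (U : Set (En n)) (ε : ℝ) : Prop :=
  ∀ y ∈ U, (∀ X Y, |bil (G y) X Y - inner ℝ X Y| ≤ 1 / 10 * ‖X‖ * ‖Y‖) ∧ ‖Gam G y‖ ≤ ε

theorem norm_le_two {A B : Matrix (Fin n) (Fin n) ℝ} {L : En n →L[ℝ] En n}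
    (hA : ∀ X Y, |bil A X Y - inner ℝ X Y| ≤ 1 / 10 * ‖X‖ * ‖Y‖)
    (hB : ∀ X Y, |bil B X Y - inner ℝ X Y| ≤ 1 / 10 * ‖X‖ * ‖Y‖)
    (e : ∀ X Y, bil A X Y = bil B (L X) (L Y)) : ‖L‖ ≤ 2 := by
  refine L.opNorm_le_bound (by norm_num) fun X => ?_
  have h1 := abs_le.1 (hA X X)
  have h2 := abs_le.1 (hB (L X) (L X))
  rw [real_inner_self_eq_norm_sq] at h1 h2
  rw [e] at h1
  nlinarith [norm_nonneg X, norm_nonneg (L X)]

theorem pull_d2 {G G' : MetricField n} {T : En n → En n} {V W : Set (En n)} (h : Pull G G' T V W)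
    {ε : ℝ} {U U' : Set (En n)} (h1 : NE G U ε) (h2 : NE G' U' ε) {y : En n} (hy : y ∈ V)
    (hU : y ∈ U) (hU' : T y ∈ U') : ‖fderiv ℝ (fderiv ℝ T) y‖ ≤ 6 * ε := by
  have hε : 0 ≤ ε := (norm_nonneg _).trans (h1 y hU).2
  have hL := norm_le_two (h1 y hU).1 (h2 _ hU').1 (h.bil_eq hy)
  refine ContinuousLinearMap.opNorm_le_bound₂ _ (by positivity) fun X Y => ?_
  have e : fderiv ℝ (fderiv ℝ T) y X Y = fderiv ℝ T y (Gam G y X Y) -
      Gam G' (T y) (fderiv ℝ T y X) (fderiv ℝ T y Y) := by rw [h.gam_eq hy]; abel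
  rw [e]
  set L := fderiv ℝ T y
  have a1 : ‖L (Gam G y X Y)‖ ≤ 2 * (ε * ‖X‖ * ‖Y‖) := by
    refine (L.le_opNorm _).trans ?_
    gcongr
    refine ((Gam G y).le_opNorm₂ X Y).trans ?_
    gcongr
    exact (h1 y hU).2
  have a2 : ‖Gam G' (T y) (L X) (L Y)‖ ≤ ε * (2 * ‖X‖) * (2 * ‖Y‖) := by
    refine ((Gam G' (T y)).le_opNorm₂ _ _).trans ?_
    gcongr
    · exact (h2 _ hU').2
    · exact (L.le_opNorm X).trans (by gcongr)
    · exact (L.le_opNorm Y).trans (by gcongr)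
  refine (norm_sub_le _ _).trans ?_
  nlinarith

section seg

variable [T3Space M] [ConnectedSpace M]
variable {Ψ Ψ' : En n → M} {U U' O : Set (En n)} {A : En n ≃ₗᵢ[ℝ] En n} {ρ : ℝ}

/-- estimates along a segment inside the domain -/
theorem RH.est (h : RH Ψ Ψ' U U' A ρ O) (m : Met n M) {ε η R : ℝ} (h1 : NE (m.pm Ψ) U ε)
    (h2 : NE (m.pm Ψ') U' ε) {y₀ y : En n} (hs : segment ℝ y₀ y ⊆ trD Ψ Ψ' A ρ O)
    (hR : ‖y - y₀‖ ≤ R) (i0 : ‖tr Ψ Ψ' A ρ y₀ - A y₀‖ ≤ η)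
    (i1 : ‖fderiv ℝ (tr Ψ Ψ' A ρ) y₀ - (A : En n →L[ℝ] En n)‖ ≤ η) :
    ‖tr Ψ Ψ' A ρ y - A y‖ ≤ η + (η + 6 * ε * R) * R ∧
      ‖fderiv ℝ (tr Ψ Ψ' A ρ) y - (A : En n →L[ℝ] En n)‖ ≤ η + 6 * ε * R := by
  set T := tr Ψ Ψ' A ρ
  have hε : 0 ≤ ε := (norm_nonneg _).trans (h1 y₀ (h.sub (hs (left_mem_segment _ _ _)).1)).2
  have hη : 0 ≤ η := (norm_nonneg _).trans i0
  have hR0 : 0 ≤ R := (norm_nonneg _).trans hR
  have hd : ∀ z ∈ segment ℝ y₀ y, ‖z - y₀‖ ≤ R := fun z hz => by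
    have := (convex_closedBall y₀ R).segment_subset (mem_closedBall_self hR0)
      (show y ∈ closedBall y₀ R by rw [mem_closedBall, dist_eq_norm]; exact hR) hz
    rwa [mem_closedBall, dist_eq_norm] at this
  have k1 : ∀ z ∈ segment ℝ y₀ y, ‖fderiv ℝ T z - (A : En n →L[ℝ] En n)‖ ≤ η + 6 * ε * R :=
    fun z hz => by
      have := (convex_segment y₀ y).norm_image_sub_le_of_norm_fderiv_le (𝕜 := ℝ) (f := fderiv ℝ T)
        (C := 6 * ε) (fun w hw => (((h.loc (hs hw)).2.fderiv_right (m := ∞) (by simp)).differentiableAt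
          infty_ne)) (fun w hw => pull_d2 (h.pull m) h1 h2 (hs hw) (h.sub (hs hw).1)
          (h.mem (hs hw).1 (RH.spec (hs hw)).1)) (left_mem_segment _ _ _) hz
      have h3 := norm_sub_le_norm_sub_add_norm_sub (fderiv ℝ T z) (fderiv ℝ T y₀)
        (A : En n →L[ℝ] En n)
      have h4 : 6 * ε * ‖z - y₀‖ ≤ 6 * ε * R := by gcongr; exact hd z hz
      linarith
  refine ⟨?_, k1 y (right_mem_segment _ _ _)⟩
  have hder : ∀ w ∈ segment ℝ y₀ y, HasFDerivAt (fun z => T z - A z)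
      (fderiv ℝ T w - (A : En n →L[ℝ] En n)) w := fun w hw =>
    ((h.loc (hs hw)).2.differentiableAt infty_ne).hasFDerivAt.sub
      (A : En n →L[ℝ] En n).hasFDerivAt
  have := (convex_segment y₀ y).norm_image_sub_le_of_norm_hasFDerivWithin_le
    (fun w hw => (hder w hw).hasFDerivWithinAt) k1 (left_mem_segment _ _ _) (right_mem_segment _ _ _)
  have h3 := norm_sub_le_norm_sub_add_norm_sub (T y - A y) (T y₀ - A y₀) 0
  rw [sub_zero, sub_zero] at h3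
  have h4 : (η + 6 * ε * R) * ‖y - y₀‖ ≤ (η + 6 * ε * R) * R := by gcongr
  linarith

/-- continuation along a segment -/
theorem RH.ext (h : RH Ψ Ψ' U U' A ρ O) (m : Met n M) {ε η R : ℝ} (h1 : NE (m.pm Ψ) U ε)
    (h2 : NE (m.pm Ψ') U' ε) {y₀ y : En n} (hs : segment ℝ y₀ y ⊆ O) (h0 : y₀ ∈ trD Ψ Ψ' A ρ O)
    (hR : ‖y - y₀‖ ≤ R) (i0 : ‖tr Ψ Ψ' A ρ y₀ - A y₀‖ ≤ η)
    (i1 : ‖fderiv ℝ (tr Ψ Ψ' A ρ) y₀ - (A : En n →L[ℝ] En n)‖ ≤ η)
    (hsm : η + (η + 6 * ε * R) * R < ρ / 8) : segment ℝ y₀ y ⊆ trD Ψ Ψ' A ρ O := by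
  set γ : ℝ → En n := fun t => y₀ + t • (y - y₀) with hγ
  have hc : Continuous γ := by fun_prop
  have hseg : ∀ t, segment ℝ y₀ (γ t) = (fun s => γ (s * t)) '' Icc 0 1 := fun t => by
    rw [segment_eq_image']
    refine image_congr fun s _ => ?_
    simp only [hγ, add_sub_cancel_left, smul_smul]
  have h1' : γ 1 = y := by simp [hγ]
  have hO : ∀ t ∈ Icc (0 : ℝ) 1, γ t ∈ O := fun t ht => hs (by
    rw [← h1', hseg]; exact ⟨t, ht, by simp⟩)
  by_contra hne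
  have hB : (Icc (0 : ℝ) 1 ∩ γ ⁻¹' (trD Ψ Ψ' A ρ O)ᶜ).Nonempty := by
    rw [← h1', hseg] at hne
    obtain ⟨_, ⟨t, ht, rfl⟩, h3⟩ := not_subset.1 hne
    exact ⟨t, ht, by simpa using h3⟩
  obtain ⟨t₀, ht₀, hmin⟩ := (isCompact_Icc.inter_right
    (h.isOpen.isClosed_compl.preimage hc)).exists_isMinOn hB continuousOn_id
  have hlt : ∀ t, 0 ≤ t → t < t₀ → γ t ∈ trD Ψ Ψ' A ρ O := fun t a b => by
    by_contra hh
    exact absurd (hmin ⟨⟨a, b.le.trans ht₀.1.2⟩, hh⟩) (not_le.2 b)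
  have hpos : 0 < t₀ := lt_of_le_of_ne ht₀.1.1 fun e => ht₀.2 (by rw [← e]; simpa [hγ] using h0)
  have hη : 0 ≤ η := (norm_nonneg _).trans i0
  have hρ : 0 < ρ := by
    have hε : 0 ≤ ε := (norm_nonneg _).trans (h1 y₀ (h.sub h0.1)).2
    have hR0 : 0 ≤ R := (norm_nonneg _).trans hR
    have : 0 ≤ η + (η + 6 * ε * R) * R := by positivity
    linarith
  have hK : closedBall (A (γ t₀)) (ρ / 5) ⊆ U' :=
    (closedBall_subset_closedBall (by linarith)).trans (h.th _ (hO _ ht₀.1))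
  have hC : IsClosed (Ψ' '' closedBall (A (γ t₀)) (ρ / 5)) :=
    ((isCompact_closedBall _ _).image_of_continuousOn ((par_cont h.p').mono hK)).isClosed
  have hlim : Tendsto (fun t => Ψ (γ t)) (𝓝[<] t₀) (𝓝 (Ψ (γ t₀))) :=
    (((par_at h.p (h.sub (hO _ ht₀.1))).continuousAt.comp hc.continuousAt).tendsto).mono_left
      nhdsWithin_le_nhds
  have hnear : ∀ᶠ t in 𝓝[<] t₀, ‖A (γ t) - A (γ t₀)‖ < ρ / 40 := by
    have : ContinuousAt (fun t => ‖A (γ t) - A (γ t₀)‖) t₀ := by fun_prop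
    exact nhdsWithin_le_nhds (this.eventually (gt_mem_nhds (by simpa using by linarith)))
  obtain ⟨y', hy', e⟩ := hC.mem_of_tendsto hlim (by
    filter_upwards [hnear, Ioo_mem_nhdsLT hpos] with t a b
    have hs' : segment ℝ y₀ (γ t) ⊆ trD Ψ Ψ' A ρ O := by
      rw [hseg]
      rintro _ ⟨s, hs, rfl⟩
      exact hlt _ (mul_nonneg hs.1 b.1.le) (by nlinarith [hs.2, b.1, b.2])
    have hR' : ‖γ t - y₀‖ ≤ R := by
      simp only [hγ, add_sub_cancel_left, norm_smul, Real.norm_eq_abs, abs_of_pos b.1]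
      nlinarith [b.1, b.2, ht₀.1.2, norm_nonneg (y - y₀)]
    have k := (h.est m h1 h2 hs' hR' i0 i1).1
    refine ⟨_, ?_, (RH.spec (hlt t b.1.le b.2)).2⟩
    rw [mem_closedBall, dist_eq_norm]
    linarith [norm_sub_le_norm_sub_add_norm_sub (tr Ψ Ψ' A ρ (γ t)) (A (γ t)) (A (γ t₀))])
  rw [mem_closedBall, dist_eq_norm] at hy'
  exact ht₀.2 ⟨hO _ ht₀.1, y', by linarith, e⟩

end seg

end Crest.Agent.N207.Gs

end
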