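import Crest.Agent.N207.G.Ent1
import Crest.Agent.N207.V.Hs3_Mg
import Crest.Agent.N207.G.EnF4_Mg
import Crest.Agent.N207.G.Rg
import Crest.Agent.N207.I.Rig
import Crest.Agent.N207.I.Iso
import Crest.Agent.N207.I.Fix
import Crest.Agent.N207.G.Df
import Crest.Agent.N207.F.Stat
import Crest.Agent.N207.TR.Lift
import Crest.Agent.N207.Rad.Crd2
import Crest.Agent.N207.A.Mk
import Crest.Agent.N207.A.Arr
import Crest.Agent.N207.A.Co2
import Crest.Agent.N207.V.Basic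
import Crest.Agent.N207.C.DistM
import Crest.Agent.N207.G.Tr
import Crest.Agent.N207.TR.Main

-- ▼ part N207/G/EntAll
section

/-!
# Row 207, block G, entropy half (helper23): `ENT1` from `Base`
-/

set_option autoImplicit false
set_option linter.unusedSectionVars false

open scoped ContDiff Manifold Topology
open Set Filter MeasureTheory

noncomputable section

namespace Crest.Agent.N207.Ge

open Sk Gs HC

variable {M : Type*} [TopologicalSpace M] [ChartedSpace E4 M] [IsManifold 𝓘(ℝ, E4) ∞ M]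
  [T3Space M] [ConnectedSpace M] [MeasurableSpace M] [BorelSpace M] [CompactSpace M]

theorem gSmooth' {F : Flow M} (B : Base F) : F.hc.GSmooth := gSmooth B.ok B.c (V.hes F)

theorem gGood' {F : Flow M} (B : Base F) : F.hc.GGood :=
  gGood B.ok B.c (V.hes F) (gCut B.ok) (gOsc B.ok B.c) (gSand B.ok B.c)

theorem ent1' {F : Flow M} (B : Base F) : ENT1 F := ent1 F B (gGood' B) (gOne' F B.ok B.c)

end Crest.Agent.N207.Ge

end
end

-- ▼ part N207/G/Ent2
section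

/-!
# Row 207, block G (helper22): `ENT2`
-/

set_option autoImplicit false
set_option linter.unusedSectionVars false

open scoped ContDiff Manifold Topology
open Set Filter MeasureTheory

noncomputable section

namespace Crest.Agent.N207.Ge

open Sk Gs HC

variable {M : Type*} [TopologicalSpace M] [ChartedSpace E4 M] [IsManifold 𝓘(ℝ, E4) ∞ M]
  [T3Space M] [ConnectedSpace M] [MeasurableSpace M] [BorelSpace M]

theorem ent2 [CompactSpace M] (F : Flow M) (B : Base F) (He : F.hc.Hes) (G1 : F.hc.GGood)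
    (GS : F.hc.GSmooth) (GC : F.hc.GCut) : ENT2 F := fun ε hε => by
  have hT := F.hT
  have h := B.ok
  have T4 : 0 < F.T / 4 := by positivity
  have T2 : 0 < F.T / 2 := by positivity
  obtain ⟨η1, r1, η10, r10, E1⟩ :=
    ereg_ent h He B.c.up B.d.flux GS (gRegE h B.e.statB) T4 hε
  obtain ⟨η2, η20, E2⟩ := gNbr' h _ T4 η1 η10
  obtain ⟨o, o0, E3⟩ := nash_neck h B.c G1 GC T4 η20
  obtain ⟨η, ι, η0, ι0, E4⟩ := euc (M := M) o o0
  obtain ⟨θ, A, C, θ0, θ1, C1, A1, E3⟩ := E3 ι ι0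
  obtain ⟨ν, ν0, ν1, E2⟩ := E2 A A1
  obtain ⟨ε0, B0, ε00, B00, E5⟩ := gRegE h B.e.statB _ T2
  have l0 : 0 < θ / (2 * C) := by positivity
  have l1 : θ / (2 * C) ≤ 1 := (div_le_one (by positivity)).2 (by linarith)
  obtain ⟨β, β0, β1, E3⟩ := E3 (B0 / (θ / (2 * C)) ^ 2) (by positivity)
  obtain ⟨β2, β20, E5⟩ := E5 _ β l0 β0
  obtain ⟨n1, E6⟩ := gBad h _ T4 β β0
  have q1 : 0 < 2 * C / θ := by positivity
  have q2 : 0 < C * A := by positivity
  have q3 : 0 < 1 / θ := by positivity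
  obtain ⟨n2, E7⟩ := gBadE h B.d.glob _ T2 ε0 ε00 (2 * C / θ + C * A + 1) (by linarith)
  have K1 : 10 ≤ 10 / ν := le_div_self (by norm_num) ν0 ν1
  refine ⟨2 + 1 / θ + A, η, 10 / ν, min (min β β2) (min r1 (F.T / 8)), n1 + n2, by linarith, η0,
    by linarith, by positivity, fun t ht z => ?_⟩
  have ht' := G.late_Ioo ht
  obtain ⟨B1, b1, E6⟩ := E6 t ⟨by linarith [ht.1], ht.2⟩ z 1
    (fun j => min (β * (2 ^ j) ^ 2) (ν * (2 ^ j) ^ 2)) one_pos fun j => by positivity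
  obtain ⟨B2, b2, E7⟩ := E7 t ht z
  refine ⟨B1 ∪ B2, (Finset.card_union_le _ _).trans (add_le_add b1 b2), fun j hj hS Ψ hΨ => ?_⟩
  have E6 := E6 j fun h => hj (Finset.mem_union_left _ h)
  have E7 := E7 j fun h => hj (Finset.mem_union_right _ h)
  have S0 : (0 : ℝ) < 2 ^ j := by positivity
  generalize (2 : ℝ) ^ j = S at *
  simp only [le_min_iff, one_mul] at hS E6
  obtain ⟨⟨S1, S2⟩, S3, S4⟩ := hS
  have S5 : S ^ 2 ≤ S := pow_le_of_le_one S0.le (by linarith) two_ne_zero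
  have S6 := pow_pos S0 2
  have win : F.T / 4 ≤ t - 2 * S ^ 2 := by linarith [ht.1]
  obtain ⟨ε', τ0, v, ⟨e1, e2⟩, cs, dr⟩ := E6 win
  have reg := E5 t ht S (F.hc.An t z (θ / C * S) (C * A * S)) S0 S2 fun x hx => E7 x _
    (ball_sub_An F (le_trans (by
      have : S / (2 * C / θ + C * A + 1) ≤ S / (2 * C / θ) := by gcongr; linarith
      have e : S / (2 * C / θ) + θ / (2 * C) * S = θ / C * S := by field_simp; ring
      linarith) hx.1) (by
      nlinarith [hx.2, mul_le_mul_of_nonneg_right l1 S0.le, mul_pos q1 S0]))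
  obtain ⟨σ, hσ, m1, m2⟩ := E3 le_rfl cs S0 S1 e1 win reg dr fun l l0 h1 h2 =>
    E4 (F.m t) z Ψ _ _ l _ _ hΨ (by positivity) (by
      have : S / (2 + 1 / θ + A) ≤ S / (1 / θ) := by gcongr; linarith
      have e : S / (1 / θ) = θ * S := by field_simp
      linarith) (by nlinarith [mul_pos q3 S0]) l0 h1 h2 (by positivity)
  have R0 : 0 < S / (10 / ν) := by positivity
  have R1 : S / (10 / ν) ≤ S / 10 := by gcongr
  have R2 : (S / (10 / ν)) ^ 2 ≤ (S / 10) ^ 2 := by gcongr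
  rw [show Sk.en (F.m t) z (S / (10 / ν)) = F.hc.en t z (S / (10 / ν)) by
    unfold Sk.en HC.en; rw [ball_eq]; rfl]
  refine E1 (e := ν * S ^ 2) le_rfl (by linarith) ht.2 R0 (by linarith) (by positivity)
    fun y ε'' τ1 v' hy e3 cs' σ' hσ' => E2 le_rfl cs S0 (by linarith) e2 σ hσ (win.trans hσ.1) _
      (isClosed_An h ht' z _ _).measurableSet (fun x hx => lt_of_le_of_lt hx.2 (by
        nlinarith [mul_pos (show 0 < A by linarith) S0])) m1 m2 cs' e3
      (hy.trans_eq (by field_simp)) σ' ⟨le_trans (by linarith) hσ'.1, hσ'.2⟩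

end Crest.Agent.N207.Ge

end
end

-- ▼ part N207/G/Gp1
section

/-!
# Row 207, block G (helper93): the limit deck group of asymptotically Euclidean parametrisations
-/

set_option autoImplicit false
set_option linter.unusedSectionVars false
set_option maxSynthPendingDepth 3

open scoped ContDiff Manifold Topology
open Set Filter Metric
open Crest.GeometryTopology.CoordMetric
open Crest.Agent.R202.Tens Crest.Agent.N207.Jt Crest.Agent.N207.Gs

noncomputable section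

namespace Crest.Agent.N207.G

variable {n : ℕ} {M : Type*} [TopologicalSpace M] [ChartedSpace (En n) M]
  [IsManifold 𝓘(ℝ, En n) ∞ M] [T3Space M] [ConnectedSpace M] {ι : Type}

/-- there is a transition at `w` which is `ε`-close to `A` -/
def Near (Φ : En n → M) (U : Set (En n)) (A : En n ≃ₗᵢ[ℝ] En n) (ε : ℝ) (w : En n) : Prop :=
  ∃ y ∈ U, ∃ L : En n →L[ℝ] En n, ‖y - A w‖ ≤ ε ∧ Φ y = Φ w ∧ IsD Φ Φ w y L ∧
    ‖L - (A : En n →L[ℝ] En n)‖ ≤ ε

/-- uniformly on `S` -/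
def Good (l : Filter ι) (Φ : ι → En n → M) (U : Set (En n)) (A : En n ≃ₗᵢ[ℝ] En n)
    (S : Set (En n)) : Prop :=
  ∀ ε, 0 < ε → ∀ᶠ j in l, ∀ w ∈ S, Near (Φ j) U A ε w

/-- membership in the limit group -/
def InG (l : Filter ι) (Φ : ι → En n → M) (U : Set (En n)) (A : En n ≃ₗᵢ[ℝ] En n) : Prop :=
  ∀ K, IsCompact K → K ⊆ U → Good l Φ U A K

/-- the hypotheses -/
structure GH (l : Filter ι) (m : ι → Met n M) (Φ : ι → En n → M) (U : Set (En n)) (ρ : ℝ) :
    Prop where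
  pos : 0 < ρ
  op : IsOpen U
  ne : U.Nonempty
  con : IsPreconnected U
  iso : ∀ A : En n ≃ₗᵢ[ℝ] En n, ∀ x ∈ U, A x ∈ U
  par : ∀ᶠ j in l, Par (Φ j) U
  li : ∀ᶠ j in l, LI (Φ j) U ρ
  mc : MC l (fun j => (m j).pm (Φ j)) fun _ => U
  bd : ∃ R, ∀ y ∈ U, ‖y‖ ≤ R
  rc : ∀ e, 0 < e → ∀ᶠ j in l, ∀ x ∈ U, ∀ y ∈ U, ∀ L : En n →L[ℝ] En n, Φ j y = Φ j x →
    IsD (Φ j) (Φ j) x y L → ∀ X, |inner ℝ y (L X) - inner ℝ x X| ≤ e * ‖X‖

variable {l : Filter ι} {m : ι → Met n M} {Φ : ι → En n → M} {U : Set (En n)} {ρ : ℝ}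
  {A B : En n ≃ₗᵢ[ℝ] En n}

theorem GH.ev_ne (h : GH l m Φ U ρ) {ε : ℝ} (hε : 0 < ε) : ∀ᶠ j in l, NE ((m j).pm (Φ j)) U ε := by
  filter_upwards [ev_un.1 (ev_quad h.mc (ε := 1 / 10) (by norm_num)), ev_un.1 (ev_gam h.mc hε)]
    with j a b y hy using ⟨a y hy, b y hy⟩

theorem GH.rh (h : GH l m Φ U ρ) (A : En n ≃ₗᵢ[ℝ] En n) {O : Set (En n)} (hO : IsOpen O) {r : ℝ}
    (hr : 0 < r) (hrρ : r ≤ ρ) (hth : ∀ y ∈ O, closedBall y r ⊆ U) :
    ∀ᶠ j in l, RH (Φ j) (Φ j) U U A r O := by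
  filter_upwards [h.par, h.li] with j a b
  refine ⟨a, a, fun x hx y hy e => b x hx y hy (e.trans_le hrρ), hO,
    fun y hy => hth y hy (mem_closedBall_self hr.le), fun y hy z hz => ?_⟩
  rw [← A.apply_symm_apply z]
  refine h.iso A _ (hth y hy ?_)
  rw [mem_closedBall, ← A.dist_map, A.apply_symm_apply]
  exact (mem_closedBall.1 hz).trans (by linarith)

/-- continuation over a ball -/
theorem GH.loc (h : GH l m Φ U ρ) (A : En n ≃ₗᵢ[ℝ] En n) {w : En n} (hw : w ∈ U) :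
    ∃ r, 0 < r ∧ ∀ x : ι → En n, (∀ᶠ j in l, x j ∈ ball w r) →
      (∀ ε, 0 < ε → ∀ᶠ j in l, Near (Φ j) U A ε (x j)) → Good l Φ U A (ball w r) := by
  obtain ⟨s, hs, hb⟩ := Metric.isOpen_iff.1 h.op w hw
  refine ⟨s / 2, by positivity, fun x hx hn ε hε => ?_⟩
  have hρ := h.pos
  set r := min ρ (s / 2) with hr
  have hr0 : 0 < r := lt_min hρ (by positivity)
  set c := min (r / 8) ε with hc
  have hc0 : 0 < c := lt_min (by positivity) hε
  set D := 1 + (1 + 6 * s) * (s + 1) with hD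
  have hD0 : 0 < D := by positivity
  set η := c / (D + 1) with hη
  have hη0 : 0 < η := by positivity
  have k0 : η * D < c := by
    rw [hη, div_mul_eq_mul_div, div_lt_iff₀ (by positivity)]; nlinarith
  have k1 : η + (η + 6 * η * s) * s < c := by
    have : 0 ≤ η * (1 + 6 * s) := by positivity
    rw [hD] at k0; nlinarith
  have k2 : η + 6 * η * s < c := by
    have : 0 ≤ η * (1 + 6 * s) * s := by positivity
    rw [hD] at k0; nlinarith
  have k3 : η < r / 4 := by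
    have : 0 ≤ 6 * η * s := by positivity
    have := min_le_left (r / 8) ε
    linarith
  have hth : ∀ y ∈ ball w (s / 2), closedBall y r ⊆ U := fun y hy z hz => hb (by
    have := min_le_right ρ (s / 2)
    rw [mem_ball] at hy ⊢
    linarith [dist_triangle z y w, mem_closedBall.1 hz])
  filter_upwards [h.rh A isOpen_ball hr0 (min_le_left _ _) hth, h.ev_ne hη0, hx, hn η hη0]
    with j H N hxj ⟨y, hy, L, e1, e2, e3, e4⟩ v hv
  have h0 : x j ∈ trD (Φ j) (Φ j) A r (ball w (s / 2)) := ⟨hxj, y, e1.trans_lt k3, e2⟩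
  have e5 := H.eq hxj (e1.trans_lt k3) e2
  have e6 : fderiv ℝ (tr (Φ j) (Φ j) A r) (x j) = L :=
    IsD.unique H.p' hy (e5 ▸ H.isD h0) e3
  have hR : ‖v - x j‖ ≤ s := by
    rw [← dist_eq_norm]
    linarith [dist_triangle_right v (x j) w, mem_ball.1 hv, mem_ball.1 hxj]
  have i0 : ‖tr (Φ j) (Φ j) A r (x j) - A (x j)‖ ≤ η := by rw [e5]; exact e1
  have i1 : ‖fderiv ℝ (tr (Φ j) (Φ j) A r) (x j) - (A : En n →L[ℝ] En n)‖ ≤ η := by
    rw [e6]; exact e4
  have hs' := H.ext (m j) N N ((convex_ball w _).segment_subset hxj hv) h0 hR i0 i1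
    (k1.trans_le (min_le_left _ _))
  have hv' := hs' (right_mem_segment _ _ _)
  obtain ⟨a, b⟩ := H.est (m j) N N hs' hR i0 i1
  exact ⟨_, H.mem hv (RH.spec hv').1, _, a.trans (k1.le.trans (min_le_right _ _)),
    (RH.spec hv').2, H.isD hv', b.trans (k2.le.trans (min_le_right _ _))⟩

/-- continuation over `U` -/
theorem GH.all (h : GH l m Φ U ρ) {x : ι → En n} {w : En n} (hw : w ∈ U)
    (hx : Tendsto x l (𝓝 w)) (hn : ∀ ε, 0 < ε → ∀ᶠ j in l, Near (Φ j) U A ε (x j)) :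
    InG l Φ U A := by
  set W : Set (En n) := {v | ∃ t ∈ 𝓝 v, Good l Φ U A t} with hW
  have hWo : IsOpen W := isOpen_iff_mem_nhds.2 fun v ⟨t, ht, g⟩ =>
    mem_of_superset (eventually_mem_nhds_iff.2 ht) fun u hu => ⟨t, hu, g⟩
  have hU : U ⊆ W := by
    refine h.con.subset_of_closure_inter_subset hWo ?_ ?_
    · obtain ⟨r, hr, k⟩ := h.loc A hw
      exact ⟨w, hw, _, ball_mem_nhds w hr, k x (hx.eventually (ball_mem_nhds w hr)) hn⟩
    · rintro v ⟨hv, hvU⟩
      obtain ⟨r, hr, k⟩ := h.loc A hvU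
      obtain ⟨u, hu, t, ht, g⟩ := mem_closure_iff_nhds.1 hv _ (ball_mem_nhds v hr)
      exact ⟨_, ball_mem_nhds v hr, k (fun _ => u) (Eventually.of_forall fun _ => hu)
        fun ε hε => (g ε hε).mono fun j hj => hj u (mem_of_mem_nhds ht)⟩
  intro K hK hKU
  refine hK.induction_on (p := Good l Φ U A) (fun ε _ => Eventually.of_forall fun _ _ h => h.elim)
    (fun s t hst g ε hε => (g ε hε).mono fun j hj v hv => hj v (hst hv))
    (fun s t g g' ε hε => ?_) fun v hv => ?_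
  · filter_upwards [g ε hε, g' ε hε] with j a b v hv using hv.elim (a v) (b v)
  · obtain ⟨t, ht, g⟩ := hU (hKU hv)
    exact ⟨t, mem_nhdsWithin_of_mem_nhds ht, g⟩

theorem InG.pt (h : InG l Φ U A) {w : En n} (hw : w ∈ U) {ε : ℝ} (hε : 0 < ε) :
    ∀ᶠ j in l, Near (Φ j) U A ε w :=
  (h {w} isCompact_singleton (singleton_subset_iff.2 hw) ε hε).mono fun _ hj => hj w rfl

theorem inG_one : InG l Φ U 1 := fun _ _ hK ε hε => Eventually.of_forall fun j w hw =>
  ⟨w, hK hw, _, by simpa using hε.le, rfl, isD_refl _ _, by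
    rw [show ((1 : En n ≃ₗᵢ[ℝ] En n) : En n →L[ℝ] En n) = ContinuousLinearMap.id ℝ _ from rfl]
    simpa using hε.le⟩

theorem GH.mul (h : GH l m Φ U ρ) (hA : InG l Φ U A) (hB : InG l Φ U B) : InG l Φ U (A * B) := by
  obtain ⟨w, hw⟩ := h.ne
  refine h.all hw tendsto_const_nhds fun ε hε => ?_
  obtain ⟨s, hs, hb⟩ := Metric.nhds_basis_closedBall.mem_iff.1 (h.op.mem_nhds (h.iso B w hw))
  set η := min (min s 1) (ε / 3) with hη
  have h0 : 0 < η := by positivity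
  have h1 : η ≤ s := (min_le_left _ _).trans (min_le_left _ _)
  have h2 : η ≤ 1 := (min_le_left _ _).trans (min_le_right _ _)
  have h3 : η ≤ ε / 3 := min_le_right _ _
  filter_upwards [hB.pt hw h0, hA _ (isCompact_closedBall _ _) hb η h0]
    with j ⟨y, _, L, e1, e2, e3, e4⟩ k
  obtain ⟨y', hy', L', f1, f2, f3, f4⟩ := k y (mem_closedBall_iff_norm.2 (e1.trans h1))
  refine ⟨y', hy', _, ?_, f2.trans e2, e3.comp f3, ?_⟩
  · have := norm_sub_le_norm_sub_add_norm_sub y' (A y) (A (B w))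
    rw [← map_sub, A.norm_map] at this
    show ‖y' - A (B w)‖ ≤ ε
    linarith
  · refine ContinuousLinearMap.opNorm_le_bound _ hε.le fun X => ?_
    have a1 : ‖L X - B X‖ ≤ η * ‖X‖ := (L - (B : En n →L[ℝ] En n)).le_of_opNorm_le e4 X
    have a2 : ‖L' (L X) - A (L X)‖ ≤ η * ‖L X‖ :=
      (L' - (A : En n →L[ℝ] En n)).le_of_opNorm_le f4 (L X)
    have a3 := norm_sub_le_norm_sub_add_norm_sub (L' (L X)) (A (L X)) (A (B X))
    rw [← map_sub, A.norm_map] at a3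
    have a4 := norm_sub_norm_le (L X) (B X)
    rw [B.norm_map] at a4
    show ‖L' (L X) - A (B X)‖ ≤ ε * ‖X‖
    have a5 : ‖L X‖ ≤ 2 * ‖X‖ := by nlinarith [norm_nonneg X]
    nlinarith [norm_nonneg X]

theorem GH.sep [l.NeBot] (h : GH l m Φ U ρ) (hA : InG l Φ U A) (hB : InG l Φ U B) {w : En n}
    (hw : w ∈ U) (e : ‖A w - B w‖ < ρ) : A = B := by
  have key : ∀ ε, 0 < ε → ‖(A : En n →L[ℝ] En n) - (B : En n →L[ℝ] En n)‖ ≤ ε := fun ε hε => by
    set η := min ((ρ - ‖A w - B w‖) / 3) (ε / 2) with hη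
    have h0 : 0 < η := lt_min (by linarith) (by positivity)
    have h1 : η ≤ (ρ - ‖A w - B w‖) / 3 := min_le_left _ _
    have h2 : η ≤ ε / 2 := min_le_right _ _
    obtain ⟨j, ⟨y, hy, L, e1, e2, e3, e4⟩, ⟨y', hy', L', f1, f2, f3, f4⟩, p, q⟩ :=
      ((hA.pt hw h0).and ((hB.pt hw h0).and (h.par.and h.li))).exists
    have e5 : y = y' := q y hy y' hy' (by
      have a1 := norm_sub_le_norm_sub_add_norm_sub y (A w) y'
      have a2 := norm_sub_le_norm_sub_add_norm_sub (A w) (B w) y'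
      rw [norm_sub_rev (B w)] at a2
      linarith) (e2.trans f2.symm)
    subst e5
    rw [IsD.unique p hy e3 f3] at e4
    have := norm_sub_le_norm_sub_add_norm_sub (A : En n →L[ℝ] En n) L' (B : En n →L[ℝ] En n)
    rw [norm_sub_rev _ L'] at this
    linarith
  have := norm_le_zero_iff.1 (le_of_forall_pos_le_add fun ε hε => by simpa using key ε hε)
  exact I.cl_inj (sub_eq_zero.1 this)

theorem GH.finite [l.NeBot] (h : GH l m Φ U ρ) : {A | InG l Φ U A}.Finite := by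
  obtain ⟨w, hw⟩ := h.ne
  obtain ⟨t, -, ht, hc⟩ := finite_cover_balls_of_compact (isCompact_closedBall (0 : En n) ‖w‖)
    (half_pos h.pos)
  refine (ht.biUnion (t := fun y => {A | InG l Φ U A ∧ A w ∈ ball y (ρ / 2)}) fun y _ =>
    Set.Subsingleton.finite fun A hA B hB => h.sep hA.1 hB.1 hw ?_).subset fun A hA => ?_
  · rw [← dist_eq_norm]
    linarith [dist_triangle_right (A w) (B w) y, mem_ball.1 hA.2, mem_ball.1 hB.2]
  · obtain ⟨y, hy, k⟩ := mem_iUnion₂.1 (hc (show A w ∈ closedBall (0 : En n) ‖w‖ by simp))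
    exact mem_iUnion₂.2 ⟨y, hy, hA, k⟩

variable {𝒰 : Ultrafilter ι}

/-- **pairs of points with the same image are asymptotically in one orbit** -/
theorem GH.main (h : GH (𝒰 : Filter ι) m Φ U ρ) {K : Set (En n)} (hK : IsCompact K) (hKU : K ⊆ U)
    {x y : ι → En n} (hx : ∀ᶠ j in (𝒰 : Filter ι), x j ∈ K ∧ y j ∈ U ∧ Φ j (y j) = Φ j (x j)) :
    ∃ A, InG (𝒰 : Filter ι) Φ U A ∧ Tendsto (fun j => y j - A (x j)) 𝒰 (𝓝 0) := by
  have : ∀ j, ∃ L, (∃ L', IsD (Φ j) (Φ j) (x j) (y j) L') → IsD (Φ j) (Φ j) (x j) (y j) L :=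
    fun j => by
      by_cases k : ∃ L', IsD (Φ j) (Φ j) (x j) (y j) L'
      · exact k.imp fun _ a _ => a
      · exact ⟨0, fun a => absurd a k⟩
  choose L hL using this
  have h1 : ∀ᶠ j in (𝒰 : Filter ι), IsD (Φ j) (Φ j) (x j) (y j) (L j) := by
    filter_upwards [hx, h.par] with j a b using hL j (exists_isD b b (hKU a.1) a.2.1 a.2.2)
  have h2 : ∀ᶠ j in (𝒰 : Filter ι), ‖L j‖ ≤ 2 := by
    filter_upwards [hx, h1, h.ev_ne one_pos] with j a b c
    exact norm_le_two (c _ (hKU a.1)).1 (c _ a.2.1).1 (b.bil (m j) a.2.2)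
  have : ProperSpace (En n →L[ℝ] En n) := FiniteDimensional.proper_real _
  obtain ⟨L0, -, hL0⟩ := (isCompact_closedBall (0 : En n →L[ℝ] En n) 2).ultrafilter_le_nhds'
    (𝒰.map L) (h2.mono fun j a => mem_closedBall_zero_iff.2 a)
  replace hL0 : Tendsto L 𝒰 (𝓝 L0) := hL0
  obtain ⟨w, hw, hxw⟩ := hK.ultrafilter_le_nhds' (𝒰.map x) (hx.mono fun j a => a.1)
  replace hxw : Tendsto x 𝒰 (𝓝 w) := hxw
  have h3 : ∀ X, ‖L0 X‖ = ‖X‖ := fun X => by
    have a1 : Tendsto (fun j => |‖L j X‖ ^ 2 - ‖X‖ ^ 2|) 𝒰 (𝓝 |‖L0 X‖ ^ 2 - ‖X‖ ^ 2|) :=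
      ((((ContinuousLinearMap.apply ℝ (En n) X).continuous.tendsto L0).comp hL0).norm.pow 2
        |>.sub_const _).abs
    have a2 : ∀ δ, 0 < δ → |‖L0 X‖ ^ 2 - ‖X‖ ^ 2| ≤ δ * (5 * ‖X‖ ^ 2) := fun δ hδ => by
      refine le_of_tendsto a1 ?_
      filter_upwards [hx, h1, h2, ev_un.1 (ev_quad h.mc hδ)] with j a b c d
      have b1 := abs_le.1 (d _ (hKU a.1) X X)
      have b2 := abs_le.1 (d _ a.2.1 (L j X) (L j X))
      simp only [real_inner_self_eq_norm_sq] at b1 b2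
      rw [b.bil (m j) a.2.2] at b1
      have b3 : ‖L j X‖ ≤ 2 * ‖X‖ := (L j).le_of_opNorm_le c X
      have b4 : δ * ‖L j X‖ * ‖L j X‖ ≤ δ * (2 * ‖X‖) * (2 * ‖X‖) := by gcongr
      rw [abs_le]
      constructor <;> nlinarith
    have a3 : |‖L0 X‖ ^ 2 - ‖X‖ ^ 2| ≤ 0 := by
      refine le_of_forall_pos_le_add fun ε hε => ?_
      have := a2 (ε / (5 * ‖X‖ ^ 2 + 1)) (by positivity)
      rw [div_mul_eq_mul_div, le_div_iff₀ (by positivity)] at this
      nlinarith [abs_nonneg (‖L0 X‖ ^ 2 - ‖X‖ ^ 2), sq_nonneg ‖X‖]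
    exact (pow_left_inj₀ (norm_nonneg _) (norm_nonneg _) two_ne_zero).1
      (sub_eq_zero.1 (abs_nonpos_iff.1 a3))
  obtain ⟨A, rfl⟩ := I.exists_cl L0 h3
  have h5 : Tendsto (fun j => y j - A (x j)) 𝒰 (𝓝 0) := by
    obtain ⟨R, hR⟩ := h.bd
    have a1 : Tendsto (fun j => R * ‖L j - I.cl A‖) 𝒰 (𝓝 0) := by
      simpa using (tendsto_iff_norm_sub_tendsto_zero.1 hL0).const_mul R
    refine Metric.tendsto_nhds.2 fun ε hε => ?_
    filter_upwards [hx, h1, h.rc (ε / 2) (half_pos hε), a1.eventually (gt_mem_nhds (half_pos hε))]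
      with j a b c d
    rw [dist_zero_right]
    set v := y j - A (x j) with hv
    have b1 := abs_le.1 (c _ (hKU a.1) _ a.2.1 _ a.2.2 b (A.symm v))
    have b2 : ‖v‖ ^ 2 = inner ℝ (y j) v - inner ℝ (x j) (A.symm v) := by
      rw [← A.inner_map_map (x j), A.apply_symm_apply, ← inner_sub_left,
        real_inner_self_eq_norm_sq]
    have b3 : ‖L j (A.symm v) - v‖ ≤ ‖L j - I.cl A‖ * ‖v‖ := by
      simpa using (L j - I.cl A).le_opNorm (A.symm v)
    have b4 := abs_le.1 (abs_real_inner_le_norm (y j) (L j (A.symm v) - v))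
    rw [inner_sub_right] at b4
    rw [A.symm.norm_map] at b1
    have b5 : ‖y j‖ * ‖L j (A.symm v) - v‖ ≤ R * (‖L j - I.cl A‖ * ‖v‖) :=
      mul_le_mul (hR _ a.2.1) b3 (norm_nonneg _) ((norm_nonneg _).trans (hR _ a.2.1))
    by_contra hn
    have b6 : 0 < ‖v‖ := hε.trans_le (not_lt.1 hn)
    nlinarith [not_lt.1 hn]
  refine ⟨A, h.all (hKU hw) hxw fun ε hε => ?_, h5⟩
  filter_upwards [hx, h1, Metric.tendsto_nhds.1 h5 ε hε, Metric.tendsto_nhds.1 hL0 ε hε]
    with j a b c d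
  rw [dist_zero_right] at c
  rw [dist_eq_norm] at d
  exact ⟨_, a.2.1, _, c.le, a.2.2, b, d.le⟩

theorem GH.inv (h : GH (𝒰 : Filter ι) m Φ U ρ) (hA : InG (𝒰 : Filter ι) Φ U A) :
    InG (𝒰 : Filter ι) Φ U A⁻¹ := by
  let S : Submonoid (En n ≃ₗᵢ[ℝ] En n) :=
    { carrier := {A | InG (𝒰 : Filter ι) Φ U A}, mul_mem' := h.mul, one_mem' := inG_one }
  have h0 : Submonoid.powers A ≤ S := Submonoid.powers_le.2 hA
  have h1 : IsOfFinOrder A := finite_powers.1 (h.finite.subset h0)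
  exact h0 (h1.mem_powers_iff_mem_zpowers.2 (Subgroup.inv_mem _ (Subgroup.mem_zpowers A)))

/-- the limit group -/
def GH.grp (h : GH (𝒰 : Filter ι) m Φ U ρ) : Subgroup (En n ≃ₗᵢ[ℝ] En n) where
  carrier := {A | InG (𝒰 : Filter ι) Φ U A}
  mul_mem' := h.mul
  one_mem' := inG_one
  inv_mem' := h.inv

/-- uniform form of `GH.main` -/
theorem GH.unif (h : GH (𝒰 : Filter ι) m Φ U ρ) {K : Set (En n)} (hK : IsCompact K) (hKU : K ⊆ U)
    {ε : ℝ} (hε : 0 < ε) : ∀ᶠ j in (𝒰 : Filter ι), ∀ x ∈ K, ∀ y ∈ U, Φ j y = Φ j x →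
      ∃ A ∈ h.grp, ‖y - A x‖ < ε := by
  by_contra hn
  have : ∀ j, ∃ p : En n × En n, ¬ (∀ x ∈ K, ∀ y ∈ U, Φ j y = Φ j x → ∃ A ∈ h.grp, ‖y - A x‖ < ε) →
      (p.1 ∈ K ∧ p.2 ∈ U ∧ Φ j p.2 = Φ j p.1) ∧ ¬ ∃ A ∈ h.grp, ‖p.2 - A p.1‖ < ε := fun j => by
    by_cases k : ∀ x ∈ K, ∀ y ∈ U, Φ j y = Φ j x → ∃ A ∈ h.grp, ‖y - A x‖ < ε
    · exact ⟨0, fun a => absurd k a⟩
    · simp only [not_forall] at k
      obtain ⟨x, hx, y, hy, e, k⟩ := k
      exact ⟨(x, y), fun _ => ⟨⟨hx, hy, e⟩, k⟩⟩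
  choose p hp using this
  have h1 := (Ultrafilter.eventually_not.2 hn).mono hp
  obtain ⟨A, hA, k⟩ := h.main hK hKU (h1.mono fun j a => a.1)
  obtain ⟨j, a, b⟩ := (h1.and (Metric.tendsto_nhds.1 k ε hε)).exists
  rw [dist_zero_right] at b
  exact a.2 ⟨A, hA, b⟩

end Crest.Agent.N207.G

end
end

-- ▼ part N207/G/Rf
section

/-!
# Row 207, block G (helper25): rigidity of transitions along a filter
-/

set_option autoImplicit false
set_option linter.unusedSectionVars false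
set_option maxSynthPendingDepth 3

open scoped ContDiff Manifold Topology
open Set Filter Metric
open Crest.GeometryTopology.CoordMetric
open Crest.Agent.R202.Tens Crest.Agent.N207.Jt

noncomputable section

namespace Crest.Agent.N207.Gs

variable {n : ℕ} {ι : Type} {l : Filter ι}

theorem ge_of_fderiv {X Y : Type} [NormedAddCommGroup X] [NormedSpace ℝ X] [NormedAddCommGroup Y]
    [NormedSpace ℝ Y] {f f' : ι → X → Y} {x x' : ι → X} (h1 : GB l f x) (h2 : GB l f' x')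
    (h0 : Tendsto (fun j => f j (x j) - f' j (x' j)) l (𝓝 0))
    (h : GE l (fun j => fderiv ℝ (f j)) x (fun j => fderiv ℝ (f' j)) x') : GE l f x f' x' := by
  refine ⟨h1, h2, fun k => ?_⟩
  rcases k with _ | k
  · refine tendsto_zero_iff_norm_tendsto_zero.2
      ((tendsto_zero_iff_norm_tendsto_zero.1 h0).congr fun j => ?_)
    rw [iteratedFDeriv_zero_eq_comp, iteratedFDeriv_zero_eq_comp, Function.comp_apply,
      Function.comp_apply, ← map_sub, LinearIsometryEquiv.norm_map]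
  · refine tendsto_zero_iff_norm_tendsto_zero.2
      ((tendsto_zero_iff_norm_tendsto_zero.1 (h.lim k)).congr fun j => ?_)
    rw [iteratedFDeriv_succ_eq_comp_right, iteratedFDeriv_succ_eq_comp_right, Function.comp_apply,
      Function.comp_apply, ← dist_eq_norm, ← dist_eq_norm, LinearIsometryEquiv.dist_map]

theorem norm_cl_le (A : En n ≃ₗᵢ[ℝ] En n) : ‖(A : En n →L[ℝ] En n)‖ ≤ 1 :=
  ContinuousLinearMap.opNorm_le_bound _ zero_le_one fun x => by simp

theorem fderiv_lie (A : En n ≃ₗᵢ[ℝ] En n) :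
    fderiv ℝ (fun y => A y) = fun _ => (A : En n →L[ℝ] En n) :=
  funext fun _ => (A : En n →L[ℝ] En n).fderiv

theorem gb_cl (A : ι → En n ≃ₗᵢ[ℝ] En n) (x : ι → En n) :
    GB l (fun j _ => (A j : En n →L[ℝ] En n)) x :=
  GB.const ⟨1, Eventually.of_forall fun j => norm_cl_le (A j)⟩

theorem gb_lie (A : ι → En n ≃ₗᵢ[ℝ] En n) {x : ι → En n} (hx : ∃ C, ∀ᶠ j in l, ‖x j‖ ≤ C) :
    GB l (fun j y => A j y) x := (gb_cl A x).app (GB.id hx)

theorem gc_mb {G : ι → MetricField n} {x : ι → En n} (h : GC l G x)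
    (hs : ∀ᶠ j in l, ∀ a b, G j (x j) a b = G j (x j) b a) : MB l G x := by
  refine ⟨fun a b => (h a b).left, 1 / 2, by norm_num, ?_⟩
  filter_upwards [hs, ev_quad h (ε := 1 / 2) (by norm_num)] with j h1 h2
  refine ⟨h1, fun v => ?_⟩
  have := abs_le.1 (h2 v v)
  rw [real_inner_self_eq_norm_sq] at this
  nlinarith [this.1]

theorem ev_ne {G : ι → MetricField n} {S : ι → Set (En n)} (h : MC l G S) {ε : ℝ} (hε : 0 < ε) :
    ∀ᶠ j in l, NE (G j) (S j) ε :=
  ev_un.1 ((ev_quad h (ε := 1 / 10) (by norm_num)).and (ev_gam h hε))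

/-- local isometries of asymptotically Euclidean metrics, `C¹` close to orthogonal maps -/
theorem ge_iso {G G' : ι → MetricField n} {T : ι → En n → En n} {y : ι → En n}
    {A : ι → En n ≃ₗᵢ[ℝ] En n} (hP : ∀ᶠ j in l, ∃ V W, y j ∈ V ∧ Pull (G j) (G' j) (T j) V W)
    (h : GC l G y) (h' : GC l G' fun j => T j (y j)) (hy : ∃ C, ∀ᶠ j in l, ‖y j‖ ≤ C)
    (h0 : Tendsto (fun j => T j (y j) - A j (y j)) l (𝓝 0))
    (h1 : Tendsto (fun j => fderiv ℝ (T j) (y j) - (A j : En n →L[ℝ] En n)) l (𝓝 0)) :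
    GE l T y (fun j z => A j z) y := by
  have sy : ∀ {B : Matrix (Fin n) (Fin n) ℝ}, B.PosDef → ∀ a b, B a b = B b a := fun hB a b => by
    simpa using (hB.isHermitian.apply a b).symm
  have hT : GB l T y := by
    refine iso_gb hP (gc_mb h (hP.mono fun j ⟨V, W, a, b⟩ => sy (b.riem'.posDef _ a)))
      (gc_mb h' (hP.mono fun j ⟨V, W, a, b⟩ => sy (b.riem.posDef _ (b.maps _ a)))) hy ?_
    obtain ⟨C, hC⟩ := hy
    refine ⟨C + 1, ?_⟩
    filter_upwards [hC, Metric.tendsto_nhds.1 h0 1 one_pos] with j a b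
    rw [dist_zero_right] at b
    have := norm_add_le (T j (y j) - A j (y j)) (A j (y j))
    rw [sub_add_cancel, LinearIsometryEquiv.norm_map] at this
    linarith
  refine ge_of_fderiv hT (gb_lie A hy) h0 ?_
  simp only [fderiv_lie]
  refine ge_of_fderiv hT.fderiv (gb_cl A y) h1 ?_
  have g2 : GE l (fun j z => Gam (G' j) (T j z)) y (fun _ _ => 0) y := (ge_gam h').comp hT.ge
  have k := (((ge_gam h).prodMk (g2.prodMk hT.fderiv.ge)).smooth isoR_smooth).smooth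
    (Φ := fun L => (ContinuousLinearMap.snd ℝ _ _).comp L) (by fun_prop)
  refine (k.congr_left ?_).congr_right (Eventually.of_forall fun j => ⟨rfl,
    Eventually.of_forall fun z => ?_⟩)
  · filter_upwards [hP] with j ⟨V, W, a, b⟩
    refine ⟨rfl, mem_of_superset (b.isOpen.mem_nhds a) fun z hz => ?_⟩
    refine ContinuousLinearMap.ext fun X => ContinuousLinearMap.ext fun Y => ?_
    simp [isoR, b.gam_eq hz X Y]
  · refine ContinuousLinearMap.ext fun X => ContinuousLinearMap.ext fun Y => ?_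
    simp [isoR]

variable {M : Type*} [TopologicalSpace M] [ChartedSpace (En n) M] [IsManifold 𝓘(ℝ, En n) ∞ M]
  [T3Space M] [ConnectedSpace M]

/-- chains of three segments -/
def Ch (O : Set (En n)) (x y : En n) : Prop :=
  ∃ u w, segment ℝ x u ⊆ O ∧ segment ℝ u w ⊆ O ∧ segment ℝ w y ⊆ O

theorem ch_of_seg {O : Set (En n)} {x y : En n} (h : segment ℝ x y ⊆ O) : Ch O x y :=
  ⟨x, x, by rw [segment_same]; exact singleton_subset_iff.2 (h (left_mem_segment _ _ _)),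
    by rw [segment_same]; exact singleton_subset_iff.2 (h (left_mem_segment _ _ _)), h⟩

/-- the transition is defined at `y`, with errors at most `η` -/
def Nr (Ψ Ψ' : En n → M) (A : En n ≃ₗᵢ[ℝ] En n) (ρ : ℝ) (O : Set (En n)) (η : ℝ) (y : En n) :
    Prop :=
  y ∈ trD Ψ Ψ' A ρ O ∧ ‖tr Ψ Ψ' A ρ y - A y‖ ≤ η ∧
    ‖fderiv ℝ (tr Ψ Ψ' A ρ) y - (A : En n →L[ℝ] En n)‖ ≤ η

theorem RH.step {Ψ Ψ' : En n → M} {U U' O : Set (En n)} {A : En n ≃ₗᵢ[ℝ] En n} {ρ : ℝ}
    (h : RH Ψ Ψ' U U' A ρ O) (m : Met n M) {ε η R : ℝ} (h1 : NE (m.pm Ψ) U ε)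
    (h2 : NE (m.pm Ψ') U' ε) (hR : O ⊆ ball 0 R) (he : ε ≤ η) {y₀ y : En n}
    (hs : segment ℝ y₀ y ⊆ O) (h0 : Nr Ψ Ψ' A ρ O η y₀)
    (hsm : (1 + 12 * R) * (1 + 2 * R) * η < ρ / 8) :
    Nr Ψ Ψ' A ρ O ((1 + 12 * R) * (1 + 2 * R) * η) y := by
  have a1 := mem_ball_zero_iff.1 (hR (hs (left_mem_segment _ _ _)))
  have a2 := mem_ball_zero_iff.1 (hR (hs (right_mem_segment _ _ _)))
  have hR0 : 0 ≤ R := (norm_nonneg _).trans a1.le
  have hη : 0 ≤ η := (norm_nonneg _).trans h0.2.1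
  have hd : ‖y - y₀‖ ≤ 2 * R := (norm_sub_le _ _).trans (by linarith)
  have b1 : η + 6 * ε * (2 * R) ≤ (1 + 12 * R) * η := by nlinarith [mul_le_mul_of_nonneg_left he hR0]
  have b2 : η + (η + 6 * ε * (2 * R)) * (2 * R) ≤ (1 + 12 * R) * (1 + 2 * R) * η := by
    nlinarith [mul_le_mul_of_nonneg_right b1 hR0, mul_nonneg hR0 hη]
  have b3 : (1 + 12 * R) * η ≤ (1 + 12 * R) * (1 + 2 * R) * η := by
    nlinarith [mul_nonneg hR0 hη, mul_nonneg hR0 (mul_nonneg hR0 hη)]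
  have k := h.ext m h1 h2 hs h0.1 hd h0.2.1 h0.2.2 (b2.trans_lt hsm)
  have e := h.est m h1 h2 k hd h0.2.1 h0.2.2
  exact ⟨k (right_mem_segment _ _ _), e.1.trans b2, e.2.trans (b1.trans b3)⟩

/-- the hypotheses along a filter -/
structure FH (l : Filter ι) (m : ι → Met n M) (Ψ Ψ' : ι → En n → M) (U U' O : ι → Set (En n))
    (A : ι → En n ≃ₗᵢ[ℝ] En n) (ρ : ℝ) (y₀ : ι → En n) : Prop where
  rh : ∀ᶠ j in l, RH (Ψ j) (Ψ' j) (U j) (U' j) (A j) ρ (O j)
  mc : MC l (fun j => (m j).pm (Ψ j)) U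
  mc' : MC l (fun j => (m j).pm (Ψ' j)) U'
  pos : 0 < ρ
  bd : ∃ R, ∀ᶠ j in l, O j ⊆ ball 0 R
  base : ∀ ε > 0, ∀ᶠ j in l, y₀ j ∈ O j ∧ ∃ y' L, Ψ' j y' = Ψ j (y₀ j) ∧
    IsD (Ψ j) (Ψ' j) (y₀ j) y' L ∧ ‖y' - A j (y₀ j)‖ ≤ ε ∧ ‖L - (A j : En n →L[ℝ] En n)‖ ≤ ε

namespace FH

variable {m : ι → Met n M} {Ψ Ψ' : ι → En n → M} {U U' O : ι → Set (En n)}
  {A : ι → En n ≃ₗᵢ[ℝ] En n} {ρ : ℝ} {y₀ : ι → En n}

theorem c1 (h : FH l m Ψ Ψ' U U' O A ρ y₀) {ε : ℝ} (hε : 0 < ε) :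
    ∀ᶠ j in l, ∀ y, Ch (O j) (y₀ j) y → Nr (Ψ j) (Ψ' j) (A j) ρ (O j) ε y := by
  obtain ⟨R', hR'⟩ := h.bd
  have hρ := h.pos
  set R := max R' 0
  have hR0 : 0 ≤ R := le_max_right _ _
  set c := (1 + 12 * R) * (1 + 2 * R) with hc
  have hc1 : 1 ≤ c := by rw [hc]; nlinarith
  set η := min ε (ρ / 9) / c ^ 3 with hη
  have hm : 0 < min ε (ρ / 9) := lt_min hε (by positivity)
  have hη0 : 0 < η := by positivity
  have e3 : c * (c * (c * η)) = min ε (ρ / 9) := by rw [hη]; field_simp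
  have l1 : η ≤ c * η := by nlinarith
  have l2 : c * η ≤ c * (c * η) := by nlinarith
  have l3 : c * (c * η) ≤ c * (c * (c * η)) := by nlinarith
  have l4 : min ε (ρ / 9) < ρ / 8 := (min_le_right _ _).trans_lt (by linarith)
  filter_upwards [h.rh, ev_ne h.mc hη0, ev_ne h.mc' hη0, hR', h.base η hη0] with j r n1 n2 hb
    ⟨b0, y', L, b1, b2, b3, b4⟩ y ⟨u, w, s1, s2, s3⟩
  have hb' : O j ⊆ ball 0 R := hb.trans (ball_subset_ball (le_max_left _ _))
  have a1 : ‖y' - A j (y₀ j)‖ < ρ / 4 := by linarith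
  have a2 : y₀ j ∈ trD (Ψ j) (Ψ' j) (A j) ρ (O j) := ⟨b0, y', a1, b1⟩
  have a3 := r.eq b0 a1 b1
  have a4 := r.isD a2
  rw [a3] at a4
  have k0 : Nr (Ψ j) (Ψ' j) (A j) ρ (O j) η (y₀ j) :=
    ⟨a2, by rwa [a3], by rwa [IsD.unique r.p' (r.mem b0 a1) a4 b2]⟩
  have k1 := r.step (m j) n1 n2 hb' le_rfl s1 k0 (by linarith)
  have k2 := r.step (m j) n1 n2 hb' l1 s2 k1 (by linarith)
  have k3 := r.step (m j) n1 n2 hb' (l1.trans l2) s3 k2 (by linarith)
  have l5 : c * (c * (c * η)) ≤ ε := e3.le.trans (min_le_left _ _)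
  exact ⟨k3.1, k3.2.1.trans l5, k3.2.2.trans l5⟩

theorem dom (h : FH l m Ψ Ψ' U U' O A ρ y₀) {O' : ι → Set (En n)}
    (hc : ∀ᶠ j in l, ∀ y ∈ O' j, Ch (O j) (y₀ j) y) :
    ∀ᶠ j in l, O' j ⊆ trD (Ψ j) (Ψ' j) (A j) ρ (O j) := by
  filter_upwards [h.c1 one_pos, hc] with j a b y hy using (a y (b y hy)).1

/-- **rigidity** -/
theorem ue (h : FH l m Ψ Ψ' U U' O A ρ y₀) {O' : ι → Set (En n)}
    (hc : ∀ᶠ j in l, ∀ y ∈ O' j, Ch (O j) (y₀ j) y) :
    UE l (fun j => tr (Ψ j) (Ψ' j) (A j) ρ) (fun j z => A j z) O' := by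
  have k : ∀ ε > 0, ∀ᶠ p in un l O', Nr (Ψ p.1) (Ψ' p.1) (A p.1) ρ (O p.1) ε p.2 := fun ε hε =>
    ev_un.2 (by filter_upwards [h.c1 hε, hc] with j a b y hy using a y (b y hy))
  have r := (un_fst l O').eventually h.rh
  obtain ⟨R, hR⟩ := h.bd
  refine ge_iso (G := fun p : ι × En n => (m p.1).pm (Ψ p.1))
    (G' := fun p : ι × En n => (m p.1).pm (Ψ' p.1)) (A := fun p : ι × En n => A p.1) ?_ (h.mc.at (un_fst _ _) ?_) (h.mc'.at (un_fst _ _) ?_) ⟨R, ?_⟩ ?_ ?_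
  · filter_upwards [k 1 one_pos, r] with p a b using ⟨_, _, a.1, b.pull (m p.1)⟩
  · filter_upwards [k 1 one_pos, r] with p a b using b.sub a.1.1
  · filter_upwards [k 1 one_pos, r] with p a b using b.mem a.1.1 (RH.spec a.1).1
  · filter_upwards [k 1 one_pos, (un_fst l O').eventually hR] with p a b
    exact (mem_ball_zero_iff.1 (b a.1.1)).le
  · refine Metric.tendsto_nhds.2 fun ε hε => (k (ε / 2) (by positivity)).mono fun p a => ?_
    rw [dist_zero_right]; linarith [a.2.1]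
  · refine Metric.tendsto_nhds.2 fun ε hε => (k (ε / 2) (by positivity)).mono fun p a => ?_
    rw [dist_zero_right]; linarith [a.2.2]

end FH

/-- along an ultrafilter, almost isometric linear maps converge to an orthogonal map -/
theorem exists_orth (𝒰 : Ultrafilter ι) {G G' : ι → MetricField n} {y y' : ι → En n}
    {L : ι → En n →L[ℝ] En n} (h : GC 𝒰 G y) (h' : GC 𝒰 G' y')
    (e : ∀ᶠ j in (𝒰 : Filter ι), ∀ X Y, bil (G j (y j)) X Y = bil (G' j (y' j)) (L j X) (L j Y)) :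
    ∃ A : En n ≃ₗᵢ[ℝ] En n, Tendsto L 𝒰 (𝓝 (A : En n →L[ℝ] En n)) := by
  have hb : ∀ᶠ j in (𝒰 : Filter ι), ‖L j‖ ≤ 2 := by
    filter_upwards [ev_quad h (ε := 1 / 10) (by norm_num), ev_quad h' (ε := 1 / 10) (by norm_num),
      e] with j a b c using norm_le_two a b c
  obtain ⟨B, -, hB⟩ := (isCompact_closedBall (0 : En n →L[ℝ] En n) 2).ultrafilter_le_nhds (𝒰.map L)
    (le_principal_iff.2 (mem_map.2 (hb.mono fun j hj => mem_closedBall_zero_iff.2 hj)))
  have hB' : Tendsto L 𝒰 (𝓝 B) := hB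
  obtain ⟨A, hA⟩ := I.exists_cl B fun x => by
    have h1 : Tendsto (fun j => ‖L j x‖ ^ 2) 𝒰 (𝓝 (‖B x‖ ^ 2)) :=
      (((ContinuousLinearMap.apply ℝ (En n) x).continuous.tendsto B).comp hB').norm.pow 2
    have h2 : Tendsto (fun j => ‖L j x‖ ^ 2) 𝒰 (𝓝 (‖x‖ ^ 2)) := by
      refine Metric.tendsto_nhds.2 fun ε hε => ?_
      have hδ : 0 < ε / (5 * ‖x‖ ^ 2 + 1) := by positivity
      filter_upwards [ev_quad h hδ, ev_quad h' hδ, e, hb] with j a b c d
      have a1 := abs_le.1 (a x x)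
      have b1 := abs_le.1 (b (L j x) (L j x))
      rw [real_inner_self_eq_norm_sq] at a1 b1
      rw [c] at a1
      have d1 : ‖L j x‖ ≤ 2 * ‖x‖ := ((L j).le_opNorm x).trans (by gcongr)
      have d2 : ‖L j x‖ * ‖L j x‖ ≤ 4 * ‖x‖ ^ 2 := by nlinarith [norm_nonneg (L j x)]
      have d3 : ε / (5 * ‖x‖ ^ 2 + 1) * (5 * ‖x‖ ^ 2 + 1) = ε := by field_simp
      have d4 := mul_le_mul_of_nonneg_left d2 hδ.le
      rw [Real.dist_eq, abs_lt]
      constructor <;> nlinarith [a1.1, a1.2, b1.1, b1.2]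
    exact (sq_eq_sq₀ (norm_nonneg _) (norm_nonneg _)).1 (tendsto_nhds_unique h1 h2)
  exact ⟨A, by rw [← hA] at hB'; exact hB'⟩

end Crest.Agent.N207.Gs

end
end

-- ▼ part N207/G/Gp2
section

/-!
# Row 207, block G (helper93): inverses of maps that converge smoothly to the identity
-/

set_option autoImplicit false
set_option linter.unusedSectionVars false
set_option maxSynthPendingDepth 3

open scoped ContDiff Manifold Topology
open Set Filter Metric Function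
open Crest.GeometryTopology.CoordMetric
open Crest.Agent.R202.Tens Crest.Agent.N207.Jt Crest.Agent.N207.Gs

noncomputable section

namespace Crest.Agent.N207.G

variable {n : ℕ} {ι : Type} {l : Filter ι}

theorem ue_c0 {X Y : Type} [NormedAddCommGroup X] [NormedSpace ℝ X] [NormedAddCommGroup Y]
    [NormedSpace ℝ Y] {u v : ι → X → Y} {S : ι → Set X} (h : UE l u v S) {ε : ℝ} (hε : 0 < ε) :
    ∀ᶠ j in l, ∀ z ∈ S j, ‖u j z - v j z‖ < ε := by
  have := Metric.tendsto_nhds.1 (GE.val h) ε hε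
  simpa only [dist_zero_right] using ev_un.1 this

theorem ue_c1 {h : ι → En n → En n} {S : ι → Set (En n)} (H : UE l h (fun _ z => z) S) {ε : ℝ}
    (hε : 0 < ε) :
    ∀ᶠ j in l, ∀ z ∈ S j, ‖fderiv ℝ (h j) z - ContinuousLinearMap.id ℝ (En n)‖ < ε := by
  have := ue_c0 (u := fun j => fderiv ℝ (h j)) (v := fun _ => fderiv ℝ fun z : En n => z)
    (GE.fderiv H) hε
  simpa only [fderiv_fun_id] using this

theorem surj_near {f : En n → En n} {w : En n} {θ : ℝ} (hθ : 0 < θ)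
    (hd : ∀ x ∈ closedBall w θ, DifferentiableAt ℝ f x)
    (h0 : ∀ x ∈ closedBall w θ, ‖f x - x‖ ≤ θ)
    (h1 : ∀ x ∈ closedBall w θ, ‖fderiv ℝ f x - ContinuousLinearMap.id ℝ (En n)‖ ≤ 1 / 2) :
    ∃ x ∈ closedBall w θ, f x = w := by
  have hm : MapsTo (fun x => w - (f x - x)) (closedBall w θ) (closedBall w θ) := fun x hx => by
    rw [mem_closedBall_iff_norm, sub_sub_cancel_left, norm_neg]; exact h0 x hx
  have hc : ContractingWith (1 / 2) (hm.restrict _ _ _) := by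
    refine ⟨by norm_num, LipschitzWith.of_dist_le_mul fun x x' => ?_⟩
    have := (convex_closedBall w θ).norm_image_sub_le_of_norm_hasFDerivWithin_le
      (f := fun x => f x - x) (fun z hz =>
        ((hd z hz).hasFDerivAt.sub (hasFDerivAt_id z)).hasFDerivWithinAt) h1 x.2 x'.2
    change dist (w - (f x - x)) (w - (f x' - x')) ≤ _
    rw [dist_eq_norm, sub_sub_sub_cancel_left, Subtype.dist_eq, dist_eq_norm, norm_sub_rev x.1]
    push_cast
    exact this
  obtain ⟨x, hx, hf, -⟩ := hc.exists_fixedPoint' isClosed_closedBall.isComplete hm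
    (mem_closedBall_self hθ.le) (edist_ne_top _ _)
  refine ⟨x, hx, ?_⟩
  have : w - (f x - x) = x := hf
  rw [sub_eq_iff_eq_add, add_sub_cancel] at this
  exact this.symm

/-- **inverses** -/
theorem invl {h : ι → En n → En n} {O O2 W : Set (En n)} {θ : ℝ} (hθ : 0 < θ) (hO2 : IsOpen O2)
    (t1 : ∀ x ∈ O2, closedBall x θ ⊆ O) (t2 : ∀ w ∈ W, closedBall w θ ⊆ O2)
    (hb : ∃ C, ∀ x ∈ O2, ‖x‖ ≤ C) (H : UE l h (fun _ z => z) fun _ => O) :
    ∃ S : ι → En n → En n, (∀ᶠ j in l, InjOn (h j) O2 ∧ ∀ w ∈ W, S j w ∈ O2 ∧ h j (S j w) = w) ∧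
      UE l S (fun _ z => z) fun _ => W := by
  have s1 : O2 ⊆ O := fun x hx => t1 x hx (mem_closedBall_self hθ.le)
  have s2 : W ⊆ O2 := fun x hx => t2 x hx (mem_closedBall_self hθ.le)
  set S : ι → En n → En n := fun j => invFunOn (h j) O2 with hS
  have key : ∀ᶠ j in l, InjOn (h j) O2 ∧ ∀ w ∈ W, (S j w ∈ O2 ∧ h j (S j w) = w) ∧
      ContDiffAt ℝ ∞ (S j) w ∧ fderiv ℝ (S j) =ᶠ[𝓝 w]
        fun z => ContinuousLinearMap.inverse (fderiv ℝ (h j) (S j z)) := by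
    filter_upwards [(ub_iff.1 H.left).1, ue_c0 H (half_pos hθ), ue_c1 H (ε := 1 / 2) (by norm_num)]
      with j a b c
    have hi : InjOn (h j) O2 := fun x hx y hy e => by
      refine injOn_of_near (convex_closedBall x θ)
        (fun z hz => (a z (t1 x hx hz)).differentiableAt infty_ne)
        (fun z hz => (c z (t1 x hx hz)).le) (mem_closedBall_self hθ.le) ?_ e
      have b1 := b x (s1 hx)
      have b2 := b y (s1 hy)
      have := norm_sub_le_norm_sub_add_norm_sub y (h j y) x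
      rw [norm_sub_rev y (h j y), ← e] at this
      rw [← e] at b2
      rw [mem_closedBall_iff_norm]; linarith
    refine ⟨hi, fun w hw => ?_⟩
    obtain ⟨x, hx, rfl⟩ := surj_near hθ
      (fun z hz => (a z (s1 (t2 w hw hz))).differentiableAt infty_ne)
      (fun z hz => (b z (s1 (t2 w hw hz))).le.trans (half_le_self hθ.le))
      fun z hz => (c z (s1 (t2 w hw hz))).le
    obtain ⟨S', V, hV, hxV, -, hs, hm⟩ := exists_loc_inv hO2 (fun z hz => a z (s1 hz))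
      (fun z hz => inj_of_near (c z (s1 hz)).le) (t2 _ hw hx)
    have e : ∀ z ∈ V, S j z = S' z := fun z hz =>
      hi (invFunOn_mem ⟨_, hm z hz⟩) (hm z hz).1 ((invFunOn_eq ⟨_, hm z hz⟩).trans (hm z hz).2.symm)
    have sm : ∀ z ∈ V, ContDiffAt ℝ ∞ (S j) z := fun z hz =>
      (hs.contDiffAt (hV.mem_nhds hz)).congr_of_eventuallyEq (mem_of_superset (hV.mem_nhds hz) e)
    have hm' : ∀ z ∈ V, S j z ∈ O2 ∧ h j (S j z) = z := fun z hz => e z hz ▸ hm z hz
    refine ⟨hm' _ hxV, sm _ hxV, mem_of_superset (hV.mem_nhds hxV) fun z hz => ?_⟩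
    have i1 := inj_of_near (c _ (s1 (hm' z hz).1)).le
    have d1 := ((a _ (s1 (hm' z hz).1)).differentiableAt infty_ne).hasFDerivAt.comp z
      ((sm z hz).differentiableAt infty_ne).hasFDerivAt
    have d2 : HasFDerivAt (h j ∘ S j) (ContinuousLinearMap.id ℝ (En n)) z :=
      (hasFDerivAt_id z).congr_of_eventuallyEq
        (mem_of_superset (hV.mem_nhds hz) fun u hu => (hm' u hu).2)
    have d3 := d1.unique d2
    show fderiv ℝ (S j) z = ContinuousLinearMap.inverse (fderiv ℝ (h j) (S j z))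
    rw [← eqv_coe _ i1, ContinuousLinearMap.inverse_equiv]
    refine ContinuousLinearMap.ext fun X => ?_
    exact ((eqv _ i1).eq_symm_apply).2 (congrArg (fun L : En n →L[ℝ] En n => L X) d3)
  refine ⟨S, key.mono fun j a => ⟨a.1, fun w hw => (a.2 w hw).1⟩, ?_⟩
  obtain ⟨C, hC⟩ := hb
  set F := un l fun _ => W with hF
  have k1 : ∀ᶠ p in F, (S p.1 p.2 ∈ O2 ∧ h p.1 (S p.1 p.2) = p.2) ∧
      ContDiffAt ℝ ∞ (S p.1) p.2 ∧ fderiv ℝ (S p.1) =ᶠ[𝓝 p.2]
        fun z => ContinuousLinearMap.inverse (fderiv ℝ (h p.1) (S p.1 z)) :=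
    ev_un.2 (key.mono fun j a => a.2)
  have b1 : ∀ᶠ p in F, ‖p.2‖ ≤ C := (un_mem l _).mono fun p a => hC _ (s2 a)
  have b2 : ∀ᶠ p in F, ‖S p.1 p.2‖ ≤ C := k1.mono fun p a => hC _ a.1.1
  have g0 : GE F (fun p => h p.1) (fun p => S p.1 p.2) (fun _ z => z) fun p => S p.1 p.2 :=
    H.at (un_fst _ _) (k1.mono fun p a => s1 a.1.1)
  have g1 : GE F (fun p y => ContinuousLinearMap.inverse (fderiv ℝ (h p.1) y)) (fun p => S p.1 p.2)
      (fun _ _ => ContinuousLinearMap.id ℝ (En n)) fun p => S p.1 p.2 := by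
    have := g0.fderiv.inverse (c := 1 / 2) (by norm_num) (by
      filter_upwards [k1, (un_fst _ _).eventually (ue_c1 H (ε := 1 / 2) (by norm_num))] with p a b
      exact lower_of_near (b _ (s1 a.1.1)).le) (Eventually.of_forall fun p y => by
        rw [fderiv_fun_id, ContinuousLinearMap.id_apply]; linarith [norm_nonneg y])
    simpa only [fderiv_fun_id, ContinuousLinearMap.inverse_id] using this
  have hid : GB F (fun _ (q : En n × En n) => q) fun p => (p.2, S p.1 p.2) :=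
    GB.id ⟨max C C, by filter_upwards [b1, b2] with p a b using max_le_max a b⟩
  have g2 : GB F (fun p => S p.1) Prod.snd :=
    GB.boot (Ψ := fun p q => ContinuousLinearMap.inverse (fderiv ℝ (h p.1) q.2)) ⟨C, b1⟩ ⟨C, b2⟩
      (k1.mono fun p a => a.2.1)
      (GB.comp (g := fun p y => ContinuousLinearMap.inverse (fderiv ℝ (h p.1) y)) g1.left
        (hid.smooth (Φ := fun q => q.2) (by fun_prop))) (k1.mono fun p a => a.2.2)
  refine ge_of_fderiv g2 (GB.id ⟨C, b1⟩) ?_ ?_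
  · refine (by simpa using g0.val.neg : Tendsto (fun p => S p.1 p.2 - h p.1 (S p.1 p.2)) F
      (𝓝 0)).congr' (k1.mono fun p a => ?_)
    simp only [a.1.2]
  · exact ((g1.comp g2.ge).congr_left (k1.mono fun p a => ⟨rfl, a.2.2⟩)).congr_right
      (Eventually.of_forall fun p => ⟨rfl, Eventually.of_forall fun y => fderiv_fun_id⟩)

end Crest.Agent.N207.G

end
end

-- ▼ part N207/G/Fd
section

/-!
# Row 207, block G (helper25): the leaves of `ONE1`, along a filter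
-/

set_option autoImplicit false
set_option linter.unusedSectionVars false
set_option maxSynthPendingDepth 3

open scoped ContDiff Manifold Topology
open Set Filter Metric
open Crest.GeometryTopology.CoordMetric
open Crest.Agent.R202.Tens Crest.Agent.N207.Jt

noncomputable section

namespace Crest.Agent.N207.Gs

variable {M : Type*} [TopologicalSpace M] [ChartedSpace E4 M] [IsManifold 𝓘(ℝ, E4) ∞ M]
  [T3Space M] [ConnectedSpace M] [MeasurableSpace M] [BorelSpace M] {ι : Type}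

/-- asymptotically conical along the filter -/
structure In (l : Filter ι) (g : ι → Met 4 M) (z : ι → M) (b : ι → M → ℝ) (κ : ℝ) : Prop where
  pos : 0 < κ
  ac : ∀ δ > 0, ∀ᶠ j in l, AC (g j) (z j) (b j) 1 δ κ

/-- good parametrisations on `U` -/
structure Gd (l : Filter ι) (g : ι → Met 4 M) (z : ι → M) (b : ι → M → ℝ) (Ψ : ι → E4 → M)
    (U : Set E4) : Prop where
  par : ∀ᶠ j in l, Par (Ψ j) U
  mc : MC l (fun j => (g j).pm (Ψ j)) fun _ => U
  sw : ∀ ε > 0, ∀ᶠ j in l, ∀ y ∈ U, |(g j).d (z j) (Ψ j y) - ‖y‖| ≤ ε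
  db : ∀ ε > 0, ∀ᶠ j in l, ∀ y ∈ U,
    ‖fderiv ℝ (fun x => b j (Ψ j x)) y - (2 : ℝ) • innerSL ℝ y‖ ≤ ε

/-- the points of the ball of radius `R` that are visible from `e` -/
def Dm (e : E4) (s R : ℝ) : Set E4 :=
  {y | ‖y‖ < R ∧ ∃ v : E4, ‖v‖ ≤ 3 ∧ s < inner ℝ v e ∧ s < inner ℝ v y}

variable (M) in
/-- leaf: the direction of the gradient of `b` -/
def DIR : Prop :=
  ∀ {ι : Type} (𝒰 : Ultrafilter ι) (g : ι → Met 4 M) (z : ι → M) (b : ι → M → ℝ) (κ : ℝ)
    (p : ι → M) (Φ : ι → E4 → M), In 𝒰 g z b κ → (∀ j, F.IsExp (g j) (p j) (Φ j)) →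
    Tendsto (fun j => (g j).d (z j) (p j)) 𝒰 (𝓝 1) → ∃ e : E4, ‖e‖ = 1 ∧
      Tendsto (fun j => fderiv ℝ (fun y => b j (Φ j y)) 0) 𝒰 (𝓝 ((2 : ℝ) • innerSL ℝ e))

variable (M) in
/-- leaf: the exponential map is good on the visible region -/
def LONG : Prop :=
  ∀ {ι : Type} (l : Filter ι) (g : ι → Met 4 M) (z : ι → M) (b : ι → M → ℝ) (κ : ℝ)
    (p : ι → M) (Φ : ι → E4 → M) (e : E4), In l g z b κ → (∀ j, F.IsExp (g j) (p j) (Φ j)) →
    Tendsto (fun j => (g j).d (z j) (p j)) l (𝓝 1) → ‖e‖ = 1 →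
    Tendsto (fun j => fderiv ℝ (fun y => b j (Φ j y)) 0) l (𝓝 ((2 : ℝ) • innerSL ℝ e)) →
    ∀ s R : ℝ, 0 < s → s < 1 → 1 < R → Gd l g z b (fun j y => Φ j (y - e)) (Dm e s R)

variable (M) in
/-- leaf: local injectivity at a fixed scale -/
def LIS : Prop :=
  ∀ {ι : Type} (l : Filter ι) (g : ι → Met 4 M) (z : ι → M) (b : ι → M → ℝ) (κ : ℝ)
    (Ψ : ι → E4 → M) (U U' : Set E4) (a R r : ℝ), In l g z b κ → Gd l g z b Ψ U → 0 < a → 0 < r →
    (∀ y ∈ U, a ≤ ‖y‖ ∧ ‖y‖ ≤ R) → (∀ y ∈ U', ball y r ⊆ U) →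
    ∃ ρ > 0, ∀ᶠ j in l, LI (Ψ j) U' ρ

variable (M) in
/-- leaf: a good parametrisation of every shell -/
def SHL : Prop :=
  ∀ {ι : Type} (𝒰 : Ultrafilter ι) (g : ι → Met 4 M) (z : ι → M) (b : ι → M → ℝ) (κ : ℝ),
    In 𝒰 g z b κ → ∀ a R : ℝ, 0 < a → a < R → ∃ Ψ, Gd 𝒰 g z b Ψ (Sk.shell a R)

variable (M) in
/-- leaf: the deck group -/
def DECK : Prop :=
  ∀ {ι : Type} (𝒰 : Ultrafilter ι) (g : ι → Met 4 M) (z : ι → M) (b : ι → M → ℝ) (κ : ℝ),
    In 𝒰 g z b κ → ∀ R : ℝ, 2 ≤ R → ∃ (Γ : Subgroup (E4 ≃ₗᵢ[ℝ] E4)) (Ψ : ι → E4 → M),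
      Finite Γ ∧ (∀ γ ∈ Γ, ∀ x : E4, x ≠ 0 → γ x = x → γ = 1) ∧ Gd 𝒰 g z b Ψ (Sk.shell (1 / R) R) ∧
      ∀ᶠ j in (𝒰 : Filter ι), ∀ x ∈ Sk.shell (1 / R) R, ∀ y ∈ Sk.shell (1 / R) R,
        Ψ j x = Ψ j y ↔ ∃ γ ∈ Γ, γ x = y

variable {l : Filter ι} {g : ι → Met 4 M} {z : ι → M} {b : ι → M → ℝ} {Ψ : ι → E4 → M}
  {U : Set E4}



theorem Gd.mono (h : Gd l g z b Ψ U) {V : Set E4} (hV : IsOpen V) (hVU : V ⊆ U) :
    Gd l g z b Ψ V :=
  ⟨h.par.mono fun _ hj => par_mono hj hV hVU, h.mc.mono (Eventually.of_forall fun _ => hVU),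
    fun ε hε => (h.sw ε hε).mono fun _ hj y hy => hj y (hVU hy),
    fun ε hε => (h.db ε hε).mono fun _ hj y hy => hj y (hVU hy)⟩

theorem isOpen_shell (a R : ℝ) : IsOpen (Sk.shell a R) :=
  (isOpen_lt continuous_const continuous_norm).inter (isOpen_lt continuous_norm continuous_const)

theorem isOpen_dm (e : E4) (s R : ℝ) : IsOpen (Dm e s R) := by
  refine isOpen_iff_mem_nhds.2 fun y ⟨h1, v, h2, h3, h4⟩ => ?_
  have c : Continuous fun w : E4 => (inner ℝ v w : ℝ) := by fun_prop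
  filter_upwards [continuous_norm.continuousAt.eventually (gt_mem_nhds h1),
    c.continuousAt.eventually (lt_mem_nhds h4)] with w a b using ⟨a, v, h2, h3, b⟩

end Crest.Agent.N207.Gs

end
namespace Crest.Agent.N207.Gs.In
end Crest.Agent.N207.Gs.In
end

-- ▼ part N207/G/Deck
section

/-!
# Row 207, block G (helper93): the deck group, `DECK` from `SHL` and `LIS`
-/

set_option autoImplicit false
set_option linter.unusedSectionVars false
set_option maxSynthPendingDepth 3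

open scoped ContDiff Manifold Topology
open Set Filter Metric Function
open Crest.GeometryTopology.CoordMetric
open Crest.Agent.R202.Tens Crest.Agent.N207.Jt Crest.Agent.N207.Gs

noncomputable section

namespace Crest.Agent.N207.G

section gen

variable {n : ℕ} {M : Type*} [TopologicalSpace M] [ChartedSpace (En n) M]
  [IsManifold 𝓘(ℝ, En n) ∞ M] [T3Space M] [ConnectedSpace M] {ι : Type}
  {l : Filter ι} {m : ι → Met n M} {Φ : ι → En n → M} {U K O : Set (En n)} {ρ r : ℝ}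
  {A : En n ≃ₗᵢ[ℝ] En n}

theorem GH.tr_near (h : GH l m Φ U ρ) (hA : InG l Φ U A) (hK : IsCompact K) (hKU : K ⊆ U)
    (hO : IsOpen O) (hOK : O ⊆ K) (hr : 0 < r) (hrρ : r ≤ ρ) (hth : ∀ y ∈ O, closedBall y r ⊆ U)
    {ε : ℝ} (hε : 0 < ε) : ∀ᶠ j in l, ∀ w ∈ O, w ∈ trD (Φ j) (Φ j) A r O ∧
      ‖tr (Φ j) (Φ j) A r w - A w‖ ≤ ε ∧
      ‖fderiv ℝ (tr (Φ j) (Φ j) A r) w - (A : En n →L[ℝ] En n)‖ ≤ ε := by
  filter_upwards [h.rh A hO hr hrρ hth, hA K hK hKU (min ε (r / 8)) (by positivity)] with j H a w hw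
  obtain ⟨y, hy, L, e1, e2, e3, e4⟩ := a w (hOK hw)
  have k : ‖y - A w‖ < r / 4 := by linarith [min_le_right ε (r / 8)]
  have h0 : w ∈ trD (Φ j) (Φ j) A r O := ⟨hw, y, k, e2⟩
  have e5 := H.eq hw k e2
  have e6 : fderiv ℝ (tr (Φ j) (Φ j) A r) w = L := IsD.unique H.p' hy (e5 ▸ H.isD h0) e3
  rw [e6, e5]
  exact ⟨h0, e1.trans (min_le_left _ _), e4.trans (min_le_left _ _)⟩

theorem GH.tr_ue (h : GH l m Φ U ρ) (hA : InG l Φ U A) (hK : IsCompact K) (hKU : K ⊆ U)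
    (hO : IsOpen O) (hOK : O ⊆ K) (hr : 0 < r) (hrρ : r ≤ ρ) (hth : ∀ y ∈ O, closedBall y r ⊆ U) :
    UE l (fun j => tr (Φ j) (Φ j) A r) (fun _ z => A z) fun _ => O := by
  have k : ∀ {ε : ℝ}, 0 < ε → ∀ᶠ p in un l fun _ => O, p.2 ∈ trD (Φ p.1) (Φ p.1) A r O ∧
      ‖tr (Φ p.1) (Φ p.1) A r p.2 - A p.2‖ ≤ ε ∧
      ‖fderiv ℝ (tr (Φ p.1) (Φ p.1) A r) p.2 - (A : En n →L[ℝ] En n)‖ ≤ ε := fun hε =>
    ev_un.2 (h.tr_near hA hK hKU hO hOK hr hrρ hth hε)
  have H := (un_fst l fun _ => O).eventually (h.rh A hO hr hrρ hth)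
  obtain ⟨R, hR⟩ := h.bd
  have hU := (un_mem l fun _ => O).mono fun p a => hKU (hOK a)
  refine ge_iso (A := fun _ => A) ?_ (h.mc.at (un_fst _ _) hU) (h.mc.at (un_fst _ _) ?_)
    ⟨R, hU.mono fun p a => hR _ a⟩ (Metric.tendsto_nhds.2 fun ε hε => ?_)
    (Metric.tendsto_nhds.2 fun ε hε => ?_)
  · filter_upwards [H, k one_pos] with p a b using ⟨_, _, b.1, a.pull (m p.1)⟩
  · filter_upwards [H, k one_pos] with p a b using a.mem b.1.1 (RH.spec b.1).1
  · filter_upwards [k (half_pos hε)] with p a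
    rw [dist_zero_right]; exact a.2.1.trans_lt (half_lt_self hε)
  · filter_upwards [k (half_pos hε)] with p a
    rw [dist_zero_right]; exact a.2.2.trans_lt (half_lt_self hε)

/-- **the equivariant reparametrisation** -/
theorem GH.deck {𝒰 : Ultrafilter ι} (h : GH (𝒰 : Filter ι) m Φ U ρ) {O2 W : Set (En n)} {θ : ℝ}
    (hθ : 0 < θ) (hK : IsCompact K) (hKU : K ⊆ U) (hO : IsOpen O) (hOK : O ⊆ K)
    (hO2 : IsOpen O2) (t0 : ∀ y ∈ O, closedBall y θ ⊆ U) (t1 : ∀ y ∈ O2, closedBall y θ ⊆ O)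
    (t2 : ∀ y ∈ W, closedBall y θ ⊆ O2) (i1 : ∀ A : En n ≃ₗᵢ[ℝ] En n, ∀ x ∈ O2, A x ∈ O2) :
    ∃ S : ι → En n → En n, UE (𝒰 : Filter ι) S (fun _ z => z) (fun _ => W) ∧
      ∀ᶠ j in (𝒰 : Filter ι), (∀ w ∈ W, S j w ∈ U) ∧ ∀ x ∈ W, ∀ y ∈ W,
        Φ j (S j x) = Φ j (S j y) ↔ ∃ γ ∈ h.grp, γ x = y := by
  have : Finite h.grp := h.finite
  have := Fintype.ofFinite h.grp
  have s1 : O2 ⊆ O := fun x hx => t1 x hx (mem_closedBall_self hθ.le)
  set r := min ρ θ with hr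
  have hr0 : 0 < r := lt_min h.pos hθ
  have hr1 : r ≤ θ := min_le_right _ _
  have hth : ∀ y ∈ O, closedBall y r ⊆ U := fun y hy =>
    (closedBall_subset_closedBall hr1).trans (t0 y hy)
  set T : h.grp → ι → En n → En n := fun γ j => tr (Φ j) (Φ j) γ.1 r with hT
  set f : ι → En n → En n := fun j z =>
    (Fintype.card h.grp : ℝ)⁻¹ • ∑ γ : h.grp, (γ.1⁻¹ : En n ≃ₗᵢ[ℝ] En n) (T γ j z) with hf
  have hfe : UE (𝒰 : Filter ι) f (fun _ z => z) fun _ => O := by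
    have := (GE.const' (Fintype.card h.grp : ℝ)⁻¹).smul (GE.sum Finset.univ fun γ : h.grp =>
      fun _ => GE.clm ((γ.1⁻¹ : En n ≃ₗᵢ[ℝ] En n) : En n →L[ℝ] En n)
        (h.tr_ue γ.2 hK hKU hO hOK hr0 (min_le_left _ _) hth))
    refine this.congr_right (Eventually.of_forall fun p => ⟨rfl, Eventually.of_forall fun y => ?_⟩)
    have e : ∀ γ : h.grp, ((γ.1⁻¹ : En n ≃ₗᵢ[ℝ] En n) : En n →L[ℝ] En n) (γ.1 y) = y :=
      fun γ => γ.1.symm_apply_apply y
    simp only [e]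
    simp [← Nat.cast_smul_eq_nsmul ℝ, smul_smul]
  obtain ⟨R, hR⟩ := h.bd
  obtain ⟨S, hS, hSe⟩ := invl hθ hO2 t1 t2 ⟨R, fun x hx => hR x (hKU (hOK (s1 hx)))⟩ hfe
  refine ⟨S, hSe, ?_⟩
  filter_upwards [hS, ue_c0 hSe (ε := r / 16) (by positivity),
    eventually_all.2 fun γ : h.grp => h.rh γ.1 hO hr0 (min_le_left _ _) hth,
    eventually_all.2 fun γ : h.grp =>
      h.tr_near γ.2 hK hKU hO hOK hr0 (min_le_left _ _) hth (ε := r / 16) (by positivity),
    h.unif hK hKU (ε := r / 4) (by positivity)] with j ⟨a1, a2⟩ b c d e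
  have eqv : ∀ δ : h.grp, ∀ w ∈ O2, f j (T δ j w) = δ.1 (f j w) := fun δ w hw => by
    have d1 := d δ w (s1 hw)
    have hm : T δ j w ∈ O := t1 _ (i1 δ.1 w hw) (mem_closedBall_iff_norm.2 (by linarith [d1.2.1]))
    have hc : ∀ γ : h.grp, T γ j (T δ j w) = T (γ * δ) j w := fun γ => by
      have d2 := d γ _ hm
      refine ((c (γ * δ)).eq (s1 hw) ?_ ((RH.spec d2.1).2.trans (RH.spec d1.1).2)).symm
      have := norm_sub_le_norm_sub_add_norm_sub (T γ j (T δ j w)) (γ.1 (T δ j w)) (γ.1 (δ.1 w))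
      rw [← map_sub, γ.1.norm_map] at this
      show ‖T γ j (T δ j w) - γ.1 (δ.1 w)‖ < r / 4
      linarith [d1.2.1, d2.2.1]
    simp only [hf, hc, map_smul, map_sum]
    congr 1
    refine Fintype.sum_equiv (Equiv.mulRight δ) _ _ fun γ => ?_
    simp
  refine ⟨fun w hw => hKU (hOK (s1 (a2 w hw).1)), fun x hx y hy => ⟨fun k => ?_, ?_⟩⟩
  · obtain ⟨A, hA, k1⟩ := e _ (hOK (s1 (a2 x hx).1)) _ (hKU (hOK (s1 (a2 y hy).1))) k.symm
    have k2 := eqv ⟨A, hA⟩ _ (a2 x hx).1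
    rw [show T ⟨A, hA⟩ j (S j x) = S j y from (c ⟨A, hA⟩).eq (s1 (a2 x hx).1) k1 k.symm,
      (a2 x hx).2, (a2 y hy).2] at k2
    exact ⟨A, hA, k2.symm⟩
  · rintro ⟨A, hA, rfl⟩
    have d1 := d ⟨A, hA⟩ _ (s1 (a2 x hx).1)
    have hm : T ⟨A, hA⟩ j (S j x) ∈ O2 := t2 _ hy (mem_closedBall_iff_norm.2 (by
      have := norm_sub_le_norm_sub_add_norm_sub (T ⟨A, hA⟩ j (S j x)) (A (S j x)) (A x)
      rw [← map_sub, A.norm_map] at this
      linarith [d1.2.1, b x hx]))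
    have k2 := eqv ⟨A, hA⟩ _ (a2 x hx).1
    rw [(a2 x hx).2] at k2
    rw [← a1 hm (a2 _ hy).1 (k2.trans (a2 _ hy).2.symm)]
    exact (RH.spec d1.1).2.symm

theorem isD_fderiv {Ψ : En n → M} (h : Par Ψ U) {f : M → ℝ} (hf : Sm n f) {x y : En n}
    (hx : x ∈ U) (hy : y ∈ U) (e : Ψ y = Ψ x) {L : En n →L[ℝ] En n} (hL : IsD Ψ Ψ x y L)
    (X : En n) : fderiv ℝ (fun z => f (Ψ z)) x X = fderiv ℝ (fun z => f (Ψ z)) y (L X) := by
  obtain ⟨T, V, hV, hxV, -, rfl, hT, hm⟩ := exists_trans0 h h hx hy e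
  have hd := (hT.contDiffAt (hV.mem_nhds hxV)).differentiableAt infty_ne
  have e1 : Ψ =ᶠ[𝓝 x] fun z => Ψ (T z) :=
    mem_of_superset (hV.mem_nhds hxV) fun z hz => (hm z hz).2.symm
  rw [IsD.unique h hy hL (isD_of (par_md h hy) hd e1)]
  have h1 : DifferentiableAt ℝ (fun z => f (Ψ z)) (T x) :=
    (contMDiffAt_iff_contDiffAt.1 ((hf _).comp _ (par_at h hy))).differentiableAt infty_ne
  have e2 : (fun z => f (Ψ z)) =ᶠ[𝓝 x] (fun z => f (Ψ z)) ∘ T := e1.mono fun z hz => congrArg f hz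
  rw [e2.fderiv_eq, fderiv_comp x h1 hd]
  rfl

end gen

variable {M : Type*} [TopologicalSpace M] [ChartedSpace E4 M] [IsManifold 𝓘(ℝ, E4) ∞ M]
  [T3Space M] [ConnectedSpace M] [MeasurableSpace M] [BorelSpace M] {ι : Type}
  {l : Filter ι} {g : ι → Met 4 M} {z : ι → M} {b : ι → M → ℝ} {Ψ : ι → E4 → M} {U : Set E4}

open Sk

theorem shell_th {a c θ : ℝ} {x : E4} (hx : x ∈ shell a c) :
    closedBall x θ ⊆ shell (a - θ) (c + θ) := fun y hy => by
  have := abs_le.1 ((abs_norm_sub_norm_le y x).trans (mem_closedBall_iff_norm.1 hy))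
  exact ⟨by linarith [hx.1, this.1], by linarith [hx.2, this.2]⟩

theorem gd_rc {κ : ℝ} (hi : In l g z b κ) (h : Gd l g z b Ψ U) {e : ℝ} (he : 0 < e) :
    ∀ᶠ j in l, ∀ x ∈ U, ∀ y ∈ U, ∀ L : E4 →L[ℝ] E4, Ψ j y = Ψ j x →
      IsD (Ψ j) (Ψ j) x y L → ∀ X, |inner ℝ y (L X) - inner ℝ x X| ≤ e * ‖X‖ := by
  filter_upwards [hi.ac 1 one_pos, h.par, h.db (e / 2) (half_pos he), ev_ne h.mc one_pos]
    with j a p d N x hx y hy L k hL X
  have h1 := isD_fderiv p a.sm hx hy k hL X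
  have h2 : ‖L X‖ ≤ 2 * ‖X‖ :=
    L.le_of_opNorm_le (norm_le_two (N x hx).1 (N y hy).1 (hL.bil (g j) k)) X
  have h3 := (fderiv ℝ (fun x => b j (Ψ j x)) x - (2 : ℝ) • innerSL ℝ x).le_of_opNorm_le (d x hx) X
  have h4 := (fderiv ℝ (fun x => b j (Ψ j x)) y - (2 : ℝ) • innerSL ℝ y).le_of_opNorm_le
    (d y hy) (L X)
  simp only [sub_apply, smul_apply, innerSL_apply_apply,
    smul_eq_mul, Real.norm_eq_abs, abs_le] at h3 h4
  have h5 : e / 2 * ‖L X‖ ≤ e / 2 * (2 * ‖X‖) := by gcongr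
  have h6 : 0 ≤ e * ‖X‖ := by positivity
  rw [abs_le]
  constructor <;> linarith [h3.1, h3.2, h4.1, h4.2]

/-- reparametrisation by maps converging to the identity -/
theorem gd_comp {κ : ℝ} (hi : In l g z b κ) (h : Gd l g z b Ψ U) {S : ι → E4 → E4} {W : Set E4}
    (hW : IsOpen W) {R : ℝ} (hR : ∀ y ∈ W, ‖y‖ ≤ R) (hR0 : 0 ≤ R)
    (hS : UE l S (fun _ y => y) fun _ => W) (hm : ∀ᶠ j in l, ∀ w ∈ W, S j w ∈ U) :
    Gd l g z b (fun j y => Ψ j (S j y)) W := by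
  have hs := (ub_iff.1 hS.left).1
  refine ⟨?_, ?_, fun ε hε => ?_, fun ε hε => ?_⟩
  · filter_upwards [h.par, hs, hm, ue_c1 hS (ε := 1 / 2) (by norm_num)] with j a c d e
    exact par_comp a hW (fun y hy => (c y hy).contDiffWithinAt) d
      fun y hy => inj_of_near (e y hy).le
  · refine gc_pull (A := fun _ => 1) (T := fun p => S p.1) (h.mc.at (un_fst _ _) (ev_un.2 hm))
      ((GE.fderiv hS).congr_right (Eventually.of_forall fun p =>
        ⟨rfl, Eventually.of_forall fun y => fderiv_fun_id.symm⟩)) hS.left (ev_un.2 ?_)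
    filter_upwards [h.par, hs, hm] with j a c d y hy
    filter_upwards [hW.mem_nhds hy] with w hw
    exact pm_comp_bil (g j) (par_md a (d w hw)) ((c w hw).differentiableAt infty_ne)
  · filter_upwards [h.sw _ (half_pos hε), ue_c0 hS (half_pos hε), hm] with j a c d y hy
    have h1 := abs_le.1 (a _ (d y hy))
    have h2 := abs_le.1 ((abs_norm_sub_norm_le (S j y) y).trans (c y hy).le)
    rw [abs_le]
    constructor <;> linarith [h1.1, h1.2, h2.1, h2.2]
  · set η := min 1 (ε / (6 + 2 * R)) with hη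
    have h0 : 0 < η := by positivity
    have h1 : η ≤ 1 := min_le_left _ _
    have h2 : η * (6 + 2 * R) ≤ ε := (le_div_iff₀ (by positivity)).1 (min_le_right _ _)
    filter_upwards [hi.ac 1 one_pos, h.par, h.db η h0, hs, ue_c0 hS h0, ue_c1 hS h0, hm]
      with j a p d s c0 c1 e y hy
    have d1 : DifferentiableAt ℝ (fun x => b j (Ψ j x)) (S j y) :=
      (contMDiffAt_iff_contDiffAt.1 ((a.sm _).comp _ (par_at p (e y hy)))).differentiableAt infty_ne
    rw [show (fun x => b j (Ψ j (S j x))) = (fun x => b j (Ψ j x)) ∘ S j from rfl,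
      fderiv_comp y d1 ((s y hy).differentiableAt infty_ne)]
    refine ContinuousLinearMap.opNorm_le_bound _ hε.le fun X => ?_
    set Y := fderiv ℝ (S j) y X with hY
    have k1 : ‖Y - X‖ ≤ η * ‖X‖ :=
      (fderiv ℝ (S j) y - ContinuousLinearMap.id ℝ E4).le_of_opNorm_le (c1 y hy).le X
    have k2 : ‖Y‖ ≤ 2 * ‖X‖ := by nlinarith [norm_sub_norm_le Y X, norm_nonneg X]
    have k3 := (fderiv ℝ (fun x => b j (Ψ j x)) (S j y) - (2 : ℝ) • innerSL ℝ (S j y)
      ).le_of_opNorm_le (d _ (e y hy)) Y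
    have k4 := (abs_real_inner_le_norm (S j y - y) Y).trans
      (mul_le_mul (c0 y hy).le k2 (norm_nonneg _) h0.le)
    have k5 := (abs_real_inner_le_norm y (Y - X)).trans
      (mul_le_mul (hR y hy) k1 (norm_nonneg _) hR0)
    simp only [sub_apply, smul_apply, innerSL_apply_apply,
      smul_eq_mul, Real.norm_eq_abs, abs_le, inner_sub_left, inner_sub_right,
      ContinuousLinearMap.comp_apply, ← hY] at k3 k4 k5 ⊢
    have k6 : η * ‖Y‖ ≤ η * (2 * ‖X‖) := by gcongr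
    have k7 : η * (6 + 2 * R) * ‖X‖ ≤ ε * ‖X‖ := by gcongr
    constructor <;> nlinarith [k3.1, k3.2, k4.1, k4.2, k5.1, k5.2]

/-- **the deck group** -/
theorem deck (hS : SHL M) (hL : LIS M) : DECK M := by
  intro ι 𝒰 g z b κ hi R hR
  set θ : ℝ := 1 / R / 8 with hθ
  have hR0 : 0 < R := by linarith
  have h0 : 0 < θ := by positivity
  have h1 : 1 / R = 8 * θ := by rw [hθ]; ring
  have h2 : 1 / R < R := by rw [div_lt_iff₀ hR0]; nlinarith
  obtain ⟨Ψ, G0⟩ := hS 𝒰 g z b κ hi (1 / R - θ - θ - θ - θ) (R + θ + θ + θ + θ) (by linarith)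
    (by linarith)
  obtain ⟨ρ, hρ, li⟩ := hL 𝒰 g z b κ Ψ _ (shell (1 / R - θ - θ - θ) (R + θ + θ + θ))
    (1 / R - θ - θ - θ - θ) (R + θ + θ + θ + θ) θ hi G0 (by linarith) h0
    (fun y hy => ⟨hy.1.le, hy.2.le⟩) fun y hy => ball_subset_closedBall.trans (shell_th hy)
  have G := G0.mono (TR.isOpen_shell (1 / R - θ - θ - θ) (R + θ + θ + θ))
    (TR.shell_mono (by linarith) (by linarith))
  have H : GH (𝒰 : Filter ι) g Ψ (shell (1 / R - θ - θ - θ) (R + θ + θ + θ)) ρ :=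
    ⟨hρ, TR.isOpen_shell _ _, TR.shell_nonempty (by linarith) (by linarith),
      TR.shell_preconn (by linarith), fun A x hx => TR.shell_iso A hx, G.par, li, G.mc,
      ⟨_, fun y hy => hy.2.le⟩, fun e he => gd_rc hi G he⟩
  obtain ⟨S, s1, s2⟩ := H.deck (K := closedBall 0 (R + θ + θ) \ ball 0 (1 / R - θ - θ))
    (O := shell (1 / R - θ - θ) (R + θ + θ)) (O2 := shell (1 / R - θ) (R + θ))
    (W := shell (1 / R) R) h0 ((isCompact_closedBall _ _).diff isOpen_ball)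
    (fun x hx => by
      have a1 := mem_closedBall_zero_iff.1 hx.1
      have a2 := not_lt.1 (mt mem_ball_zero_iff.2 hx.2)
      exact ⟨by linarith, by linarith⟩)
    (TR.isOpen_shell _ _) (fun x hx => ⟨mem_closedBall_zero_iff.2 hx.2.le,
      fun a => absurd (mem_ball_zero_iff.1 a) (not_lt.2 hx.1.le)⟩) (TR.isOpen_shell _ _)
    (fun y hy => shell_th hy) (fun y hy => shell_th hy) (fun y hy => shell_th hy)
    fun A x hx => TR.shell_iso A hx
  refine ⟨H.grp, fun j y => Ψ j (S j y), H.finite, fun γ hγ x hx e => ?_,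
    gd_comp hi G (TR.isOpen_shell _ _) (fun y hy => hy.2.le) hR0.le s1 (s2.mono fun j a => a.1),
    s2.mono fun j a => a.2⟩
  have hn : ‖(R / ‖x‖) • x‖ = R := by
    rw [norm_smul, Real.norm_of_nonneg (by positivity), div_mul_cancel₀ _ (norm_ne_zero_iff.2 hx)]
  refine H.sep hγ inG_one (w := (R / ‖x‖) • x) ⟨by rw [hn]; linarith, by rw [hn]; linarith⟩ ?_
  simpa [e] using hρ

end Crest.Agent.N207.G

end
end

-- ▼ part N207/G/One
section

/-!
# Row 207, block G (helper11): `ONE1` from `DECK`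
-/

set_option autoImplicit false
set_option linter.unusedSectionVars false

open scoped ContDiff Manifold Topology
open Set Filter Metric
open Crest.GeometryTopology.CoordMetric
open Crest.Agent.N207.Jt Crest.Agent.N207.Sk

noncomputable section

namespace Crest.Agent.N207.Gs

variable {M : Type*} [TopologicalSpace M] [ChartedSpace E4 M] [IsManifold 𝓘(ℝ, E4) ∞ M]
  [T3Space M] [ConnectedSpace M] [MeasurableSpace M] [BorelSpace M] {ι : Type}

theorem ac_mono1 {g : Met 4 M} {z : M} {b : M → ℝ} {δ δ' κ : ℝ} (h : AC g z b 1 δ κ) (h0 : 0 < δ)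
    (hδ : δ ≤ δ') : AC g z b 1 δ' κ := by
  have h1 : ∀ {x}, δ' * 1 ≤ g.d z x → δ * 1 ≤ g.d z x := fun hx => by linarith
  have h2 : ∀ {x}, δ' * 1 ≤ g.d z x → δ' * g.d z x ≤ 1 → δ * g.d z x ≤ 1 := fun hx hy =>
    (mul_le_mul_of_nonneg_right hδ (by linarith)).trans hy
  refine ⟨h.sm, fun k hk x hx hy => (h.rm k (le_trans (by gcongr) hk) x (h1 hx) (h2 hx hy)).trans
    (by gcongr), fun x hx hy => (h.hess x (h1 hx) (h2 hx hy)).trans hδ,
    fun x hx hy => (h.gam x (h1 hx) (h2 hx hy)).trans (by gcongr),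
    fun x hx hy => (h.val x (h1 hx) (h2 hx hy)).trans (by gcongr), h.vol, h.ne⟩

theorem mc_jg {l : Filter ι} {G : ι → MetricField 4} {U : Set E4} (h : MC l G fun _ => U) (m : ℕ)
    {L η : ℝ} (hL : 1 ≤ L) (hη : 0 < η) :
    ∀ᶠ j in l, ∀ x ∈ U, ‖x‖ ≤ L → JG m (G j) x ‖x‖ η := by
  have h1 : ∀ k a b, ∀ᶠ j in l, ∀ x ∈ U, ‖iteratedFDeriv ℝ k (dv (G j) a b) x‖ < η / L ^ m :=
    fun k a b => by
      filter_upwards [UE.ev (u := fun j y => G j y a b)
        (v := fun _ _ => (1 : Matrix (Fin 4) (Fin 4) ℝ) a b) (h a b) k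
        (show 0 < η / L ^ m by positivity), ev_un.1 (h a b).left.sm] with j h2 h3 x hx
      rw [show dv (G j) a b = (fun y => G j y a b) - fun _ => (1 : Matrix (Fin 4) (Fin 4) ℝ) a b
        from rfl, iteratedFDeriv_sub_apply ((h3 x hx).of_le (by exact_mod_cast le_top))
          contDiffAt_const]
      exact h2 x hx
  filter_upwards [(eventually_all_finite (finite_le_nat m)).2 fun k _ =>
    eventually_all.2 fun a => eventually_all.2 fun b => h1 k a b] with j hj x hx hL' k hk a b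
  have h2 : ‖x‖ ^ k ≤ L ^ m :=
    (pow_le_pow_left₀ (norm_nonneg _) hL' k).trans (pow_le_pow_right₀ hL hk)
  exact (mul_le_mul (hj k hk a b x hx).le h2 (by positivity) (by positivity)).trans
    (div_mul_cancel₀ _ (by positivity)).le

theorem cn_sub {g : Met 4 M} {z : M} {Ψ : E4 → M} {L K : ℝ} (hL : 2 ≤ L) (hK : L ≤ K)
    (hC : Cn g z 1 L K) (hP : Par Ψ (shell (1 / (2 * K + 2)) (2 * K + 2)))
    (hs : ∀ y ∈ shell (1 / (2 * K + 2)) (2 * K + 2), |g.d z (Ψ y) - ‖y‖| ≤ 1 / (10 * K))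
    {p : M} (h1 : 1 / L ≤ g.d z p) (h2 : g.d z p ≤ L * 1) :
    p ∈ Ψ '' shell (1 / (2 * K + 2)) (2 * K + 2) := by
  obtain ⟨C, hc, hin, hout⟩ := hC
  have hK0 : 0 < K := by linarith
  have a1 : 1 / (2 * K + 2) < 1 / (2 * K) := by gcongr; linarith
  have a2 : 1 / (10 * K) ≤ 1 / (2 * K) := by gcongr; norm_num
  have a3 : 1 / (2 * K) ≤ 1 / 4 := by gcongr; linarith
  have a4 : 1 / K = 1 / (2 * K) + 1 / (2 * K) := by field_simp; norm_num
  set Z : Set E4 := closedBall 0 (K + 1) \ ball 0 (1 / (2 * K)) with hZ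
  have hZs : Z ⊆ shell (1 / (2 * K + 2)) (2 * K + 2) := fun y hy => by
    simp only [hZ, Set.mem_sdiff, mem_closedBall_zero_iff, mem_ball_zero_iff, not_lt] at hy
    exact ⟨by linarith [hy.2], by linarith [hy.1]⟩
  have hZc : IsClosed (Ψ '' Z) := (((isCompact_closedBall _ _).diff isOpen_ball).image_of_continuousOn
    (hP.sm.continuousOn.mono hZs)).isClosed
  by_contra hp
  have he : ‖(EuclideanSpace.single 0 1 : E4)‖ = 1 := by simp
  have hes : (EuclideanSpace.single 0 1 : E4) ∈ shell (1 / (2 * K + 2)) (2 * K + 2) :=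
    ⟨by rw [he]; linarith, by rw [he]; linarith⟩
  have h3 := abs_le.1 (hs _ hes)
  rw [he] at h3
  have a5 : 1 / L ≤ 1 / 2 := by gcongr
  obtain ⟨x, hx, ⟨y, hy, rfl⟩, hn⟩ := hc _ _ (par_isOpen hP hP.isOpen subset_rfl) hZc.isOpen_compl
    (fun x _ => by
      by_cases h : x ∈ Ψ '' Z
      · exact Or.inl (image_mono hZs h)
      · exact Or.inr h)
    ⟨_, hin _ (by linarith [h3.1]) (by linarith [h3.2]), mem_image_of_mem _ hes⟩
    ⟨p, hin p h1 h2, fun h => hp (image_mono hZs h)⟩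
  have h4 := abs_le.1 (hs y hy)
  have h5 := hout _ hx
  refine hn (mem_image_of_mem _ ?_)
  simp only [hZ, Set.mem_sdiff, mem_closedBall_zero_iff, mem_ball_zero_iff, not_lt]
  constructor <;> linarith [h4.1, h4.2, h5.1, h5.2]

theorem one1_of (hD : DECK M) : ONE1 M := by
  intro κ L K η m hκ hL hK hη
  by_contra hn
  push Not at hn
  choose g z b hA hC hP using fun j : ℕ => hn (1 / ((j : ℝ) + 1)) (by positivity)
  have hI : In (hyperfilter ℕ : Filter ℕ) g z b κ := ⟨hκ, fun δ hδ =>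
    ((tendsto_one_div_add_atTop_nhds_zero_nat.eventually (ge_mem_nhds hδ)).filter_mono
      Nat.hyperfilter_le_atTop).mono fun j hj => ac_mono1 (hA j) (by positivity) hj⟩
  obtain ⟨Γ, Ψ, hf, hfr, hG, hfib⟩ := hD (hyperfilter ℕ) g z b κ hI (2 * K + 2) (by linarith)
  have hL0 : 0 < L := by linarith
  have hK0 : 0 < K := by linarith
  have hs : shell (1 / L) L ⊆ shell (1 / (2 * K + 2)) (2 * K + 2) := fun y hy =>
    ⟨lt_of_le_of_lt (by gcongr; linarith) hy.1, by linarith [hy.2]⟩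
  obtain ⟨j, h1, h2, h3, h4, h5⟩ := (hG.par.and ((hG.sw (η / L) (by positivity)).and
    ((hG.sw (1 / (10 * K)) (by positivity)).and
      (hfib.and (mc_jg hG.mc m (L := L) (by linarith) hη))))).exists
  refine hP j Γ (Ψ j) ⟨⟨hf, hfr, par_mono h1 (isOpen_shell _ _) hs,
    fun x hx y hy => h4 x (hs hx) y (hs hy), fun x hx => (h2 x (hs hx)).trans ?_,
    fun p hp hq => ?_⟩, fun x hx => h5 x (hs hx) hx.2.le⟩
  · rw [div_eq_mul_one_div]
    exact mul_le_mul_of_nonneg_left hx.1.le hη.le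
  · have a1 : 0 < 1 / L := by positivity
    obtain ⟨y, hy, rfl⟩ := cn_sub hL hK (hC j) h1 h3 (p := p) (by linarith) (by linarith)
    have h6 := abs_le.1 (h3 y hy)
    have a2 : 1 / (10 * K) ≤ 1 / 10 * (1 / L) := by
      rw [one_div_mul_one_div]; gcongr
    have a3 : 1 / L ≤ 1 / 2 := by gcongr
    exact mem_image_of_mem _ ⟨by linarith [h6.2], by linarith [h6.1]⟩

end Crest.Agent.N207.Gs

end
end

-- ▼ part N207/G/Gc
section

/-!
# Row 207, block G (helper25): calculus of good parametrisations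
-/

set_option autoImplicit false
set_option linter.unusedSectionVars false
set_option maxSynthPendingDepth 3

open scoped ContDiff Manifold Topology
open Set Filter Metric
open Crest.GeometryTopology.CoordMetric
open Crest.Agent.R202.Tens Crest.Agent.N207.Jt

noncomputable section

namespace Crest.Agent.N207.Gs

variable {M : Type*} [TopologicalSpace M] [ChartedSpace E4 M] [IsManifold 𝓘(ℝ, E4) ∞ M]
  [T3Space M] [ConnectedSpace M] [MeasurableSpace M] [BorelSpace M] {ι : Type}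
  {l : Filter ι} {g : ι → Met 4 M} {z : ι → M} {b : ι → M → ℝ} {Ψ Ψ' : ι → E4 → M}
  {U U' V : Set E4} {κ : ℝ}

theorem In.sm (h : In l g z b κ) : ∀ᶠ j in l, Sm 4 (b j) := (h.ac 1 one_pos).mono fun _ hj => hj.sm

theorem fd_comp {f : M → ℝ} (hf : Sm 4 f) {Φ : E4 → M} {y : E4}
    (h : MDifferentiableAt 𝓘(ℝ, E4) 𝓘(ℝ, E4) Φ y) (X : E4) :
    fderiv ℝ (fun x => f (Φ x)) y X =
      mfderiv 𝓘(ℝ, E4) 𝓘(ℝ, ℝ) f (Φ y) (mfderiv 𝓘(ℝ, E4) 𝓘(ℝ, E4) Φ y X) := by
  have := mfderiv_comp (I := 𝓘(ℝ, E4)) (I' := 𝓘(ℝ, E4)) (I'' := 𝓘(ℝ, ℝ)) y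
    ((hf (Φ y)).mdifferentiableAt infty_ne) h
  rw [mfderiv_eq_fderiv] at this
  exact congrArg (fun L : E4 →L[ℝ] ℝ => L X) this

theorem IsD.fd {f : M → ℝ} (hf : Sm 4 f) {Φ Φ' : E4 → M} {y y' : E4} {L : E4 →L[ℝ] E4}
    (h : IsD Φ Φ' y y' L) (e : Φ' y' = Φ y) (h1 : MDifferentiableAt 𝓘(ℝ, E4) 𝓘(ℝ, E4) Φ y)
    (h2 : MDifferentiableAt 𝓘(ℝ, E4) 𝓘(ℝ, E4) Φ' y') :
    fderiv ℝ (fun x => f (Φ x)) y = (fderiv ℝ (fun x => f (Φ' x)) y').comp L := by
  have k : ∀ p q : M, p = q → ∀ a : E4, (mfderiv 𝓘(ℝ, E4) 𝓘(ℝ, ℝ) f p a : ℝ) =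
      mfderiv 𝓘(ℝ, E4) 𝓘(ℝ, ℝ) f q a := by rintro p q rfl a; rfl
  refine ContinuousLinearMap.ext fun X => ?_
  rw [ContinuousLinearMap.comp_apply, fd_comp hf h1, fd_comp hf h2]
  refine (k _ _ e.symm _).trans ?_
  exact congrArg (fun a : E4 => (mfderiv 𝓘(ℝ, E4) 𝓘(ℝ, ℝ) f (Φ' y') a : ℝ)) (h X)

theorem db_split (D : E4 →L[ℝ] ℝ) (L : E4 →L[ℝ] E4) (A : E4 ≃ₗᵢ[ℝ] E4) (w y X : E4) :
    (D.comp L - (2 : ℝ) • innerSL ℝ y) X = (D - (2 : ℝ) • innerSL ℝ w) (L X) +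
      2 * inner ℝ (w - A y) (A X) + 2 * inner ℝ w ((L - (A : E4 →L[ℝ] E4)) X) := by
  have e : (A : E4 →L[ℝ] E4) X = A X := rfl
  simp only [sub_apply, ContinuousLinearMap.comp_apply, smul_apply, innerSL_apply_apply,
    smul_eq_mul, inner_sub_left, inner_sub_right, ← A.inner_map_map y X, e]
  ring

theorem db_parts {D : E4 →L[ℝ] ℝ} {L : E4 →L[ℝ] E4} {A : E4 ≃ₗᵢ[ℝ] E4} {w : E4} {ε R : ℝ}
    (h1 : ‖D - (2 : ℝ) • innerSL ℝ w‖ ≤ ε) (h2 : ‖L - (A : E4 →L[ℝ] E4)‖ ≤ ε) (hw : ‖w‖ ≤ R)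
    (hε : ε ≤ 1) (X : E4) : |(D - (2 : ℝ) • innerSL ℝ w) (L X) +
      2 * inner ℝ w ((L - (A : E4 →L[ℝ] E4)) X)| ≤ (2 + 2 * R) * ε * ‖X‖ := by
  have hε0 : 0 ≤ ε := (norm_nonneg _).trans h1
  have hL : ‖L‖ ≤ 2 := by
    have := norm_add_le (L - (A : E4 →L[ℝ] E4)) (A : E4 →L[ℝ] E4)
    rw [sub_add_cancel] at this
    linarith [norm_cl_le A]
  have a1 : |(D - (2 : ℝ) • innerSL ℝ w) (L X)| ≤ ε * (2 * ‖X‖) := by
    refine ((D - (2 : ℝ) • innerSL ℝ w).le_opNorm _).trans ?_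
    gcongr
    exact (L.le_opNorm X).trans (by gcongr)
  have a2 : |inner ℝ w ((L - (A : E4 →L[ℝ] E4)) X)| ≤ R * (ε * ‖X‖) := by
    refine (abs_real_inner_le_norm _ _).trans ?_
    gcongr
    · exact (norm_nonneg _).trans hw
    · exact ((L - (A : E4 →L[ℝ] E4)).le_opNorm X).trans (by gcongr)
  rw [abs_le] at a1 a2 ⊢
  constructor <;> nlinarith [a1.1, a1.2, a2.1, a2.2]

theorem inj_of_near {L : E4 →L[ℝ] E4} {A : E4 ≃ₗᵢ[ℝ] E4} (h : ‖L - (A : E4 →L[ℝ] E4)‖ ≤ 1 / 2) :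
    Function.Injective L := by
  refine (injective_iff_map_eq_zero L).2 fun X hX => ?_
  have h1 := (L - (A : E4 →L[ℝ] E4)).le_opNorm X
  have h2 : ‖(L - (A : E4 →L[ℝ] E4)) X‖ = ‖X‖ := by simp [hX]
  have h3 := mul_le_mul_of_nonneg_right h (norm_nonneg X)
  exact norm_eq_zero.1 (by linarith [norm_nonneg X])

/-- values and derivatives of maps close to orthogonal ones -/
theorem ue_c1 {T : ι → E4 → E4} {A : ι → E4 ≃ₗᵢ[ℝ] E4} {S : ι → Set E4}
    (h : UE l T (fun j y => A j y) S) {ε : ℝ} (hε : 0 < ε) : ∀ᶠ j in l, ∀ y ∈ S j,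
      ContDiffAt ℝ ∞ (T j) y ∧ ‖T j y - A j y‖ ≤ ε ∧ ‖fderiv ℝ (T j) y - (A j : E4 →L[ℝ] E4)‖ ≤ ε := by
  have h0 := Metric.tendsto_nhds.1 (GE.val h) ε hε
  have h1 := Metric.tendsto_nhds.1 (GE.fderiv h).val ε hε
  simp only [dist_zero_right, fderiv_lie] at h0 h1
  filter_upwards [ev_un.1 h0, ev_un.1 h1, ev_un.1 (GE.left h).sm] with j a b c y hy
  exact ⟨c y hy, (a y hy).le, (b y hy).le⟩

/-- composition with an asymptotically orthogonal map -/
theorem Gd.comp (hI : In l g z b κ) (h : Gd l g z b Ψ U) {T : ι → E4 → E4} {A : E4 ≃ₗᵢ[ℝ] E4}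
    (hV : IsOpen V) {R r : ℝ} (hR : ∀ y ∈ V, ‖y‖ ≤ R) (hr : 0 < r)
    (hth : ∀ y ∈ V, closedBall (A y) r ⊆ U) (hT : UE l T (fun _ y => A y) fun _ => V) :
    Gd l g z b (fun j y => Ψ j (T j y)) V := by
  have c1 := fun {ε : ℝ} (hε : 0 < ε) => ue_c1 (A := fun _ => A) hT hε
  have hm : ∀ᶠ j in l, ∀ y ∈ V, T j y ∈ U := (c1 hr).mono fun j hj y hy =>
    hth y hy (by rw [mem_closedBall, dist_eq_norm]; exact (hj y hy).2.1)
  refine ⟨?_, ?_, fun ε hε => ?_, fun ε hε => ?_⟩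
  · filter_upwards [h.par, hm, c1 (ε := 1 / 2) (by norm_num)] with j a b c
    exact par_comp a hV (fun y hy => (c y hy).1.contDiffWithinAt) b fun y hy =>
      inj_of_near (c y hy).2.2
  · refine gc_pull (G' := fun p : ι × E4 => (g p.1).pm (Ψ p.1)) (T := fun p => T p.1)
      (A := fun _ => A) (h.mc.at (un_fst _ _) (ev_un.2 hm)) ?_ (GE.left hT) (ev_un.2 ?_)
    · simpa only [fderiv_lie] using GE.fderiv hT
    · filter_upwards [h.par, hm, c1 one_pos] with j a b c y hy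
      filter_upwards [hV.mem_nhds hy] with x hx X Y
      exact pm_comp_bil _ (par_md a (b x hx)) ((c x hx).1.differentiableAt infty_ne) X Y
  · filter_upwards [h.sw (ε / 2) (by positivity), hm, c1 (ε := ε / 2) (by positivity)]
      with j a b c y hy
    have h1 := abs_le.1 (a _ (b y hy))
    have h2 := abs_le.1 ((abs_norm_sub_norm_le _ _).trans (c y hy).2.1)
    rw [A.norm_map] at h2
    rw [abs_le]; constructor <;> linarith [h1.1, h1.2, h2.1, h2.2]
  · set R' := max R 0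
    have hR0 : 0 ≤ R' := le_max_right _ _
    set η := min 1 (ε / (6 + 2 * R')) with hη
    have hη0 : 0 < η := lt_min one_pos (by positivity)
    have hη1 : η ≤ 1 := min_le_left _ _
    have hη2 : (6 + 2 * R') * η ≤ ε := by
      rw [mul_comm]; exact (le_div_iff₀ (by positivity)).1 (min_le_right _ _)
    filter_upwards [h.db η hη0, hm, c1 hη0, h.par, hI.sm] with j a b c d e y hy
    have hd : DifferentiableAt ℝ (T j) y := (c y hy).1.differentiableAt infty_ne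
    have k := (isD_of (Ψ := fun x => Ψ j (T j x)) (par_md d (b y hy)) hd EventuallyEq.rfl).fd e rfl
      ((par_md d (b y hy)).comp y hd.mdifferentiableAt) (par_md d (b y hy))
    rw [k]
    refine ContinuousLinearMap.opNorm_le_bound _ hε.le fun X => ?_
    have hw : ‖T j y‖ ≤ R' + 1 := by
      have := norm_add_le (T j y - A y) (A y)
      rw [sub_add_cancel, A.norm_map] at this
      linarith [(c y hy).2.1, hR y hy, le_max_left R 0]
    have p1 := abs_le.1 (db_parts (a _ (b y hy)) (c y hy).2.2 hw hη1 X)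
    have p2 := abs_le.1 ((abs_real_inner_le_norm (T j y - A y) (A X)).trans
      (mul_le_mul_of_nonneg_right (c y hy).2.1 (norm_nonneg _)))
    rw [A.norm_map] at p2
    have p3 := mul_le_mul_of_nonneg_right hη2 (norm_nonneg X)
    rw [db_split _ _ A (T j y), Real.norm_eq_abs, abs_le]
    constructor <;> nlinarith [p1.1, p1.2, p2.1, p2.2]

theorem Gd.congr (h : Gd l g z b Ψ U) (e : ∀ᶠ j in l, ∀ y ∈ U, Ψ' j y = Ψ j y) :
    Gd l g z b Ψ' U := by
  have e' : ∀ᶠ j in l, ∀ y ∈ U, Ψ' j =ᶠ[𝓝 y] Ψ j := by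
    filter_upwards [e, h.par] with j a c y hy using mem_of_superset (c.isOpen.mem_nhds hy) a
  refine ⟨?_, fun a c => (h.mc a c).congr_left (ev_un.2 ?_), fun ε hε => ?_, fun ε hε => ?_⟩
  · filter_upwards [e, h.par] with j a c using par_congr c a
  · filter_upwards [e'] with j a' y hy
    exact ⟨rfl, (Met.pm_congr (g j) (a' y hy)).mono fun x hx => by simp only [hx]⟩
  · filter_upwards [e, h.sw ε hε] with j a c y hy
    rw [a y hy]; exact c y hy
  · filter_upwards [e', h.db ε hε] with j a c y hy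
    have : (fun x => b j (Ψ' j x)) =ᶠ[𝓝 y] fun x => b j (Ψ j x) :=
      (a y hy).mono fun x hx => by simp only [hx]
    rw [this.fderiv_eq]; exact c y hy

theorem Gd.union (h : Gd l g z b Ψ U) (h' : Gd l g z b Ψ V) : Gd l g z b Ψ (U ∪ V) := by
  refine ⟨?_, fun a c => GE.cases (fun p : ι × E4 => p.2 ∈ U) ?_ ?_, fun ε hε => ?_, fun ε hε => ?_⟩
  · filter_upwards [h.par, h'.par] with j a c
    exact par_of_local (a.isOpen.union c.isOpen) fun y hy => hy.elim (fun h => ⟨U, h, a⟩)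
      fun h => ⟨V, h, c⟩
  · exact h.mc.at ((un_fst _ _).mono_left inf_le_left)
      (eventually_inf_principal.2 (Eventually.of_forall fun _ hp => hp)) a c
  · exact h'.mc.at ((un_fst _ _).mono_left inf_le_left)
      (eventually_inf_principal.2 ((un_mem _ _).mono fun _ hp hq => hp.resolve_left hq)) a c
  · filter_upwards [h.sw ε hε, h'.sw ε hε] with j a c y hy using hy.elim (a y) (c y)
  · filter_upwards [h.db ε hε, h'.db ε hε] with j a c y hy using hy.elim (a y) (c y)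

/-- two preimages of the same point differ by an orthogonal map -/
theorem Gd.base {𝒰 : Ultrafilter ι} (hI : In 𝒰 g z b κ) (h : Gd 𝒰 g z b Ψ U)
    (h' : Gd 𝒰 g z b Ψ' U') {y y' : ι → E4} {R : ℝ}
    (hy : ∀ᶠ j in (𝒰 : Filter ι), y j ∈ U ∧ y' j ∈ U' ∧ ‖y' j‖ ≤ R ∧ Ψ' j (y' j) = Ψ j (y j)) :
    ∃ A : E4 ≃ₗᵢ[ℝ] E4, ∀ ε > 0, ∀ᶠ j in (𝒰 : Filter ι), ∃ L, IsD (Ψ j) (Ψ' j) (y j) (y' j) L ∧
      ‖y' j - A (y j)‖ ≤ ε ∧ ‖L - (A : E4 →L[ℝ] E4)‖ ≤ ε := by
  have h1 : ∀ᶠ j in (𝒰 : Filter ι), ∃ L, IsD (Ψ j) (Ψ' j) (y j) (y' j) L := by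
    filter_upwards [hy, h.par, h'.par] with j a c d using exists_isD c d a.1 a.2.1 a.2.2.2
  obtain ⟨L, hL⟩ := h1.choice
  obtain ⟨A, hA⟩ := exists_orth 𝒰 (L := L) (h.mc.at tendsto_id (hy.mono fun _ a => a.1))
    (h'.mc.at tendsto_id (hy.mono fun _ a => a.2.1)) (by
      filter_upwards [hL, hy] with j a c using a.bil (g j) c.2.2.2)
  refine ⟨A, fun ε hε => ?_⟩
  set R' := max R 0
  have hR0 : 0 ≤ R' := le_max_right _ _
  set η := min 1 (ε / (3 + 2 * R')) with hη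
  have hη0 : 0 < η := lt_min one_pos (by positivity)
  have hη1 : η ≤ 1 := min_le_left _ _
  have hη2 : (3 + 2 * R') * η ≤ ε := by
    rw [mul_comm]; exact (le_div_iff₀ (by positivity)).1 (min_le_right _ _)
  filter_upwards [hL, hy, h.db η hη0, h'.db η hη0, Metric.tendsto_nhds.1 hA η hη0, h.par, h'.par,
    hI.sm] with j a c d d' e p p' s
  rw [dist_eq_norm] at e
  refine ⟨L j, a, ?_, by nlinarith⟩
  have k := d _ c.1
  rw [a.fd s c.2.2.2 (par_md p c.1) (par_md p' c.2.1)] at k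
  set X := A.symm (y' j - A (y j)) with hX
  have p1 := abs_le.1 (db_parts (d' _ c.2.1) e.le (c.2.2.1.trans (le_max_left R 0)) hη1 X)
  have p2 := abs_le.1 ((ContinuousLinearMap.le_opNorm _ X).trans
    (mul_le_mul_of_nonneg_right k (norm_nonneg X)))
  rw [db_split _ _ A (y' j), hX, A.apply_symm_apply, real_inner_self_eq_norm_sq] at p2
  rw [hX] at p1
  rw [A.symm.norm_map] at p1 p2
  by_contra hc
  have hc' := not_le.1 hc
  have q : 2 * ‖y' j - A (y j)‖ ^ 2 ≤ (3 + 2 * R') * η * ‖y' j - A (y j)‖ := by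
    nlinarith [p1.1, p2.2]
  nlinarith [mul_le_mul_of_nonneg_right hη2 (norm_nonneg (y' j - A (y j)))]

end Crest.Agent.N207.Gs

end
end

-- ▼ part N207/G/Shl
section

/-!
# Row 207, block G (helper33): a good parametrisation of every shell
-/

set_option autoImplicit false
set_option linter.unusedSectionVars false
set_option maxSynthPendingDepth 3

open scoped ContDiff Manifold Topology
open Set Filter Metric
open Crest.GeometryTopology.CoordMetric
open Crest.Agent.R202.Tens Crest.Agent.N207.Jt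

noncomputable section

namespace Crest.Agent.N207.Gs

namespace Sh

variable {e h x y y' : E4} {a s s' r R R' : ℝ}

theorem thicken (hy : y ∈ Dm e s R) (h0 : ‖y' - y‖ ≤ r) (h1 : s' + 3 * r ≤ s) (h2 : R + r ≤ R') :
    y' ∈ Dm e s' R' := by
  obtain ⟨a1, v, a2, a3, a4⟩ := hy
  have b0 := norm_nonneg (y' - y)
  have b1 := norm_sub_norm_le y' y
  have b2 := abs_le.1 ((abs_real_inner_le_norm v (y' - y)).trans
    (mul_le_mul a2 h0 b0 (by norm_num)))
  rw [inner_sub_right] at b2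
  exact ⟨by linarith, v, a2, by linarith, by linarith [b2.1]⟩

theorem rotate (A : E4 ≃ₗᵢ[ℝ] E4) (hy : y ∈ Dm e s R) : A y ∈ Dm (A e) s R := by
  obtain ⟨a1, v, a2, a3, a4⟩ := hy
  exact ⟨by simpa using a1, A v, by simpa using a2, by simpa using a3, by simpa using a4⟩

theorem dm_low (hy : y ∈ Dm e s R) : s / 3 ≤ ‖y‖ ∧ ‖y‖ ≤ R := by
  obtain ⟨a1, v, a2, -, a4⟩ := hy
  have := (real_inner_le_norm v y).trans (mul_le_mul_of_nonneg_right a2 (norm_nonneg y))
  exact ⟨by linarith, a1.le⟩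

theorem unit_dir (hy : 0 < ‖y‖) : ∃ u : E4, ‖u‖ = 1 ∧ inner ℝ u y = ‖y‖ ∧
    ∀ w : E4, ‖y‖ * inner ℝ u w = inner ℝ w y := by
  refine ⟨‖y‖⁻¹ • y, by rw [norm_smul, norm_inv, norm_norm, inv_mul_cancel₀ hy.ne'], ?_, fun w => ?_⟩
  · rw [real_inner_smul_left, real_inner_self_eq_norm_sq]; field_simp
  · rw [real_inner_smul_left, real_inner_comm]; field_simp

theorem seg3 (he : ‖e‖ = 1) (hh : ‖h‖ = 1) (h0 : inner ℝ e h = (0 : ℝ)) (h1 : 0 ≤ inner ℝ h y)
    (h2 : -(0.96 * ‖y‖) < inner ℝ e y) (ha : 0 < a) (ha1 : a ≤ 1) (hR : 1 < R)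
    (hy : y ∈ Sk.shell a R) : segment ℝ h y ⊆ Dm e (a / 50) R := by
  have y0 : 0 < ‖y‖ := ha.trans hy.1
  obtain ⟨u, u1, u2, u3⟩ := unit_dir y0
  have b1 : -0.96 < inner ℝ u e := lt_of_mul_lt_mul_left (by rw [u3]; linarith) y0.le
  have b2 : 0 ≤ inner ℝ u h := le_of_mul_le_mul_left (by rw [u3]; linarith) y0
  have c0 : ‖e + u + h‖ ≤ 3 := (norm_add₃_le).trans (by rw [he, u1, hh]; norm_num)
  have c1 : a / 50 < inner ℝ (e + u + h) e := by
    rw [inner_add_left, inner_add_left, real_inner_self_eq_norm_sq, he, real_inner_comm e h, h0]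
    linarith
  have c2 : a / 50 < inner ℝ (e + u + h) h := by
    rw [inner_add_left, inner_add_left, real_inner_self_eq_norm_sq, hh, h0]
    linarith
  have c3 : a / 50 < inner ℝ (e + u + h) y := by
    rw [inner_add_left, inner_add_left, u2]
    linarith [hy.1]
  have cv : Convex ℝ (ball (0 : E4) R ∩ {w | a / 50 < inner ℝ (e + u + h) w}) :=
    (convex_ball _ _).inter (convex_halfSpace_gt (innerSL ℝ (e + u + h)).isLinear _)
  intro w hw
  have := cv.segment_subset ⟨mem_ball_zero_iff.2 (hh ▸ hR), c2⟩ ⟨mem_ball_zero_iff.2 hy.2, c3⟩ hw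
  exact ⟨mem_ball_zero_iff.1 this.1, _, c0, c1, this.2⟩

theorem dm_mem (he : ‖e‖ = 1) (h2 : -(0.96 * ‖y‖) < inner ℝ e y) (ha : 0 < a) (ha1 : a ≤ 1)
    (hy : y ∈ Sk.shell a R) : y ∈ Dm e (a / 50) R := by
  have y0 : 0 < ‖y‖ := ha.trans hy.1
  obtain ⟨u, u1, u2, u3⟩ := unit_dir y0
  have b1 : -0.96 < inner ℝ u e := lt_of_mul_lt_mul_left (by rw [u3]; linarith) y0.le
  refine ⟨hy.2, e + u, (norm_add_le _ _).trans (by rw [he, u1]; norm_num), ?_, ?_⟩
  · rw [inner_add_left, real_inner_self_eq_norm_sq, he]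
    linarith
  · rw [inner_add_left, u2]
    linarith [hy.1]

theorem other {e' : E4} (he : ‖e‖ = 1) (he' : ‖e'‖ = 1) (h0 : inner ℝ e e' = (0 : ℝ))
    (h1 : inner ℝ e y < -(0.6 * ‖y‖)) : -(0.96 * ‖y‖) < inner ℝ e' y := by
  have b := sq_nonneg ‖y - (inner ℝ e y : ℝ) • e - (inner ℝ e' y : ℝ) • e'‖
  rw [norm_sub_sq_real, norm_sub_sq_real, inner_sub_left] at b
  simp only [real_inner_smul_left, real_inner_smul_right, norm_smul, he, he', h0, mul_one,
    Real.norm_eq_abs, sq_abs, real_inner_comm e y, real_inner_comm e' y] at b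
  by_contra hc
  have hc' := not_lt.1 hc
  nlinarith [norm_nonneg y]

theorem frame (he : ‖e‖ = 1) : ∃ e1 e2 : E4, ‖e1‖ = 1 ∧ ‖e2‖ = 1 ∧ inner ℝ e e1 = (0 : ℝ) ∧
    inner ℝ e e2 = (0 : ℝ) ∧ inner ℝ e1 e2 = (0 : ℝ) := by
  have h := Submodule.reflection_sub (v := (EuclideanSpace.single 0 1 : E4)) (w := e)
    (by simp [he])
  set B := Submodule.reflection (ℝ ∙ ((EuclideanSpace.single 0 1 : E4) - e))ᗮ
  refine ⟨B (EuclideanSpace.single 1 1), B (EuclideanSpace.single 2 1), by simp, by simp, ?_, ?_,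
    ?_⟩
  · rw [← h, B.inner_map_map]; simp [EuclideanSpace.inner_single_left]
  · rw [← h, B.inner_map_map]; simp [EuclideanSpace.inner_single_left]
  · rw [B.inner_map_map]; simp [EuclideanSpace.inner_single_left]

/-- a cone around the negative axis -/
def cn (e : E4) (c : ℝ) : Set E4 := {y | inner ℝ e y < -(c * ‖y‖)}

/-- the complement of a closed cone -/
def cp (e : E4) (c : ℝ) : Set E4 := {y | -(c * ‖y‖) < inner ℝ e y}

theorem cn_iff {c : ℝ} : y ∈ cn e c ↔ inner ℝ e y < -(c * ‖y‖) := Iff.rfl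

theorem cp_iff {c : ℝ} : y ∈ cp e c ↔ -(c * ‖y‖) < inner ℝ e y := Iff.rfl

theorem isOpen_cn (e : E4) (c : ℝ) : IsOpen (cn e c) := isOpen_lt (by fun_prop) (by fun_prop)

theorem isOpen_cp (e : E4) (c : ℝ) : IsOpen (cp e c) := isOpen_lt (by fun_prop) (by fun_prop)

theorem chain {e1 e2 : E4} (he : ‖e‖ = 1) (h1 : ‖e1‖ = 1) (h2 : ‖e2‖ = 1)
    (o1 : inner ℝ e e1 = (0 : ℝ)) (o2 : inner ℝ e e2 = (0 : ℝ)) (o3 : inner ℝ e1 e2 = (0 : ℝ))
    (ha : 0 < a) (ha1 : a < 1) (hR : 1 < R) (hy : y ∈ Sk.shell a R ∩ (cp e 0.96 ∩ cn e 0.6)) :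
    Ch (Dm e (a / 50) R ∩ Dm e1 (a / 50) R) e1 y := by
  have k : ∀ h : E4, ‖h‖ = 1 → inner ℝ e h = (0 : ℝ) → inner ℝ e1 h = (0 : ℝ) →
      0 ≤ inner ℝ h y → Ch (Dm e (a / 50) R ∩ Dm e1 (a / 50) R) e1 y := fun h a1 a2 a3 a4 => by
    have m : e1 ∈ Sk.shell a R := ⟨h1 ▸ ha1, h1 ▸ hR⟩
    have a5 : 0 ≤ inner ℝ h e1 := by rw [real_inner_comm, a3]
    have s1 : segment ℝ h e1 ⊆ Dm e (a / 50) R ∩ Dm e1 (a / 50) R := subset_inter
      (seg3 he a1 a2 a5 (by rw [o1, h1]; norm_num) ha ha1.le hR m)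
      (seg3 h1 a1 a3 a5 (by rw [real_inner_self_eq_norm_sq, h1]; norm_num) ha ha1.le hR m)
    refine ⟨h, h, by rwa [segment_symm], ?_, subset_inter (seg3 he a1 a2 a4 hy.2.1 ha ha1.le hR hy.1)
      (seg3 h1 a1 a3 a4 (other he h1 o1 hy.2.2) ha ha1.le hR hy.1)⟩
    rw [segment_same]
    exact singleton_subset_iff.2 (s1 (left_mem_segment _ _ _))
  rcases le_total 0 (inner ℝ e2 y : ℝ) with c | c
  · exact k e2 h2 o2 o3 c
  · exact k (-e2) (by simpa using h2) (by simpa using o2) (by simpa using o3) (by simpa using c)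

/-- the cut-off -/
def chi (e y : E4) : ℝ := Real.smoothTransition (10 * (inner ℝ e y / ‖y‖) + 9)

theorem chi_sm (hy : 0 < ‖y‖) : ContDiffAt ℝ ∞ (chi e) y :=
  Real.smoothTransition.contDiffAt.comp y ((contDiffAt_const.mul
    (((innerSL ℝ e).contDiff.contDiffAt).div (contDiffAt_norm ℝ (norm_pos_iff.1 hy)) hy.ne')).add
      contDiffAt_const)

theorem chi_one (hy : 0 < ‖y‖) (h : y ∈ cp e 0.8) : chi e y = 1 := by
  have : -0.8 < inner ℝ e y / ‖y‖ := by rw [lt_div_iff₀ hy]; linarith [cp_iff.1 h]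
  exact Real.smoothTransition.one_of_one_le (by linarith)

theorem chi_zero (hy : 0 < ‖y‖) (h : y ∈ cn e 0.9) : chi e y = 0 := by
  have : inner ℝ e y / ‖y‖ < -0.9 := by rw [div_lt_iff₀ hy]; linarith [cn_iff.1 h]
  exact Real.smoothTransition.zero_of_nonpos (by linarith)

theorem ue_cut {ι : Type} {l : Filter ι} {T : ι → E4 → E4} (A : E4 ≃ₗᵢ[ℝ] E4) (ha : 0 < a)
    (hT : UE l T (fun _ y => A y) fun _ => Sk.shell a R ∩ (cp e 0.96 ∩ cn e 0.6)) :
    UE l (fun j y => A y + chi e y • (T j y - A y)) (fun _ y => A y)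
      fun _ => Sk.shell a R ∩ cn e 0.7 := by
  have hm := un_mem l fun _ => Sk.shell a R ∩ cn e 0.7
  have hA : GB (un l fun _ => Sk.shell a R ∩ cn e 0.7) (fun _ y => A y) Prod.snd :=
    gb_lie (fun _ => A) ⟨R, hm.mono fun p hp => hp.1.2.le⟩
  have hK : ∀ᶠ p in un l fun _ => Sk.shell a R ∩ cn e 0.7, p.2 ∈ closedBall (0 : E4) R \ ball 0 a :=
    hm.mono fun p hp => ⟨mem_closedBall_zero_iff.2 hp.1.2.le,
      fun h => absurd (mem_ball_zero_iff.1 h) (not_lt.2 hp.1.1.le)⟩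
  have hc := GE.fixed (Φ := chi e) ((isCompact_closedBall (0 : E4) R).diff isOpen_ball)
    (fun z hz => chi_sm (ha.trans_le (not_lt.1 fun h => hz.2 (mem_ball_zero_iff.2 h)))) hK hK
    (by simpa using tendsto_const_nhds)
  refine GE.cases (fun p : ι × E4 => p.2 ∈ cp e 0.96) ?_ ?_
  · have h1 := hT.at ((un_fst l fun _ => Sk.shell a R ∩ cn e 0.7).mono_left
      (inf_le_left (b := 𝓟 {p : ι × E4 | p.2 ∈ cp e 0.96}))) (y := Prod.snd)
      (eventually_inf_principal.2 (hm.mono fun p hp hq => ⟨hp.1, hq,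
        cn_iff.2 (by linarith [norm_nonneg p.2, cn_iff.1 hp.2])⟩))
    have h2 := (hA.mono inf_le_left).ge.add ((hc.mono inf_le_left).smul
      (h1.sub (hA.mono inf_le_left).ge))
    exact h2.congr_right (Eventually.of_forall fun p => ⟨rfl, Eventually.of_forall fun z => by simp⟩)
  · refine (hA.mono inf_le_left).ge_congr (eventually_inf_principal.2 (hm.mono fun p hp hq =>
      ⟨rfl, ?_⟩))
    have h0 : 0 < ‖p.2‖ := ha.trans hp.1.1
    have h2 : p.2 ∈ cn e 0.9 := cn_iff.2 (by linarith [not_lt.1 (cp_iff.not.1 hq)])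
    filter_upwards [(isOpen_cn e 0.9).mem_nhds h2,
      (isOpen_lt continuous_const continuous_norm).mem_nhds h0] with z z1 z2
    simp [chi_zero z2 z1]

end Sh

open Sh

variable {M : Type*} [TopologicalSpace M] [ChartedSpace E4 M] [IsManifold 𝓘(ℝ, E4) ∞ M]
  [CompactSpace M] [T3Space M] [ConnectedSpace M] [MeasurableSpace M] [BorelSpace M]

theorem shl_of (hD : DIR M) (hL : LONG M) (hI : LIS M) : SHL M := by
  intro ι 𝒰 g z b κ I a0 R0 ha0 hR0
  set a := min a0 (1 / 2)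
  set R := max R0 2
  have ha : 0 < a := lt_min ha0 (by norm_num)
  have ha1 : a < 1 := (min_le_right _ _).trans_lt (by norm_num)
  have hR : 1 < R := lt_of_lt_of_le (by norm_num) (le_max_right _ _)
  suffices ∃ Ψ, Gd 𝒰 g z b Ψ (Sk.shell a R) from this.imp fun Ψ h => h.mono (isOpen_shell _ _)
    fun y hy => ⟨(min_le_left _ _).trans_lt hy.1, hy.2.trans_le (le_max_left _ _)⟩
  obtain ⟨p0, hp0⟩ := ((I.ac 1 one_pos).mono fun j hj => hj.ne).choice
  choose Φ0 hΦ0 using fun j => F.exists_isExp (g j) (p0 j)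
  have t0 : Tendsto (fun j => (g j).d (z j) (p0 j)) 𝒰 (𝓝 1) :=
    tendsto_const_nhds.congr' (hp0.mono fun j hj => hj.symm)
  obtain ⟨e0, he0, d0⟩ := hD 𝒰 g z b κ p0 Φ0 I hΦ0 t0
  have g0 := hL 𝒰 g z b κ p0 Φ0 e0 I hΦ0 t0 he0 d0 (a / 50) R (by linarith) (by linarith) hR
  obtain ⟨e1, e2, he1, he2, o1, o2, o3⟩ := frame he0
  have m1 : e1 ∈ Sk.shell a R := ⟨he1 ▸ ha1, he1 ▸ hR⟩
  have m0 : e1 ∈ Dm e0 (a / 50) R := dm_mem he0 (by rw [o1, he1]; norm_num) ha ha1.le m1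
  have m2 : e1 ∈ Dm e1 (a / 50) R :=
    dm_mem he1 (by rw [real_inner_self_eq_norm_sq, he1]; norm_num) ha ha1.le m1
  choose Φ1 hΦ1 using fun j => F.exists_isExp (g j) (Φ0 j (e1 - e0))
  have t1 : Tendsto (fun j => (g j).d (z j) (Φ0 j (e1 - e0))) 𝒰 (𝓝 1) :=
    Metric.tendsto_nhds.2 fun ε hε => (g0.sw (ε / 2) (by linarith)).mono fun j hj => by
      have := hj e1 m0
      rw [he1] at this
      rw [Real.dist_eq]
      linarith
  obtain ⟨e', he', d1⟩ := hD 𝒰 g z b κ _ Φ1 I hΦ1 t1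
  have g2 := hL 𝒰 g z b κ _ Φ1 e' I hΦ1 t1 he' d1 (a / 200) (R + 2) (by linarith) (by linarith)
    (by linarith)
  have g1 := g2.mono (isOpen_dm e' (a / 100) (R + 1)) fun y hy =>
    thicken (r := 0) hy (by simp) (by linarith) (by linarith)
  obtain ⟨ρ0, hρ0, li⟩ := hI 𝒰 g z b κ _ _ (Dm e' (a / 100) (R + 1)) _ _ (a / 600) I g2
    (by linarith) (by linarith) (fun y hy => dm_low hy) fun y hy w hw =>
      thicken hy (mem_ball_iff_norm.1 hw).le (by linarith) (by linarith)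
  have m3 : e' ∈ Dm e' (a / 100) (R + 1) := thicken (r := 0) (dm_mem (R := R) he'
    (by rw [real_inner_self_eq_norm_sq, he']; norm_num) ha ha1.le ⟨he' ▸ ha1, he' ▸ hR⟩) (by simp)
    (by linarith) (by linarith)
  have e01 : ∀ j, Φ1 j (e' - e') = Φ0 j (e1 - e0) := fun j => by rw [sub_self, (hΦ1 j).zero]
  obtain ⟨A, hA⟩ := Gd.base (y := fun _ => e1) (y' := fun _ => e') (R := 1) I g0 g1
    (Eventually.of_forall fun j => ⟨m0, m3, he'.le, e01 j⟩)
  obtain rfl : e' = A e1 := eq_of_norm_sub_eq_zero (le_antisymm (le_of_forall_pos_le_add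
    fun ε hε => by
      obtain ⟨j, L, -, h, -⟩ := (hA ε hε).exists
      linarith) (norm_nonneg _))
  set ρ := min ρ0 (a / 100)
  have hρ : 0 < ρ := lt_min hρ0 (by linarith)
  have hρ1 : ρ ≤ a / 100 := min_le_right _ _
  have th : ∀ y ∈ Dm e1 (a / 50) R, closedBall (A y) (ρ / 4) ⊆ Dm (A e1) (a / 100) (R + 1) :=
    fun y hy w hw => thicken (rotate A hy) (mem_closedBall_iff_norm.1 hw) (by linarith) (by linarith)
  have fh : FH 𝒰 g (fun j y => Φ0 j (y - e0)) (fun j y => Φ1 j (y - A e1))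
      (fun _ => Dm e0 (a / 50) R) (fun _ => Dm (A e1) (a / 100) (R + 1))
      (fun _ => Dm e0 (a / 50) R ∩ Dm e1 (a / 50) R) (fun _ => A) ρ fun _ => e1 := by
    refine ⟨?_, g0.mc, g1.mc, hρ, ⟨R, Eventually.of_forall fun j y hy =>
      mem_ball_zero_iff.2 hy.1.1⟩, fun ε hε => (hA ε hε).mono fun j ⟨L, h1, h2, h3⟩ =>
        ⟨⟨m0, m2⟩, _, L, e01 j, h1, h2, h3⟩⟩
    filter_upwards [g0.par, g1.par, li] with j c0 c1 c2
    exact ⟨c0, c1, fun x hx y hy h => c2 x hx y hy (h.trans_le (min_le_left _ _)),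
      (isOpen_dm _ _ _).inter (isOpen_dm _ _ _), inter_subset_left, fun y hy => th y hy.2⟩
  have hc := Eventually.of_forall (f := (𝒰 : Filter ι)) fun _ y
    (hy : y ∈ Sk.shell a R ∩ (cp e0 0.96 ∩ cn e0 0.6)) => chain he0 he1 he2 o1 o2 o3 ha ha1 hR hy
  have g3 := Gd.comp I g1 ((isOpen_shell a R).inter (isOpen_cn e0 0.7)) (R := R)
    (fun y hy => hy.1.2.le) (r := ρ / 4) (by linarith) (fun y hy => th y (dm_mem he1
      (other he0 he1 o1 (by linarith [cn_iff.1 hy.2, norm_nonneg y])) ha ha1.le hy.1))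
    (ue_cut A ha (fh.ue hc))
  have g4 := g0.mono ((isOpen_shell a R).inter (isOpen_cp e0 0.8)) fun y hy =>
    dm_mem he0 (by linarith [cp_iff.1 hy.2, norm_nonneg y]) ha ha1.le hy.1
  classical
  refine ⟨fun j y => if y ∈ cp e0 0.8 then Φ0 j (y - e0) else Φ1 j (A y + chi e0 y •
    (tr (fun y => Φ0 j (y - e0)) (fun y => Φ1 j (y - A e1)) A ρ y - A y) - A e1),
    ((g4.congr (Eventually.of_forall fun j y hy => if_pos hy.2)).union (g3.congr ?_)).mono
      (isOpen_shell _ _) fun y hy => ?_⟩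
  · filter_upwards [fh.dom hc] with j hj y hy
    split_ifs with c
    · have c1 := cp_iff.1 c
      have c2 := cn_iff.1 hy.2
      have c3 := norm_nonneg y
      rw [chi_one (ha.trans hy.1.1) c, one_smul, add_sub_cancel]
      exact (RH.spec (hj ⟨hy.1, cp_iff.2 (by linarith), cn_iff.2 (by linarith)⟩)).2.symm
    · rfl
  · by_cases c : y ∈ cp e0 0.8
    · exact Or.inl ⟨hy, c⟩
    · exact Or.inr ⟨hy, cn_iff.2 (by linarith [ha.trans hy.1, not_lt.1 (cp_iff.not.1 c)])⟩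

end Crest.Agent.N207.Gs

end
end

-- ▼ part N207/G/Li
section

/-!
# Row 207, block G (helper7): local injectivity at a fixed scale
-/

set_option autoImplicit false
set_option linter.unusedSectionVars false
set_option maxSynthPendingDepth 3

open scoped ContDiff Manifold Topology
open Set Filter Metric
open Crest.GeometryTopology.CoordMetric
open Crest.Agent.R202.Tens Crest.Agent.N207.Jt

noncomputable section

namespace Crest.Agent.N207.Gs

/-- normal coordinates with curvature tending to zero are asymptotically Euclidean -/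
theorem mc_of_nc {n : ℕ} {ι : Type} {l : Filter ι} {G : ι → MetricField n} {S : ι → Set (En n)}
    {R : ℝ} (hR : 0 < R) (hN : ∀ᶠ j in l, F.NC (G j) (S j) R)
    (h : ∀ (k : ℕ) (δ : ℝ), 0 < δ → ∀ᶠ j in l, ∀ x ∈ S j,
      nsq (G j) (covN (G j) (rmT (G j)) k) x ≤ δ ^ 2) : MC l G S := by
  intro a b
  have key : ∀ (k : ℕ) (ε : ℝ), 0 < ε → ∀ᶠ p in un l S, ‖iteratedFDeriv ℝ k
      (fun y => G p.1 y a b - (1 : Matrix (Fin n) (Fin n) ℝ) a b) p.2‖ ≤ ε := by
    intro k ε hε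
    obtain ⟨C, hC0, hC⟩ := F.ck_bound n k 1
    set δ := min 1 (ε * R ^ k / (C + 1)) with hδ
    have h0 : 0 < δ := lt_min one_pos (by positivity)
    have h1 : ∀ᶠ j in l, ∀ i ∈ Finset.range (k + 1), ∀ x ∈ S j,
        nsq (G j) (covN (G j) (rmT (G j)) i) x ≤ (δ / R ^ (i + 2)) ^ 2 :=
      (Finset.eventually_all _).2 fun i _ => h i _ (by positivity)
    refine ev_un.2 ?_
    filter_upwards [hN, h1] with j n1 n2 x hx
    refine (hC n1 h0 (min_le_left _ _) (fun i hi => n2 i (Finset.mem_range.2 (by omega))) k le_rfl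
      x hx a b).trans ?_
    have h2 : δ * (C + 1) ≤ ε * R ^ k := (le_div_iff₀ (by positivity)).1 (min_le_right _ _)
    rw [div_le_iff₀ (by positivity)]
    nlinarith
  have sm : ∀ᶠ p in un l S, ContDiffAt ℝ ∞
      (fun y => G p.1 y a b - (1 : Matrix (Fin n) (Fin n) ℝ) a b) p.2 := ev_un.2 (by
    filter_upwards [hN] with j n1 x hx
    exact ((n1.riem.contDiffOn a b).contDiffAt (n1.riem.isOpen.mem_nhds hx)).sub contDiffAt_const)
  have g0 : GE (un l S) (fun p y => G p.1 y a b - (1 : Matrix (Fin n) (Fin n) ℝ) a b) Prod.snd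
      (fun _ _ => (0 : ℝ)) Prod.snd := by
    refine ⟨⟨sm, fun k => ⟨1, key k 1 one_pos⟩⟩, GB.const' _, fun k => ?_⟩
    refine Metric.tendsto_nhds.2 fun ε hε => (key k (ε / 2) (by positivity)).mono fun p hp => ?_
    rw [dist_zero_right, iteratedFDeriv_fun_zero, Pi.zero_apply, sub_zero]
    linarith
  have := g0.add (GE.const' ((1 : Matrix (Fin n) (Fin n) ℝ) a b))
  simpa only [sub_add_cancel, zero_add] using this

variable {M : Type*} [TopologicalSpace M] [ChartedSpace E4 M] [IsManifold 𝓘(ℝ, E4) ∞ M]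
  [T3Space M] [ConnectedSpace M] [MeasurableSpace M] [BorelSpace M] {ι : Type}

theorem par_tr {Ψ : E4 → M} {U : Set E4} (h : Par Ψ U) {a : E4} {r : ℝ} (hr : ball a r ⊆ U) :
    Par (fun y => Ψ (a + y)) (ball 0 r) :=
  par_comp h isOpen_ball (contDiff_const.add contDiff_id).contDiffOn
    (fun y hy => hr (by simpa using hy)) fun y _ => by
      rw [fderiv_const_add, fderiv_fun_id]; exact fun _ _ e => e

theorem pm_tr (m : Met 4 M) {Ψ : E4 → M} {U : Set E4} (h : Par Ψ U) {a y : E4} (hy : a + y ∈ U) :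
    m.pm (fun y => Ψ (a + y)) y = m.pm Ψ (a + y) := by
  ext i j
  rw [← bil_single (m.pm _ y), pm_comp_bil m (T := fun y => a + y) (par_md h hy) (by fun_prop),
    fderiv_const_add, fderiv_fun_id]
  exact bil_single _ _ _

/-- curvature decay on balls around points of the annulus -/
theorem In.ev_rm {l : Filter ι} {g : ι → Met 4 M} {z : ι → M} {b : ι → M → ℝ} {κ : ℝ}
    (h : In l g z b κ) {a R : ℝ} (ha : 0 < a) (hR : 0 < R) (k : ℕ) {δ : ℝ} (hδ : 0 < δ) :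
    ∀ᶠ j in l, ∀ q, a ≤ (g j).d (z j) q → (g j).d (z j) q ≤ R → (g j).rm k q ≤ δ ^ 2 := by
  set e := min (min δ a) (min (1 / R) (1 / (k + 1))) with he
  have e0 : 0 < e := by positivity
  have e1 : e ≤ δ := (min_le_left _ _).trans (min_le_left _ _)
  have e2 : e ≤ a := (min_le_left _ _).trans (min_le_right _ _)
  have e3 : e * R ≤ 1 :=
    (le_div_iff₀ hR).1 ((min_le_right _ _).trans (min_le_left _ _))
  have e4 : e * (k + 1) ≤ 1 :=
    (le_div_iff₀ (by positivity)).1 ((min_le_right _ _).trans (min_le_right _ _))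
  filter_upwards [h.ac e e0] with j hj q q1 q2
  refine (hj.rm k (by nlinarith) q (by linarith) (by nlinarith)).trans ?_
  rw [one_pow, div_one]
  gcongr

theorem lis [CompactSpace M] : LIS M := by
  intro ι l g z b κ Ψ U U' a R r hI hG ha hr hU hU'
  obtain ⟨c0, c1, c2, hc⟩ := F.static_chart 1 κ hI.pos
  set r0 := min (a / 4) 1 with hr0
  have r1 : 0 < r0 := by positivity
  have r2 : r0 ≤ a / 4 := min_le_left _ _
  have r3 : r0 ≤ 1 := min_le_right _ _
  set c := c0 * r0 with hcd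
  have c3 : 0 < c := by positivity
  have c4 : c ≤ r0 := by nlinarith
  set ρ := min r (c / 2) with hρ
  have p0 : 0 < ρ := by positivity
  have p1 : ρ ≤ r := min_le_left _ _
  have p2 : ρ ≤ c / 2 := min_le_right _ _
  refine ⟨ρ, p0, (ev_un (P := fun p : ι × E4 => ∀ b ∈ U', ‖p.2 - b‖ < ρ →
    Ψ p.1 p.2 = Ψ p.1 b → p.2 = b) (S := fun _ => U')).1 ?_⟩
  refine mem_iff_ultrafilter.2 fun 𝒰 h𝒰 => ?_
  have t1 : Tendsto Prod.fst (𝒰 : Filter (ι × E4)) l := (un_fst l _).mono_left h𝒰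
  have m1 : ∀ᶠ p in (𝒰 : Filter (ι × E4)), p.2 ∈ U' := h𝒰 (un_mem l fun _ => U')
  have m2 : ∀ᶠ p in (𝒰 : Filter (ι × E4)), p.2 ∈ U := m1.mono fun p hp => hU' _ hp (mem_ball_self hr)
  have rm : ∀ (k : ℕ) (δ : ℝ), 0 < δ → ∀ᶠ p in (𝒰 : Filter (ι × E4)),
      ∀ q ∈ (g p.1).ball (Ψ p.1 p.2) r0, (g p.1).rm k q ≤ δ ^ 2 := fun k δ hδ => by
    filter_upwards [t1.eventually (hI.ev_rm (a := a / 2) (R := |R| + a) (by positivity)
      (by positivity) k hδ), t1.eventually (hG.sw (a / 4) (by positivity)), m2] with p h1 h2 h3 q hq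
    have a1 := abs_le.1 (h2 _ h3)
    have a2 := hU _ h3
    have a3 : (g p.1).d q (Ψ p.1 p.2) < r0 := hq
    have a4 : (g p.1).d (z p.1) (Ψ p.1 p.2) ≤ (g p.1).d (z p.1) q + (g p.1).d q (Ψ p.1 p.2) :=
      dist_triangle (α := Sl (g p.1)) _ _ _
    have a5 : (g p.1).d (z p.1) q ≤ (g p.1).d (z p.1) (Ψ p.1 p.2) + (g p.1).d q (Ψ p.1 p.2) :=
      dist_triangle_right (α := Sl (g p.1)) _ _ _
    exact h1 q (by linarith) (by linarith [le_abs_self R])
  have ex : ∀ p : ι × E4, ∃ φ : E4 → M,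
      ((∀ j ≤ 1, ∀ q ∈ (g p.1).ball (Ψ p.1 p.2) r0, (g p.1).rm j q ≤ 1 ^ 2) ∧
        AC (g p.1) (z p.1) (b p.1) 1 1 κ) → Sk.BallCh φ (Ψ p.1 p.2) c ∧
      (∀ s, φ '' ball 0 s = (g p.1).ball (Ψ p.1 p.2) s) ∧ F.NC ((g p.1).pm φ) (ball 0 c) c := by
    intro p
    by_cases H : (∀ j ≤ 1, ∀ q ∈ (g p.1).ball (Ψ p.1 p.2) r0, (g p.1).rm j q ≤ 1 ^ 2) ∧
        AC (g p.1) (z p.1) (b p.1) 1 1 κ
    · obtain ⟨φ, -, h⟩ := hc (g p.1) (Ψ p.1 p.2) r0 r1 (fun j hj q hq => (H.1 j hj q hq).trans (by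
        have : r0 ^ (j + 2) ≤ 1 := pow_le_one₀ r1.le r3
        gcongr
        rwa [le_div_iff₀ (by positivity), one_mul]))
        fun q _ s hs => H.2.vol q s ⟨hs.1, hs.2.trans r3⟩
      exact ⟨φ, fun _ => h⟩
    · exact ⟨Ψ p.1, fun h => (H h).elim⟩
  choose φ hφ using ex
  have hφ' := ((((rm 0 1 one_pos).and (rm 1 1 one_pos)).mono fun p hp j hj => by
    rcases Nat.le_one_iff_eq_zero_or_eq_one.1 hj with rfl | rfl
    exacts [hp.1, hp.2]).and (t1.eventually (hI.ac 1 one_pos))).mono hφ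
  have mc' : MC 𝒰 (fun p => (g p.1).pm (φ p)) fun _ => ball 0 c := by
    refine mc_of_nc c3 (hφ'.mono fun p hp => hp.2.2) fun k δ hδ => ?_
    filter_upwards [hφ', rm k δ hδ] with p h1 h2 x hx
    rw [← h1.1.par.par_rm (g p.1) k hx]
    exact h2 _ (h1.2.1 r0 ▸ mem_image_of_mem _ (ball_subset_ball c4 hx))
  set Ψ' : ι × E4 → E4 → M := fun p y => Ψ p.1 (p.2 + y) with hΨ'
  have par : ∀ᶠ p in (𝒰 : Filter (ι × E4)), Par (Ψ' p) (ball 0 r) := by
    filter_upwards [t1.eventually hG.par, m1] with p h1 h2 using par_tr h1 (hU' _ h2)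
  have mc : MC 𝒰 (fun p => (g p.1).pm (Ψ' p)) fun _ => ball 0 r := by
    intro i j
    have t2 := un_fst (𝒰 : Filter (ι × E4)) fun _ => ball (0 : E4) r
    have m3 := un_mem (𝒰 : Filter (ι × E4)) fun _ => ball (0 : E4) r
    have m4 : ∀ᶠ q in un (𝒰 : Filter (ι × E4)) fun _ => ball (0 : E4) r, q.1.2 + q.2 ∈ U := by
      filter_upwards [t2.eventually m1, m3] with q h1 h2 using hU' _ h1 (by simpa using h2)
    have hB : GB (un (𝒰 : Filter (ι × E4)) fun _ => ball (0 : E4) r)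
        (fun q y => q.1.2 + y) Prod.snd :=
      (GB.const ⟨R, (t2.eventually m2).mono fun q hq => (hU _ hq).2⟩).add
        (GB.id ⟨r, m3.mono fun q hq => (mem_ball_zero_iff.1 hq).le⟩)
    refine ((hG.mc.at (t1.comp t2) m4 i j).comp hB.ge).congr_left ?_
    filter_upwards [(t1.comp t2).eventually hG.par, m4] with q h1 h2
    refine ⟨rfl, ?_⟩
    have : ContinuousAt (fun y => q.1.2 + y) q.2 := by fun_prop
    filter_upwards [this.eventually (h1.isOpen.mem_nhds h2)] with y hy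
    exact congrFun₂ (pm_tr _ h1 hy) i j
  have e0 : ∀ᶠ p in (𝒰 : Filter (ι × E4)), φ p 0 = Ψ' p 0 :=
    hφ'.mono fun p hp => by rw [hp.1.ctr, hΨ']; simp
  have exL : ∀ p, ∃ L, (Par (Ψ' p) (ball 0 r) ∧ Par (φ p) (ball 0 c) ∧ φ p 0 = Ψ' p 0) →
      IsD (Ψ' p) (φ p) 0 0 L := fun p => by
    by_cases H : Par (Ψ' p) (ball 0 r) ∧ Par (φ p) (ball 0 c) ∧ φ p 0 = Ψ' p 0
    · obtain ⟨L, hL⟩ := exists_isD H.1 H.2.1 (mem_ball_self hr) (mem_ball_self c3) H.2.2
      exact ⟨L, fun _ => hL⟩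
    · exact ⟨0, fun h => (H h).elim⟩
  choose L hL using exL
  have hL' := (par.and ((hφ'.mono fun p hp => hp.1.par).and e0)).mono hL
  obtain ⟨A, hA⟩ := exists_orth 𝒰 (L := L)
    (mc.at tendsto_id (Eventually.of_forall fun _ => mem_ball_self hr))
    (mc'.at tendsto_id (Eventually.of_forall fun _ => mem_ball_self c3))
    (by filter_upwards [hL', e0] with p h1 h2 using h1.bil (g p.1) h2)
  have rh : ∀ᶠ p in (𝒰 : Filter (ι × E4)),
      RH (Ψ' p) (φ p) (ball 0 r) (ball 0 c) A c (ball 0 ρ) := by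
    filter_upwards [par, hφ'] with p h1 h2
    refine ⟨h1, h2.1.par, fun x hx y hy _ e => h2.1.inj hx hy e, isOpen_ball,
      ball_subset_ball p1, fun y hy => closedBall_subset_ball' ?_⟩
    rw [dist_zero_right, A.norm_map]
    linarith [mem_ball_zero_iff.1 hy]
  have fh : FH 𝒰 (fun p => g p.1) Ψ' φ (fun _ => ball 0 r) (fun _ => ball 0 c)
      (fun _ => ball 0 ρ) (fun _ => A) c fun _ => 0 := by
    refine ⟨rh, mc, mc', c3, ⟨ρ, Eventually.of_forall fun _ => subset_rfl⟩, fun ε hε => ?_⟩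
    filter_upwards [hL', e0, Metric.tendsto_nhds.1 hA ε hε] with p h1 h2 h3
    exact ⟨mem_ball_self p0, 0, L p, h2, h1, by simpa using hε.le, by
      rw [← dist_eq_norm]; exact h3.le⟩
  filter_upwards [fh.c1 (ε := 1 / 2) (by norm_num), rh, hφ'] with p h1 h2 h3 y _ hy e
  have h0 : (0 : E4) ∈ ball (0 : E4) ρ := mem_ball_self p0
  have n1 : ∀ w ∈ ball (0 : E4) ρ, Nr (Ψ' p) (φ p) A c (ball 0 ρ) (1 / 2) w := fun w hw =>
    h1 w (ch_of_seg ((convex_ball 0 ρ).segment_subset h0 hw))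
  have hw : y - p.2 ∈ ball (0 : E4) ρ := by rwa [mem_ball_zero_iff, norm_sub_rev]
  have k := (convex_ball (0 : E4) ρ).norm_image_sub_le_of_norm_hasFDerivWithin_le
    (f := fun w => tr (Ψ' p) (φ p) A c w - A w)
    (fun w hw => (((h2.loc (n1 w hw).1).2.differentiableAt infty_ne).hasFDerivAt.sub
      (A : E4 →L[ℝ] E4).hasFDerivAt).hasFDerivWithinAt) (fun w hw => (n1 w hw).2.2) h0 hw
  have s1 := RH.spec (n1 _ hw).1
  have s0 := RH.spec (n1 _ h0).1
  have e1 : tr (Ψ' p) (φ p) A c (y - p.2) = tr (Ψ' p) (φ p) A c 0 :=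
    h3.1.inj (h2.mem hw s1.1) (h2.mem h0 s0.1) (by
      rw [s1.2, s0.2, hΨ']; simp only [add_sub_cancel, add_zero]; exact e.symm)
  rw [e1, map_zero, sub_zero, sub_zero, sub_sub_cancel_left, norm_neg, A.norm_map] at k
  have : ‖y - p.2‖ = 0 := by linarith [norm_nonneg (y - p.2)]
  exact (sub_eq_zero.1 (norm_eq_zero.1 this)).symm

end Crest.Agent.N207.Gs

end
end

-- ▼ part N207/G/Lo1
section

/-!
# Row 207, block G (helper24): Euclidean lemmas for `LONG`
-/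

set_option autoImplicit false
set_option linter.unusedSectionVars false

open scoped ContDiff Manifold Topology
open Set Filter Metric
open Crest.GeometryTopology.CoordMetric Crest.GeometryTopology.MetricFamily
open Crest.Agent.R202.Tens Crest.Agent.N207.Jt Crest.Agent.R247

noncomputable section

namespace Crest.Agent.N207.Gs.Lo

open Sk

theorem clm_le {L : E4 →L[ℝ] ℝ} {c : ℝ} (h : ∀ a, |L (EuclideanSpace.single a 1)| ≤ c) :
    ‖L‖ ≤ 4 * c := by
  have hc : 0 ≤ c := (abs_nonneg _).trans (h 0)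
  refine ContinuousLinearMap.opNorm_le_bound _ (by positivity) fun v => ?_
  conv_lhs => rw [F.sum_single' v]
  rw [map_sum, Real.norm_eq_abs, mul_assoc]
  refine Rad.sum4_le fun i => ?_
  rw [map_smul, smul_eq_mul, mul_comm c]
  exact Rad.abs_mul_le (F.abs_coord_le v i) (h i)

theorem pd_le (f : E4 → ℝ) (x : E4) (a : Fin 4) : |pderiv a f x| ≤ ‖fderiv ℝ f x‖ := by
  simpa [pderiv] using (fderiv ℝ f x).le_opNorm (EuclideanSpace.single a (1 : ℝ))

theorem pd_cd {f : E4 → ℝ} (hf : ContDiff ℝ ∞ f) (a : Fin 4) : ContDiff ℝ ∞ (pderiv a f) :=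
  contDiffOn_univ.1 (sm_pd isOpen_univ hf.contDiffOn a)

/-- second derivatives of an almost conical function -/
theorem d2_le {G : MetricField 4} {U : Set E4} {x : E4} {η B : ℝ} (hG : IsRiemannianOn G U)
    (hx : x ∈ U) (h : JG 1 G x 1 η) (hη : η ≤ 1 / 100) {f : E4 → ℝ} (hf : ContDiff ℝ ∞ f)
    (hP : nsq G (hessT G f) x - 4 * laplaceBeltrami G f x + 16 ≤ η ^ 2) (hB0 : 0 ≤ B)
    (hB : Bo84.gam G f f x ≤ B ^ 2) (a b : Fin 4) :
    |pderiv a (pderiv b f) x - 2 * (1 : Matrix (Fin 4) (Fin 4) ℝ) a b| ≤ (4 + 96 * B) * η := by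
  have h0 := Rad.jg_nonneg h
  have hp := hG.posDef x hx
  have h1 := Ar.comp_sq_le hp (Rad.jg_up h hη) (hessT G f x - (2 : ℝ) • matT G x) ![a, b]
  rw [Rad.ipA_sub_two hG hx] at h1
  rw [lapB_eq_trT hG hx (hf.contDiffAt.of_le Bo84.two_le_infty)] at hP
  have h2 : |(hessT G f x - (2 : ℝ) • matT G x) ![a, b]| ≤ 2 * η :=
    abs_le_of_sq_le_sq' (h1.trans (le_of_le_of_eq (mul_le_mul_of_nonneg_left hP (by norm_num))
      (by ring))) (by positivity) |> abs_le.2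
  have h3 : ∀ k, |pderiv k f x| ≤ 2 * B := fun k => by
    have a1 := Ar.comp_sq_le hp (Rad.jg_up h hη) (dT f x) ![k]
    have a2 : ipA (G x)⁻¹ (dT f x) (dT f x) = Bo84.gam G f f x := ip_dT G f f x
    rw [a2] at a1
    have a3 : pderiv k f x ^ 2 ≤ (2 * B) ^ 2 := le_trans a1 (by nlinarith [sq_nonneg B])
    exact abs_le.2 (abs_le_of_sq_le_sq' a3 (by positivity))
  have h4 := Rad.sum4_le fun k => Rad.abs_mul_le (Rad.jg_chr hG hx h hη le_rfl one_pos k a b) (h3 k)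
  rw [Pi.sub_apply, hessT_apply] at h2
  simp only [Pi.smul_apply, smul_eq_mul, matT, Matrix.cons_val_zero, Matrix.cons_val_one] at h2
  obtain ⟨c1, c2⟩ := abs_le.1 h2
  obtain ⟨c3, c4⟩ := abs_le.1 h4
  obtain ⟨c5, c6⟩ := abs_le.1 (Rad.jg_ent h a b)
  exact abs_le.2 ⟨by linarith, by linarith⟩

/-- Taylor estimates along rays -/
theorem taylor {u : E4 → ℝ} (hu : ContDiff ℝ ∞ u) {U : Set E4} (hs : StarConvex ℝ 0 U) {R ε : ℝ}
    (hR : U ⊆ ball 0 R) (h2 : ∀ x ∈ U, ∀ a b, |pderiv a (pderiv b u) x| ≤ ε)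
    (h1 : ‖fderiv ℝ u 0‖ ≤ ε) (h0 : |u 0| ≤ ε) {v : E4} (hv : v ∈ U) :
    ‖fderiv ℝ u v‖ ≤ 4 * (4 * R + 1) * ε ∧ |u v| ≤ (1 + 4 * (4 * R + 1) * R) * ε := by
  have he : 0 ≤ ε := (abs_nonneg _).trans h0
  have key : ∀ {f : E4 → ℝ} {c : ℝ}, ContDiff ℝ ∞ f → 0 ≤ c → (∀ x ∈ U, ‖fderiv ℝ f x‖ ≤ c) →
      ∀ w ∈ U, |f w| ≤ |f 0| + c * R := fun {f c} hf hc hb w hw => by
    have a1 := (convex_segment (0 : E4) w).norm_image_sub_le_of_norm_fderiv_le (𝕜 := ℝ)
      (fun x _ => hf.differentiable (by simp) x) (fun x hx => hb x (hs.segment_subset hw hx))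
      (left_mem_segment _ _ _) (right_mem_segment _ _ _)
    rw [sub_zero, Real.norm_eq_abs] at a1
    have a2 := mul_le_mul_of_nonneg_left (mem_ball_zero_iff.1 (hR hw)).le hc
    linarith [abs_sub_abs_le_abs_sub (f w) (f 0)]
  have h3 : ∀ w ∈ U, ‖fderiv ℝ u w‖ ≤ 4 * (4 * R + 1) * ε := fun w hw => by
    rw [mul_assoc]
    refine clm_le fun b => (key (pd_cd hu b) (c := 4 * ε) (by positivity)
      (fun x hx => clm_le fun a => h2 x hx a b) w hw).trans ?_
    linarith [(pd_le u 0 b).trans h1]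
  refine ⟨h3 v hv, (key hu ((norm_nonneg _).trans (h3 v hv)) h3 v hv).trans ?_⟩
  linarith

theorem q_cd (e : E4) : ContDiff ℝ ∞ fun v => Rad.nq (e + v) :=
  Rad.nq_cd.comp (contDiff_const.add contDiff_id)

theorem q_fd (e v : E4) : fderiv ℝ (fun v => Rad.nq (e + v)) v = (2 : ℝ) • innerSL ℝ (e + v) := by
  rw [fderiv_comp_add_left, show Rad.nq = fun y : E4 => ‖y‖ ^ 2 from rfl,
    (hasStrictFDerivAt_norm_sq _).hasFDerivAt.fderiv, two_smul, two_smul]

theorem q_pd2 (e v : E4) (a b : Fin 4) : pderiv a (pderiv b fun v => Rad.nq (e + v)) v =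
    2 * (1 : Matrix (Fin 4) (Fin 4) ℝ) a b := by
  have : (pderiv b fun v => Rad.nq (e + v)) = fun v => pderiv b Rad.nq (e + v) :=
    funext fun v => by unfold pderiv; rw [fderiv_comp_add_left]
  rw [this, ← Rad.pd_pd_nq a b (e + v)]
  unfold pderiv
  rw [fderiv_comp_add_left (f := fun y => fderiv ℝ Rad.nq y (EuclideanSpace.single b 1))]

theorem ev_small (K : ℝ) {c : ℝ} (hc : 0 < c) : ∀ᶠ η in 𝓝[>] (0 : ℝ), K * η ≤ c := by
  have : Tendsto (fun η : ℝ => K * η) (𝓝 0) (𝓝 (K * 0)) := tendsto_id.const_mul K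
  rw [mul_zero] at this
  exact (this.eventually (ge_mem_nhds hc)).filter_mono nhdsWithin_le_nhds

variable {ι : Type} {l : Filter ι}

theorem mc_of_jg {G : ι → MetricField 4} {S : ι → Set E4}
    (hs : ∀ j a b, ContDiff ℝ ∞ fun x => G j x a b)
    (h : ∀ (m : ℕ) (ε : ℝ), 0 < ε → ∀ᶠ j in l, ∀ y ∈ S j, JG m (G j) y 1 ε) : MC l G S := by
  intro a b
  have h1 : ∀ k : ℕ, Tendsto (fun p : ι × E4 => iteratedFDeriv ℝ k (dv (G p.1) a b) p.2) (un l S)
      (𝓝 0) := fun k => (tendsto_iff_dist_tendsto_zero.2 (tendsto_order.2 ⟨fun c hc =>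
    .of_forall fun p => hc.trans_le dist_nonneg, fun c hc => ev_un.2 ((h k (c / 2) (half_pos hc)).mono
      fun j hj y hy => by
        have := hj y hy k le_rfl a b
        rw [J1, one_pow, mul_one] at this
        rw [dist_zero_right]
        exact this.trans_lt (half_lt_self hc))⟩))
  have h2 : GE (un l S) (fun p => dv (G p.1) a b) Prod.snd (fun _ _ => 0) Prod.snd :=
    ⟨⟨.of_forall fun p => ((hs p.1 a b).sub contDiff_const).contDiffAt, fun k =>
      ⟨1, ((tendsto_zero_iff_norm_tendsto_zero.1 (h1 k)).eventually (ge_mem_nhds one_pos))⟩⟩,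
      GB.const' 0, fun k => by simpa using h1 k⟩
  simpa [dv] using h2.add (GE.const' ((1 : Matrix (Fin 4) (Fin 4) ℝ) a b))

theorem jg_sub {m : ℕ} {G : MetricField 4} {y e : E4} {s c : ℝ} (h : JG m G (y - e) s c) :
    JG m (fun x => G (x - e)) y s c := fun k hk a b => by
  have := h k hk a b
  rw [J1, ← iteratedFDeriv_comp_sub] at this
  exact this

/-- the visible region, seen from `e` -/
def Wd (e : E4) (s R : ℝ) : Set E4 := {v | e + v ∈ Dm e s R}

theorem wd_open (e : E4) (s R : ℝ) : IsOpen (Wd e s R) :=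
  (isOpen_dm e s R).preimage (continuous_const.add continuous_id)

variable {e v : E4} {s R : ℝ}

theorem wd_zero (he : ‖e‖ = 1) (hs : s < 1) (hR : 1 < R) : (0 : E4) ∈ Wd e s R := by
  have : inner ℝ e e = (1 : ℝ) := by rw [real_inner_self_eq_norm_sq, he, one_pow]
  exact ⟨by rw [add_zero, he]; exact hR, e, by linarith, by linarith, by rw [add_zero]; linarith⟩

theorem wd_smul (he : ‖e‖ = 1) (hR : 1 < R) (hv : v ∈ Wd e s R) {t : ℝ} (ht : t ∈ Icc (0 : ℝ) 1) :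
    t • v ∈ Wd e s R := by
  obtain ⟨h1, w, h2, h3, h4⟩ := hv
  have e1 : e + t • v = (1 - t) • e + t • (e + v) := by module
  refine ⟨?_, w, h2, h3, ?_⟩
  · rw [e1]
    exact mem_ball_zero_iff.1 (convex_ball (0 : E4) R (mem_ball_zero_iff.2 (he ▸ hR))
      (mem_ball_zero_iff.2 h1) (by linarith [ht.2]) ht.1 (by ring))
  · rw [e1, inner_add_right, real_inner_smul_right, real_inner_smul_right]
    have := convex_Ioi s h3 h4 (show 0 ≤ 1 - t by linarith [ht.2]) ht.1 (by ring)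
    exact this

theorem wd_ball (he : ‖e‖ = 1) : Wd e s R ⊆ ball 0 (R + 1) := fun v hv => by
  have := norm_sub_le (e + v) e
  rw [add_sub_cancel_left, he] at this
  exact mem_ball_zero_iff.2 (by linarith [hv.1])

theorem wd_lo (hv : v ∈ Wd e s R) : s / 3 ≤ ‖e + v‖ := by
  obtain ⟨-, w, h2, -, h4⟩ := hv
  nlinarith [real_inner_le_norm w (e + v), norm_nonneg (e + v)]

theorem star_of {U : Set E4} (h : ∀ v ∈ U, ∀ t ∈ Icc (0 : ℝ) 1, t • v ∈ U) : StarConvex ℝ 0 U :=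
  fun v hv a b ha hb hab => by
    rw [smul_zero, zero_add]; exact h v hv b ⟨hb, by linarith⟩

/-- the continuity method along rays -/
theorem exit {W V C : Set E4} (hW : IsOpen W) (hs : ∀ v ∈ W, ∀ t ∈ Icc (0 : ℝ) 1, t • v ∈ W)
    (h0 : (0 : E4) ∈ W) (hV : IsOpen V) (hC : IsClosed C) (hCV : C ⊆ V) (h0' : (0 : E4) ∈ V)
    (h : ∀ U, IsOpen U → StarConvex ℝ 0 U → (0 : E4) ∈ U → U ⊆ W → U ⊆ V → U ⊆ C) : W ⊆ V := by
  set U : Set E4 := {v | v ∈ W ∧ ∀ t ∈ Icc (0 : ℝ) 1, t • v ∈ V} with hU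
  have hUo : IsOpen U := isOpen_iff_mem_nhds.2 fun v hv => (hW.eventually_mem hv.1).and
    (isCompact_Icc.eventually_forall_of_forall_eventually (P := fun (x : E4) (t : ℝ) => t • x ∈ V)
      fun t ht => (show Continuous fun z : E4 × ℝ => z.2 • z.1 by fun_prop).continuousAt.eventually
        (hV.eventually_mem (hv.2 t ht)))
  have hUC := h U hUo (star_of fun v hv t ht => ⟨hs v hv.1 t ht, fun τ hτ => by
    rw [smul_smul]; exact hv.2 _ ⟨mul_nonneg hτ.1 ht.1, mul_le_one₀ hτ.2 ht.1 ht.2⟩⟩)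
    ⟨h0, fun t _ => by rwa [smul_zero]⟩ (fun v hv => hv.1)
    fun v hv => by simpa using hv.2 1 ⟨zero_le_one, le_rfl⟩
  intro v hv
  have hc : Continuous fun t : ℝ => t • v := by fun_prop
  have := IsClosed.Icc_subset_of_forall_mem_nhdsGT_of_Icc_subset (a := (0 : ℝ)) (b := 1)
    (s := {t | t • v ∈ C}) ((hC.preimage hc).inter isClosed_Icc)
    (hUC ⟨by rwa [zero_smul], fun t _ => by rwa [zero_smul, smul_zero]⟩) fun t ht h1 =>
      mem_nhdsWithin_of_mem_nhds (mem_of_superset (hc.continuousAt.preimage_mem_nhds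
        (hUo.mem_nhds ⟨hs v hv t ⟨ht.1, ht.2.le⟩, fun τ hτ => by
          rw [smul_smul]
          exact hCV (h1 ⟨mul_nonneg hτ.1 ht.1, mul_le_of_le_one_left ht.1 hτ.2⟩)⟩))
        fun τ hτ => hUC hτ)
  simpa using hCV (this ⟨zero_le_one, le_rfl⟩)

end Crest.Agent.N207.Gs.Lo

end
end

-- ▼ part N207/G/Lo2
section

/-!
# Row 207, block G (helper24): `LONG` and `DIR`
-/

set_option autoImplicit false
set_option linter.unusedSectionVars false

open scoped ContDiff Manifold Topology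
open Set Filter Metric
open Crest.GeometryTopology.CoordMetric Crest.GeometryTopology.MetricFamily
open Crest.Agent.R202.Tens Crest.Agent.N207.Jt Crest.Agent.R247

noncomputable section

namespace Crest.Agent.N207.Gs

open Sk

universe u

variable {M : Type u} [TopologicalSpace M] [ChartedSpace E4 M] [IsManifold 𝓘(ℝ, E4) ∞ M]
  [T3Space M] [ConnectedSpace M] [MeasurableSpace M] [BorelSpace M]

namespace Lo

/-- the data at one index -/
structure Dt (g : Met 4 M) (z : M) (b : M → ℝ) (κ : ℝ) (p : M) (Φ : E4 → M) (e : E4) (δ : ℝ) :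
    Prop where
  ac : AC g z b 1 δ κ
  ex : F.IsExp g p Φ
  dp : |g.d z p - 1| ≤ δ
  he : ‖e‖ = 1
  df : ‖fderiv ℝ (fun y => b (Φ y)) 0 - (2 : ℝ) • innerSL ℝ e‖ ≤ δ

variable {g : Met 4 M} {z p : M} {b : M → ℝ} {κ δ : ℝ} {Φ : E4 → M} {e : E4}

theorem f_cd (hb : Sm 4 b) (h : F.IsExp g p Φ) : ContDiff ℝ ∞ fun y => b (Φ y) :=
  contMDiff_iff_contDiff.1 (hb.comp h.sm)

theorem d_cont (h : F.IsExp g p Φ) (z : M) : Continuous fun y => g.d z (Φ y) :=
  (continuous_const.dist continuous_id : Continuous fun q : Sl g => dist (α := Sl g) z q).comp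
    h.sm.continuous

theorem d_up (h : F.IsExp g p Φ) (z : M) (v : E4) : g.d z (Φ v) ≤ g.d z p + ‖v‖ := by
  have h1 : g.d z (Φ v) ≤ g.d z p + g.d p (Φ v) := dist_triangle (α := Sl g) _ _ _
  have h2 : g.d p (Φ v) = g.d (Φ v) p := dist_comm (α := Sl g) _ _
  linarith [h.d_le v]

/-- the set where the pull-back metric is close to the Euclidean one -/
theorem par_near (h : F.IsExp g p Φ) {U : Set E4} (hU : IsOpen U) (h1 : ∀ v ∈ U, ∀ a b,
    |g.pm Φ v a b - (1 : Matrix (Fin 4) (Fin 4) ℝ) a b| ≤ 1 / 50) : Par Φ U :=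
  ⟨hU, h.sm.contMDiffOn, fun v hv => F.inj_of_pos g fun w hw => by
    have a1 := (abs_le.1 (F.gB_near (h1 v hv) w)).1
    have a2 : 0 < ‖w‖ ^ 2 := by positivity
    push_cast at a1
    linarith⟩

theorem near_open (h : F.IsExp g p Φ) :
    IsOpen {v | ∀ a b, |g.pm Φ v a b - (1 : Matrix (Fin 4) (Fin 4) ℝ) a b| < 1 / 50} := by
  simp only [ofPred_forall]
  exact isOpen_iInter_of_finite fun a => isOpen_iInter_of_finite fun b =>
    isOpen_lt ((h.contDiff_pm a b).continuous.sub continuous_const).abs continuous_const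

variable (M) in
/-- the estimates on star-shaped sets that stay away from the tip -/
theorem core {a R ε : ℝ} (ha : 0 < a) (hR : 1 ≤ R) (m : ℕ) (hε : 0 < ε) : ∃ δ, 0 < δ ∧
    ∀ {g : Met 4 M} {z p : M} {b : M → ℝ} {κ : ℝ} {Φ : E4 → M} {e : E4} {U : Set E4},
      Dt g z b κ p Φ e δ → Par Φ U → StarConvex ℝ 0 U → (0 : E4) ∈ U → U ⊆ ball 0 R →
      (∀ v ∈ U, a ≤ g.d z (Φ v)) → ∀ v ∈ U, JG m (g.pm Φ) v 1 ε ∧ |g.d z (Φ v) - ‖e + v‖| ≤ ε ∧
        ‖fderiv ℝ (fun y => b (Φ y)) v - (2 : ℝ) • innerSL ℝ (e + v)‖ ≤ ε := by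
  obtain ⟨C, hC0, hC⟩ := F.ck_bound 4 (m + 1) 1
  set B : ℝ := 2 * R + 7 with hB
  set D : ℝ := 2 + 4 * (4 * R + 1) * R with hD
  obtain ⟨η, ⟨⟨⟨e1, e2⟩, e3⟩, e4⟩, e0⟩ := (((((ev_small 1 (c := 1 / 100) (by norm_num)).and
    (ev_small 1 hε)).and (ev_small (D * (4 + 96 * B)) hε)).and
    (ev_small (D * (4 + 96 * B)) (mul_pos hε ha))).and self_mem_nhdsWithin).exists
  have e0 : 0 < η := e0
  rw [one_mul] at e1 e2
  obtain ⟨δ, ⟨⟨⟨⟨d1, d2⟩, d3⟩, d4⟩, d5⟩, d0⟩ := ((((((ev_small ((m : ℝ) + 1) one_pos).and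
    (ev_small 1 ha)).and (ev_small (R + 2) one_pos)).and (ev_small 1 (pow_pos e0 2))).and
    (ev_small (R ^ (m + 3)) (show 0 < η / (C + 1) by positivity))).and self_mem_nhdsWithin).exists
  have d0 : 0 < δ := d0
  rw [one_mul] at d2 d4
  have d6 : δ ≤ η := d4.trans (by nlinarith)
  refine ⟨δ, d0, fun {g z p b κ Φ e U} h hP hs h0 hU hd => ?_⟩
  have hdp := abs_le.1 h.dp
  have hup : ∀ v ∈ U, g.d z (Φ v) ≤ R + 2 := fun v hv => by
    linarith [d_up h.ex z v, mem_ball_zero_iff.1 (hU hv)]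
  have c1 : ∀ v ∈ U, δ * 1 ≤ g.d z (Φ v) := fun v hv => by linarith [hd v hv]
  have c2 : ∀ v ∈ U, δ * g.d z (Φ v) ≤ 1 := fun v hv => by nlinarith [hup v hv]
  have hη' : η / (C + 1) ≤ 1 := by rw [div_le_one (by positivity)]; linarith
  have hJ : ∀ v ∈ U, JG (m + 1) (g.pm Φ) v 1 η := fun v hv k hk i j => by
    have a1 := hC (h.ex.nc hP hs h0 hU) (show 0 < η / (C + 1) by positivity) hη'
      (fun j hj x hx => by
        rw [← hP.par_rm g j hx]
        have a2 : (j : ℝ) ≤ m + 1 := by exact_mod_cast hj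
        refine (h.ac.rm j (by nlinarith) _ (c1 x hx) (c2 x hx)).trans ?_
        rw [one_pow, div_one]
        refine pow_le_pow_left₀ d0.le ?_ 2
        rw [le_div_iff₀ (by positivity)]
        have a3 : R ^ (j + 2) ≤ R ^ (m + 3) := pow_le_pow_right₀ hR (by omega)
        nlinarith) k hk v hv i j
    rw [J1, one_pow, mul_one]
    refine a1.trans ((div_le_self (by positivity) (one_le_pow₀ hR)).trans ?_)
    rw [mul_div_assoc', div_le_iff₀ (by positivity)]
    nlinarith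
  have hf := f_cd h.ac.sm h.ex
  have hB0 : 0 ≤ B := by linarith
  have h2 : ∀ x ∈ U, ∀ i j, |pderiv i (pderiv j fun v => b (Φ v) - Rad.nq (e + v)) x| ≤
      (4 + 96 * B) * η := fun x hx i j => by
    have a1 : (pderiv j fun v => b (Φ v) - Rad.nq (e + v)) = fun y =>
        pderiv j (fun v => b (Φ v)) y - pderiv j (fun v => Rad.nq (e + v)) y :=
      funext fun y => pd_sub j (hf.differentiable (by simp) y) ((q_cd e).differentiable (by simp) y)
    rw [a1, pd_sub i ((pd_cd hf j).differentiable (by simp) x)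
      ((pd_cd (q_cd e) j).differentiable (by simp) x), q_pd2]
    refine d2_le (hP.riem g) hx (Rad.jg_mono (hJ x hx) (by omega) le_rfl) e1 hf ?_ hB0 ?_ i j
    · rw [← hP.par_hh g h.ac.sm hx, ← hP.par_lap g h.ac.sm hx]
      exact (h.ac.hess _ (c1 x hx) (c2 x hx)).trans d4
    · rw [← hP.par_gam g h.ac.sm h.ac.sm hx]
      have a2 := (abs_le.1 (h.ac.gam _ (c1 x hx) (c2 x hx))).2
      have a3 := (abs_le.1 (h.ac.val _ (c1 x hx) (c2 x hx))).2
      have a4 : g.d z (Φ x) ^ 2 ≤ (R + 2) ^ 2 := pow_le_pow_left₀ (ha.le.trans (hd x hx)) (hup x hx) 2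
      rw [hB]; nlinarith
  have hdu : ∀ v, fderiv ℝ (fun v => b (Φ v) - Rad.nq (e + v)) v =
      fderiv ℝ (fun y => b (Φ y)) v - (2 : ℝ) • innerSL ℝ (e + v) := fun v => by
    rw [fderiv_fun_sub (hf.differentiable (by simp) v) ((q_cd e).differentiable (by simp) v), q_fd]
  have h4η : 4 * η ≤ (4 + 96 * B) * η := by nlinarith
  intro v hv
  obtain ⟨t1, t2⟩ := taylor (hf.sub (q_cd e)) hs hU h2
    (by rw [hdu, add_zero]; linarith [h.df]) (by
      have a1 := abs_le.1 (h.ac.val _ (c1 0 h0) (c2 0 h0))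
      rw [h.ex.zero] at a1
      simp only [add_zero, Rad.nq, h.he, h.ex.zero]
      exact abs_le.2 ⟨by nlinarith, by nlinarith⟩) hv
  have hη2 : 0 ≤ (4 + 96 * B) * η := by positivity
  refine ⟨Rad.jg_mono (hJ v hv) (by omega) e2, ?_, ?_⟩
  · have a1 := abs_le.1 (h.ac.val _ (c1 v hv) (c2 v hv))
    have a2 := abs_le.1 t2
    have a3 : |g.d z (Φ v) ^ 2 - ‖e + v‖ ^ 2| ≤ ε * a := by
      simp only [Rad.nq] at a2
      rw [mul_assoc, hD] at e4
      exact abs_le.2 ⟨by linarith, by linarith⟩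
    rw [sq_sub_sq, abs_mul, abs_of_nonneg (by linarith [hd v hv, norm_nonneg (e + v)])] at a3
    have a4 := mul_le_mul_of_nonneg_right (show a ≤ g.d z (Φ v) + ‖e + v‖ by
      linarith [hd v hv, norm_nonneg (e + v)]) (abs_nonneg (g.d z (Φ v) - ‖e + v‖))
    nlinarith
  · rw [← hdu]
    refine t1.trans (le_trans ?_ e3)
    rw [mul_assoc D]
    exact mul_le_mul_of_nonneg_right (by rw [hD]; nlinarith) hη2

variable (M) in
/-- the rays do not reach the tip, and there are no conjugate points -/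
theorem vis {s R : ℝ} (hs : 0 < s) (hs1 : s < 1) (hR : 1 < R) : ∃ δ, 0 < δ ∧
    ∀ {g : Met 4 M} {z p : M} {b : M → ℝ} {κ : ℝ} {Φ : E4 → M} {e : E4}, Dt g z b κ p Φ e δ →
      |g.d z p - 1| ≤ 1 / 2 → Par Φ (Wd e s R) ∧ ∀ v ∈ Wd e s R, s / 6 ≤ g.d z (Φ v) := by
  obtain ⟨δ, d0, hδ⟩ := core M (a := s / 6) (R := R + 1) (ε := min (1 / 100) (s / 12))
    (by positivity) (by linarith) 0 (by positivity)
  refine ⟨δ, d0, fun {g z p b κ Φ e} h hp => ?_⟩
  have key := exit (V := {v | ∀ a b, |g.pm Φ v a b - (1 : Matrix (Fin 4) (Fin 4) ℝ) a b| < 1 / 50} ∩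
      {v | s / 6 < g.d z (Φ v)})
    (C := {v | ∀ a b, |g.pm Φ v a b - (1 : Matrix (Fin 4) (Fin 4) ℝ) a b| ≤ 1 / 100} ∩
      {v | s / 4 ≤ g.d z (Φ v)}) (wd_open e s R) (fun v hv t ht => wd_smul h.he hR hv ht)
    (wd_zero h.he hs1 hR) ((near_open h.ex).inter (isOpen_lt continuous_const (d_cont h.ex z)))
    (IsClosed.inter (by
      simp only [ofPred_forall]
      exact isClosed_iInter fun a => isClosed_iInter fun b => isClosed_le
        ((h.ex.contDiff_pm a b).continuous.sub continuous_const).abs continuous_const)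
      (isClosed_le continuous_const (d_cont h.ex z)))
    (fun v hv => ⟨fun a b => (hv.1 a b).trans_lt (by norm_num),
      lt_of_lt_of_le (show s / 6 < s / 4 by linarith) hv.2⟩)
    ⟨fun a b => by rw [h.ex.one]; norm_num, by
      show s / 6 < g.d z (Φ 0)
      rw [h.ex.zero]; linarith [(abs_le.1 hp).1]⟩
    fun U h1 h2 h3 h4 h5 v hv => by
      obtain ⟨a1, a2, -⟩ := hδ h (par_near h.ex h1 fun w hw a b => ((h5 hw).1 a b).le) h2 h3
        (h4.trans (wd_ball h.he)) (fun w hw => le_of_lt (h5 hw).2) v hv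
      refine ⟨fun a b => (Rad.jg_ent a1 a b).trans (min_le_left _ _), ?_⟩
      show s / 4 ≤ g.d z (Φ v)
      linarith [(abs_le.1 (a2.trans (min_le_right _ _))).1, wd_lo (h4 hv)]
  exact ⟨par_near h.ex (wd_open e s R) fun v hv a b => ((key hv).1 a b).le,
    fun v hv => le_of_lt (key hv).2⟩

theorem pm_sub (h : F.IsExp g p Φ) (e : E4) :
    g.pm (fun y => Φ (y - e)) = fun y => g.pm Φ (y - e) := by
  funext y
  ext i j
  rw [← bil_single (g.pm _ y), pm_comp_bil g (T := fun y => y - e)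
    ((h.sm _).mdifferentiableAt (by simp)) (by fun_prop), fderiv_sub_const, fderiv_fun_id]
  exact bil_single _ i j

end Lo

open Lo

theorem long : LONG M := by
  intro ι l g z b κ p Φ e hI hE hd he hf s R hs hs1 hR
  have h1 : ∀ δ, 0 < δ → ∀ᶠ j in l, |(g j).d (z j) (p j) - 1| ≤ δ := fun δ hδ =>
    (Metric.tendsto_nhds.1 hd δ hδ).mono fun j hj => le_of_lt hj
  have h2 : ∀ δ, 0 < δ → ∀ᶠ j in l, Dt (g j) (z j) (b j) κ (p j) (Φ j) e δ := fun δ hδ => by
    filter_upwards [hI.ac δ hδ, h1 δ hδ, Metric.tendsto_nhds.1 hf δ hδ] with j a1 a2 a3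
    exact ⟨a1, hE j, a2, he, by rw [← dist_eq_norm]; exact a3.le⟩
  obtain ⟨δ0, d0, h3⟩ := vis M hs hs1 hR
  have h4 := ((h2 δ0 d0).and (h1 _ one_half_pos)).mono fun j hj => h3 hj.1 hj.2
  have hm : ∀ y ∈ Dm e s R, y - e ∈ Wd e s R := fun y hy => by
    show e + (y - e) ∈ Dm e s R
    rwa [add_sub_cancel]
  have h5 : ∀ (m : ℕ) (ε : ℝ), 0 < ε → ∀ᶠ j in l, ∀ y ∈ Dm e s R,
      JG m ((g j).pm (Φ j)) (y - e) 1 ε ∧ |(g j).d (z j) (Φ j (y - e)) - ‖y‖| ≤ ε ∧
      ‖fderiv ℝ (fun y => b j (Φ j y)) (y - e) - (2 : ℝ) • innerSL ℝ y‖ ≤ ε := fun m ε hε => by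
    obtain ⟨δ, d1, h6⟩ := core M (a := s / 6) (R := R + 1) (by positivity) (by linarith) m hε
    filter_upwards [h2 δ d1, h4] with j a1 a2 y hy
    have := h6 a1 a2.1 (star_of fun v hv t ht => wd_smul he hR hv ht) (wd_zero he hs1 hR)
      (wd_ball he) a2.2 _ (hm y hy)
    rwa [add_sub_cancel] at this
  refine ⟨h4.mono fun j hj => par_comp hj.1 (T := fun y => y - e) (isOpen_dm e s R) (by fun_prop) hm
    fun y _ => by rw [fderiv_sub_const, fderiv_fun_id]; exact fun _ _ h => h, ?_,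
    fun ε hε => (h5 0 ε hε).mono fun j hj y hy => (hj y hy).2.1,
    fun ε hε => (h5 0 ε hε).mono fun j hj y hy => ?_⟩
  · simp only [fun j => pm_sub (hE j) e]
    exact mc_of_jg (fun j a c => ((hE j).contDiff_pm a c).comp (contDiff_id.sub contDiff_const))
      fun m ε hε => (h5 m ε hε).mono fun j hj y hy => jg_sub (hj y hy).1
  · rw [fderiv_comp_sub (f := fun y => b j (Φ j y))]
    exact (hj y hy).2.2

theorem dir : DIR M := by
  intro ι 𝒰 g z b κ p Φ hI hE hd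
  set w : ι → E4 := fun j => (1 / 2 : ℝ) • (InnerProductSpace.toDual ℝ E4).symm
    (fderiv ℝ (fun y => b j (Φ j y)) 0) with hw
  have e1 : ∀ j, fderiv ℝ (fun y => b j (Φ j y)) 0 = (2 : ℝ) • innerSL ℝ (w j) := fun j => by
    ext v
    simp [hw]
  have e2 : ∀ᶠ j in (𝒰 : Filter ι), (g j).gam (b j) (b j) (p j) = 4 * ‖w j‖ ^ 2 :=
    (hI.ac 1 one_pos).mono fun j hj => by
      have hP := par_near (hE j) (near_open (hE j)) fun v hv a c => (hv a c).le
      have := hP.par_gam (g j) hj.sm hj.sm (y := 0) fun a c => by rw [(hE j).one]; norm_num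
      rw [(hE j).zero] at this
      rw [this, EuclideanSpace.real_norm_sq_eq, Finset.mul_sum]
      simp only [Bo84.gam, inverseField, (hE j).one, inv_one, pderiv, e1]
      refine Finset.sum_congr rfl fun a _ => ?_
      simp [Matrix.one_apply, EuclideanSpace.inner_single_right]
      ring
  have h1 : Tendsto (fun j => ‖w j‖ ^ 2) 𝒰 (𝓝 1) := by
    refine Metric.tendsto_nhds.2 fun ε hε => ?_
    have d0 : 0 < min (1 / 2) (ε / 8) := by positivity
    filter_upwards [hI.ac _ d0, Metric.tendsto_nhds.1 hd _ d0, e2] with j a1 a2 a3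
    have b1 := min_le_left (1 / 2 : ℝ) (ε / 8)
    have b2 := min_le_right (1 / 2 : ℝ) (ε / 8)
    generalize min (1 / 2 : ℝ) (ε / 8) = δ at *
    obtain ⟨a4, a5⟩ := abs_lt.1 a2
    have c1 : δ * 1 ≤ (g j).d (z j) (p j) := by linarith
    have c2 : δ * (g j).d (z j) (p j) ≤ 1 := by nlinarith
    obtain ⟨a6, a7⟩ := abs_le.1 (a1.gam _ c1 c2)
    obtain ⟨a8, a9⟩ := abs_le.1 (a1.val _ c1 c2)
    exact abs_lt.2 ⟨by nlinarith, by nlinarith⟩
  have h2 : Tendsto (fun j => ‖w j‖) 𝒰 (𝓝 1) := by simpa using h1.sqrt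
  obtain ⟨e, -, he⟩ := (isCompact_closedBall (0 : E4) 2).ultrafilter_le_nhds (𝒰.map w)
    (le_principal_iff.2 ((h2.eventually (ge_mem_nhds one_lt_two)).mono fun j hj =>
      mem_closedBall_zero_iff.2 hj))
  have he' : Tendsto w 𝒰 (𝓝 e) := he
  refine ⟨e, tendsto_nhds_unique he'.norm h2, ?_⟩
  simp only [e1]
  exact (((innerSL ℝ).continuous.tendsto e).comp he').const_smul _

end Crest.Agent.N207.Gs

end
end

-- ▼ part N207/A/Scl
section

/-!
# Row 207 (helper8): scaling laws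
-/

set_option autoImplicit false
set_option linter.unusedSectionVars false

open scoped ContDiff Manifold Topology
open Set MeasureTheory Filter
open Crest.GeometryTopology.CoordMetric Crest.GeometryTopology.ChartCurvature
  Crest.GeometryTopology.MetricFamily
open Crest.Agent.R247

noncomputable section

namespace Crest.Agent.N207

namespace Scl

variable {n k : ℕ} {c : ℝ} (G : MetricField n)

theorem inv_smul (hc : c ≠ 0) (A : Matrix (Fin n) (Fin n) ℝ) : (c • A)⁻¹ = c⁻¹ • A⁻¹ := by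
  by_cases h : IsUnit A.det
  · refine Matrix.inv_eq_left_inv ?_
    rw [smul_mul_smul_comm, Matrix.nonsing_inv_mul _ h, inv_mul_cancel₀ hc, one_smul]
  · rw [Matrix.nonsing_inv_apply_not_isUnit _ h, smul_zero, Matrix.nonsing_inv_apply_not_isUnit]
    rw [Matrix.det_smul]
    exact fun h' => h (isUnit_of_mul_isUnit_right h')

theorem sqrt_det (hc : 0 < c) (A : Matrix (Fin n) (Fin n) ℝ) :
    √(c • A).det = √c ^ n * √A.det := by
  rw [Matrix.det_smul, Real.sqrt_mul (by positivity), Fintype.card_fin]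
  congr 1
  rw [Real.sqrt_eq_iff_mul_self_eq (by positivity) (by positivity), ← mul_pow,
    Real.mul_self_sqrt hc.le]

theorem christoffel (hc : c ≠ 0) : christoffel (fun y => c • G y) = christoffel G := by
  funext y l i j
  simp only [GeometryTopology.CoordMetric.christoffel, inverseField, inv_smul hc, Matrix.smul_apply, smul_eq_mul,
    pd_cmul]
  congr 1
  refine Finset.sum_congr rfl fun a _ => ?_
  field_simp


theorem riemann (hc : c ≠ 0) : riemann (fun y => c • G y) = riemann G := by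
  funext y l a i j
  simp only [GeometryTopology.ChartCurvature.riemann, christoffel G hc]


theorem rmT (hc : c ≠ 0) : rmT (fun y => c • G y) = c • rmT G := by
  funext y I
  simp only [N207.rmT, riemannLower, riemann G hc, Matrix.smul_apply, smul_eq_mul, Pi.smul_apply,
    Finset.mul_sum, mul_assoc]



theorem gam (hc : c ≠ 0) (f h : En n → ℝ) (y : En n) :
    Bo84.gam (fun y => c • G y) f h y = c⁻¹ * Bo84.gam G f h y := by
  simp only [Bo84.gam, inverseField, inv_smul hc, Matrix.smul_apply, smul_eq_mul, Finset.mul_sum,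
    mul_assoc]

theorem lap (hc : 0 < c) (f : En n → ℝ) (y : En n) :
    laplaceBeltrami (fun y => c • G y) f y = c⁻¹ * laplaceBeltrami G f y := by
  have h : ∀ i, (fun y => √(c • G y).det * ∑ j, inverseField (fun y => c • G y) y i j *
      pderiv j f y) = fun y => (√c ^ n * c⁻¹) *
        (√(G y).det * ∑ j, inverseField G y i j * pderiv j f y) := fun i => funext fun y => by
    simp only [sqrt_det hc, inverseField, inv_smul hc.ne', Matrix.smul_apply, smul_eq_mul,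
      mul_assoc, ← Finset.mul_sum]
    ring
  have h0 : √c ^ n ≠ 0 := pow_ne_zero _ (Real.sqrt_pos.2 hc).ne'
  simp only [laplaceBeltrami, h, pd_cmul, ← Finset.mul_sum]
  rw [sqrt_det hc, one_div, one_div, mul_inv]
  field_simp

theorem cov (hc : c ≠ 0) (T : Tn n k) : cov (fun y => c • G y) T = cov G T := by
  funext y J
  simp only [N207.cov, christoffel G hc]

theorem covN (hc : c ≠ 0) (T : Tn n k) : ∀ j, covN (fun y => c • G y) T j = covN G T j
  | 0 => rfl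
  | j + 1 => by rw [N207.covN, N207.covN, covN hc T j, cov G hc]

theorem covN_smul (a : ℝ) (T : Tn n k) : ∀ j, N207.covN G (a • T) j = a • N207.covN G T j
  | 0 => rfl
  | j + 1 => by rw [N207.covN, N207.covN, covN_smul a T j, cov_smul]

theorem hessT (hc : c ≠ 0) (f : En n → ℝ) : hessT (fun y => c • G y) f = hessT G f := cov G hc _

theorem ip (hc : c ≠ 0) (S T : Tn n k) (y : En n) :
    ip (fun y => c • G y) S T y = c⁻¹ ^ k * ip G S T y := by
  simp only [N207.ip, inv_smul hc, Ar.ipA_scale]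

theorem nsq (hc : c ≠ 0) (T : Tn n k) (y : En n) :
    nsq (fun y => c • G y) T y = c⁻¹ ^ k * nsq G T y := ip G hc T T y

theorem nsq_smul (a : ℝ) (T : Tn n k) (y : En n) :
    N207.nsq G (a • T) y = a ^ 2 * N207.nsq G T y := by
  simp only [N207.nsq, N207.ip, Pi.smul_apply, Ar.ipA_smul_left, Ar.ipA_smul_right]
  ring




theorem rm (hc : c ≠ 0) (j : ℕ) (y : En n) :
    N207.nsq (fun y => c • G y) (N207.covN (fun y => c • G y) (N207.rmT fun y => c • G y) j) y =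
      c⁻¹ ^ (j + 2) * N207.nsq G (N207.covN G (N207.rmT G) j) y := by
  rw [covN G hc, rmT G hc, covN_smul, nsq G hc, nsq_smul, ← mul_assoc]
  congr 1
  rw [show 4 + j = j + 2 + 2 by ring, pow_add, mul_assoc, ← mul_pow, inv_mul_cancel₀ hc, one_pow,
    mul_one]


end Scl

namespace Met

variable {n k : ℕ} {M : Type*} [TopologicalSpace M] [ChartedSpace (En n) M]
  [IsManifold 𝓘(ℝ, En n) ∞ M] (m : Met n M) {c : ℝ} (hc : 0 < c)

theorem scale_gam (f h : M → ℝ) (x : M) : (m.scale c hc).gam f h x = c⁻¹ * m.gam f h x := by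
  rw [gam, scale_G, Scl.gam _ hc.ne', gam]

theorem scale_lap (f : M → ℝ) (x : M) : (m.scale c hc).lap f x = c⁻¹ * m.lap f x := by
  rw [lap, scale_G, Scl.lap _ hc, lap]




theorem scale_hess (f : M → ℝ) : (m.scale c hc).hess f = m.hess f := funext fun x => by
  rw [hess, scale_G, Scl.hessT _ hc.ne', hess]







theorem scale_ip (S T : CT n M k) (x : M) : (m.scale c hc).ip S T x = c⁻¹ ^ k * m.ip S T x := by
  rw [ip, scale_G, Scl.ip _ hc.ne', ip]

theorem scale_nsq (T : CT n M k) (x : M) : (m.scale c hc).nsq T x = c⁻¹ ^ k * m.nsq T x :=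
  m.scale_ip hc T T x

theorem scale_rm (j : ℕ) (x : M) : (m.scale c hc).rm j x = c⁻¹ ^ (j + 2) * m.rm j x := by
  have := Scl.rm (m.G x) hc.ne' j (ctr n x)
  rw [← m.scale_G c hc] at this
  exact this


variable [T3Space M] [ConnectedSpace M] [CompactSpace M]

/-- comparison of distances from a comparison of gradients -/
theorem d_le_of_gam {m m' : Met n M} {K : ℝ} (hK : 0 < K)
    (h : ∀ f, Sm n f → ∀ z, m.gam f f z ≤ K ^ 2 * m'.gam f f z) (x y : M) :
    m'.d x y ≤ K * m.d x y := by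
  rw [d_gs, d_gs]
  refine Dist.GS.d_le fun f hf => (le_abs_self _).trans ?_
  have h1 : Sm n f := (m'.gs_S f).1 hf.1
  have h2 : ∀ z, m'.gam f f z ≤ 1 := fun z => by rw [← gs_gam]; exact hf.2 z
  refine Dist.GS.lip ((m.gs_S f).2 h1) hK (fun z => ?_) x y
  rw [gs_gam]
  exact (h f h1 z).trans (mul_le_of_le_one_right (by positivity) (h2 z))

theorem scale_d (x y : M) : (m.scale c hc).d x y = √c * m.d x y := by
  have h0 := Real.sqrt_pos.2 hc
  refine le_antisymm (d_le_of_gam h0 (fun f _ z => ?_) x y) ?_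
  · rw [scale_gam, Real.sq_sqrt hc.le, mul_inv_cancel_left₀ hc.ne']
  · rw [← le_inv_mul_iff₀ h0]
    refine d_le_of_gam (inv_pos.2 h0) (fun f _ z => ?_) x y
    rw [scale_gam, inv_pow, Real.sq_sqrt hc.le]

theorem scale_ball (x : M) (r : ℝ) : (m.scale c hc).ball x (√c * r) = m.ball x r := by
  ext y
  simp only [ball, mem_ofPred_eq, scale_d, mul_lt_mul_iff_right₀ (Real.sqrt_pos.2 hc)]

variable [MeasurableSpace M] [BorelSpace M]

theorem scale_vol : (m.scale c hc).vol = ENNReal.ofReal (√c ^ n) • m.vol := by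
  rw [V.vol_eq_withDensity m, ← withDensity_const]
  congr 1
  funext x
  rw [V.rho, V.dens, scale_G, Scl.sqrt_det hc]
  exact congrArg _ (mul_div_cancel_right₀ _ (V.dens_pos m x (V.ctr_mem x)).ne')

theorem scale_vol_real (A : Set M) : (m.scale c hc).vol.real A = √c ^ n * m.vol.real A := by
  rw [scale_vol, measureReal_ennreal_smul_apply, ENNReal.toReal_ofReal (by positivity)]



end Met

end Crest.Agent.N207

end
end

-- ▼ part N207/G/Scl
section

/-!
# Row 207, block G (helper8): the neck at one scale from the neck at scale one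
-/

set_option autoImplicit false
set_option linter.unusedSectionVars false

open scoped ContDiff Manifold Topology
open Set MeasureTheory Filter
open Crest.GeometryTopology.CoordMetric
open Crest.Agent.N207.Sk Crest.Agent.R247 Crest.Agent.R202.Tens

noncomputable section

namespace Crest.Agent.N207

namespace Scl

/-- jets of a dilated function -/
theorem norm_jet_smul {n : ℕ} {Y : Type*} [NormedAddCommGroup Y] [NormedSpace ℝ Y] {c : ℝ}
    (hc : 0 < c) (f : En n → Y) (x : En n) (k : ℕ) :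
    ‖iteratedFDeriv ℝ k (fun z => f (c • z)) x‖ ≤ c ^ k * ‖iteratedFDeriv ℝ k f (c • x)‖ := by
  let L : En n ≃L[ℝ] En n := ContinuousLinearEquiv.smulLeft (Units.mk0 c hc.ne')
  have h := L.iteratedFDerivWithin_comp_right f uniqueDiffOn_univ (x := x) (mem_univ _) k
  simp only [preimage_univ, iteratedFDerivWithin_univ] at h
  refine (congrArg norm h).trans_le ((ContinuousMultilinearMap.norm_compContinuousLinearMap_le
    _ _).trans ?_)
  rw [mul_comm, Finset.prod_const, Finset.card_univ, Fintype.card_fin]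
  refine mul_le_mul (pow_le_pow_left₀ (norm_nonneg _) ?_ _) le_rfl (norm_nonneg _) (by positivity)
  refine ContinuousLinearMap.opNorm_le_bound _ hc.le fun v => ?_
  change ‖c • v‖ ≤ _
  rw [norm_smul, Real.norm_of_nonneg hc.le]

theorem J1.smul {Y : Type*} [NormedAddCommGroup Y] [NormedSpace ℝ Y] {c : ℝ} (hc : 0 < c)
    {f : E4 → Y} {x : E4} {k : ℕ} {s a : ℝ} (hs : 0 ≤ s) (h : J1 k f (c • x) (c * s) a) :
    J1 k (fun z => f (c • z)) x s a := by
  refine le_trans ?_ h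
  rw [mul_pow, ← mul_assoc, mul_comm _ (c ^ k)]
  exact mul_le_mul_of_nonneg_right (norm_jet_smul hc f x k) (by positivity)

theorem J1.congr {Y : Type*} [NormedAddCommGroup Y] [NormedSpace ℝ Y] {f f' : E4 → Y} {x : E4}
    {k : ℕ} {s a : ℝ} (h : J1 k f x s a) (e : f' =ᶠ[𝓝 x] f) : J1 k f' x s a := by
  unfold J1
  rwa [(e.iteratedFDeriv ℝ k).eq_of_nhds]

/-- `JG` under dilations -/
theorem jg_smul {c : ℝ} (hc : 0 < c) {G G' : MetricField 4} {x : E4} {m : ℕ} {s a : ℝ}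
    (hs : 0 ≤ s) (h : JG m G (c • x) (c * s) a) (e : G' =ᶠ[𝓝 x] fun z => G (c • z)) :
    JG m G' x s a := fun k hk i j =>
  J1.congr (J1.smul hc hs (h k hk i j)) (e.mono fun z hz => by simp only [dv, hz])


end Scl

namespace Met

variable {n : ℕ} {M : Type*} [TopologicalSpace M] [ChartedSpace (En n) M]
  [IsManifold 𝓘(ℝ, En n) ∞ M] (m : Met n M)

theorem hess_cmul (a : ℝ) (f : M → ℝ) : m.hess (fun x => a * f x) = a • m.hess f := by
  funext x
  have h : dT (Bo84.inCh n x fun x => a * f x) = a • dT (Bo84.inCh n x f) :=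
    funext fun y => funext fun I => pd_cmul (f := Bo84.inCh n x f) _ a
  change N207.cov _ (dT _) = a • N207.cov _ (dT _)
  rw [h, cov_smul]

theorem nsq_smul {k : ℕ} (a : ℝ) (T : CT n M k) (x : M) : m.nsq (a • T) x = a ^ 2 * m.nsq T x :=
  Scl.nsq_smul (m.G x) a (T x) _

theorem lap_cmul (a : ℝ) (f : M → ℝ) (x : M) : m.lap (fun x => a * f x) x = a * m.lap f x := by
  have h : ∀ j y, pderiv j (Bo84.inCh n x fun x => a * f x) y = a * pderiv j (Bo84.inCh n x f) y :=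
    fun j y => pd_cmul (f := Bo84.inCh n x f) _ a
  have h2 : ∀ i, (fun y => √(m.G x y).det * ∑ j, inverseField (m.G x) y i j *
      (a * pderiv j (Bo84.inCh n x f) y)) = fun y => a * (√(m.G x y).det *
        ∑ j, inverseField (m.G x) y i j * pderiv j (Bo84.inCh n x f) y) := fun i => funext fun y => by
    simp only [mul_left_comm _ a, ← Finset.mul_sum]
  simp only [lap, laplaceBeltrami, h, h2, pd_cmul, ← Finset.mul_sum]
  ring

theorem gam_cmul (a b : ℝ) (f h : M → ℝ) (x : M) :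
    m.gam (fun x => a * f x) (fun x => b * h x) x = a * b * m.gam f h x := by
  have e : ∀ (a : ℝ) (f : M → ℝ) j y,
      pderiv j (Bo84.inCh n x fun x => a * f x) y = a * pderiv j (Bo84.inCh n x f) y :=
    fun a f j y => pd_cmul (f := Bo84.inCh n x f) _ a
  simp only [gam, Bo84.gam, e, Finset.mul_sum]
  exact Finset.sum_congr rfl fun i _ => Finset.sum_congr rfl fun j _ => by ring

theorem pm_smul' {Ψ : En n → M} {c : ℝ} {y : En n}
    (h : MDifferentiableAt 𝓘(ℝ, En n) 𝓘(ℝ, En n) Ψ (c • y)) :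
    m.pm (fun x => Ψ (c • x)) y = c ^ 2 • m.pm Ψ (c • y) := by
  ext p q
  have e : fderiv ℝ (fun x : En n => c • x) y = c • ContinuousLinearMap.id ℝ (En n) :=
    ((hasFDerivAt_id y).const_smul c).fderiv
  rw [← Gs.bil_single (m.pm _ y), Gs.pm_comp_bil m (T := fun x => c • x) h (by fun_prop), e]
  simp only [smul_apply, ContinuousLinearMap.id_apply, map_smul, Gs.bil_single, smul_eq_mul,
    Matrix.smul_apply]
  ring

end Met

theorem Par.smul {n : ℕ} {M : Type*} [TopologicalSpace M] [ChartedSpace (En n) M]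
    [IsManifold 𝓘(ℝ, En n) ∞ M] {Ψ : En n → M} {U V : Set (En n)} (h : Par Ψ U) {c : ℝ}
    (hc : c ≠ 0) (hV : IsOpen V) (hm : ∀ x ∈ V, c • x ∈ U) : Par (fun x => Ψ (c • x)) V := by
  refine Gs.par_comp h hV (contDiff_const_smul c).contDiffOn hm fun y _ a b hab => ?_
  have e : fderiv ℝ (fun x : En n => c • x) y = c • ContinuousLinearMap.id ℝ (En n) :=
    ((hasFDerivAt_id y).const_smul c).fderiv
  rw [e] at hab
  exact smul_right_injective _ hc hab

namespace Gs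

variable {M : Type*} [TopologicalSpace M] [ChartedSpace E4 M] [IsManifold 𝓘(ℝ, E4) ∞ M]
  [T3Space M] [ConnectedSpace M] [MeasurableSpace M] [BorelSpace M] [CompactSpace M]

/-- the metric in the units of `S` -/
def un (g : Met 4 M) {S : ℝ} (hS : 0 < S) : Met 4 M := g.scale (S⁻¹ ^ 2) (by positivity)

variable {g : Met 4 M} {S : ℝ} (hS : 0 < S) {z : M}

include hS in
theorem un_sq : √(S⁻¹ ^ 2) = S⁻¹ := Real.sqrt_sq (by positivity)

theorem un_d (x y : M) : g.d x y = S * (un g hS).d x y := by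
  rw [un, Met.scale_d, un_sq hS, mul_inv_cancel_left₀ hS.ne']

theorem un_vol (p : M) (s : ℝ) :
    g.vol.real (g.ball p (S * s)) = S ^ 4 * (un g hS).vol.real ((un g hS).ball p s) := by
  have h := g.scale_ball (c := S⁻¹ ^ 2) (by positivity) p (S * s)
  rw [un_sq hS, inv_mul_cancel_left₀ hS.ne'] at h
  rw [un, h, Met.scale_vol_real, un_sq hS, ← mul_assoc, ← mul_pow, mul_inv_cancel₀ hS.ne', one_pow,
    one_mul]

theorem AC.un {b : M → ℝ} {δ κ : ℝ} (h : AC g z b S δ κ) :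
    AC (un g hS) z (fun x => S⁻¹ ^ 2 * b x) 1 δ κ := by
  have e : (S⁻¹ ^ 2)⁻¹ = S ^ 2 := by rw [inv_pow, inv_inv]
  have e2 : S⁻¹ ^ 2 * S ^ 2 = 1 := by field_simp
  have c1 : ∀ {x}, δ * 1 ≤ (Gs.un g hS).d z x → δ * S ≤ g.d z x := fun hx => by
    rw [un_d hS]; nlinarith
  have c2 : ∀ {x}, δ * (Gs.un g hS).d z x ≤ 1 → δ * g.d z x ≤ S := fun hx => by
    rw [un_d hS]; nlinarith
  have sc : ∀ {u : ℝ}, |u| ≤ δ * S ^ 2 → |S⁻¹ ^ 2 * u| ≤ δ * 1 ^ 2 := fun hu => by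
    rw [abs_mul, abs_of_nonneg (by positivity)]
    refine (mul_le_mul_of_nonneg_left hu (by positivity)).trans_eq ?_
    rw [mul_left_comm, e2, one_pow]
  refine ⟨contMDiff_const.mul h.sm, fun k hk x h1 h2 => ?_, fun x h1 h2 => ?_, fun x h1 h2 => ?_,
    fun x h1 h2 => ?_, fun p s hs => ?_, ?_⟩
  · rw [Gs.un, Met.scale_rm, e]
    refine (mul_le_mul_of_nonneg_left (h.rm k hk x (c1 h1) (c2 h2)) (by positivity)).trans_eq ?_
    rw [← pow_mul, mul_comm 2, pow_mul]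
    field_simp
    simp
  · have := h.hess x (c1 h1) (c2 h2)
    rw [Gs.un, Met.scale_nsq, Met.scale_hess, Met.scale_lap, Met.hess_cmul, Met.nsq_smul,
      Met.lap_cmul, e, ← mul_assoc, ← mul_assoc (S ^ 2), ← mul_pow, mul_comm (S ^ 2), e2]
    simpa using this
  · convert sc (h.gam x (c1 h1) (c2 h2)) using 2
    rw [Gs.un, Met.scale_gam, Met.gam_cmul, e]
    field_simp
  · convert sc (h.val x (c1 h1) (c2 h2)) using 2
    rw [un_d (g := g) hS]
    field_simp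
  · have := h.vol p (S * s) ⟨mul_pos hS hs.1, mul_le_of_le_one_right hS.le hs.2⟩
    rw [un_vol hS, mul_pow, mul_left_comm] at this
    exact le_of_mul_le_mul_left this (by positivity)
  · obtain ⟨p, hp⟩ := h.ne
    refine ⟨p, mul_left_cancel₀ hS.ne' ?_⟩
    rw [← un_d hS, hp, mul_one]

theorem Cn.un {L K : ℝ} (h : Cn g z S L K) : Cn (un g hS) z 1 L K := by
  obtain ⟨C, h0, h1, h2⟩ := h
  refine ⟨C, h0, fun x a b => h1 x ?_ ?_, fun x hx => ?_⟩
  · rw [un_d hS, div_eq_mul_one_div]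
    exact mul_le_mul_of_nonneg_left a hS.le
  · rw [un_d hS]; nlinarith
  · obtain ⟨a, b⟩ := h2 x hx
    rw [un_d hS] at a b
    rw [div_eq_mul_one_div] at a
    exact ⟨le_of_mul_le_mul_left a hS, le_of_mul_le_mul_left (by linarith) hS⟩

include hS in
theorem mem_shell_un {a b : ℝ} {x : E4} : S⁻¹ • x ∈ shell a b ↔ x ∈ shell (S * a) (S * b) := by
  simp only [shell, mem_ofPred_eq, norm_smul, Real.norm_of_nonneg (inv_pos.2 hS).le,
    lt_inv_mul_iff₀ hS, inv_mul_lt_iff₀ hS]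

theorem PN.of_un {Γ : Subgroup (E4 ≃ₗᵢ[ℝ] E4)} {Ψ : E4 → M} {a b θ : ℝ}
    (h : PN (un g hS) z Γ Ψ a b θ) : PN g z Γ (fun x => Ψ (S⁻¹ • x)) (S * a) (S * b) θ where
  fin := h.fin
  free := h.free
  par := h.par.smul (inv_pos.2 hS).ne'
    ((isOpen_lt continuous_const continuous_norm).inter (isOpen_lt continuous_norm continuous_const))
    fun _ hx => (mem_shell_un hS).2 hx
  fib x hx y hy := by
    rw [h.fib _ ((mem_shell_un hS).2 hx) _ ((mem_shell_un hS).2 hy)]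
    simp only [map_smul, (smul_right_injective E4 (inv_pos.2 hS).ne').eq_iff]
  sw x hx := by
    have := mul_le_mul_of_nonneg_left (h.sw _ ((mem_shell_un hS).2 hx)) hS.le
    rw [norm_smul, Real.norm_of_nonneg (inv_pos.2 hS).le, mul_left_comm S θ,
      mul_inv_cancel_left₀ hS.ne'] at this
    refine le_trans (le_of_eq ?_) this
    rw [un_d (g := g) hS, ← mul_inv_cancel_left₀ hS.ne' ‖x‖, ← mul_sub, abs_mul, abs_of_pos hS,
      mul_inv_cancel_left₀ hS.ne']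
  onto p h1 h2 := by
    rw [un_d hS] at h1 h2
    obtain ⟨x, hx, rfl⟩ := h.onto p (le_of_mul_le_mul_left (by linarith) hS)
      (le_of_mul_le_mul_left (by linarith) hS)
    have e : S⁻¹ • S • x = x := inv_smul_smul₀ hS.ne' x
    exact ⟨S • x, (mem_shell_un hS).1 (by rwa [e]), by simp only [e]⟩

theorem PJ.of_un {Γ : Subgroup (E4 ≃ₗᵢ[ℝ] E4)} {Ψ : E4 → M} {a b θ η : ℝ} {m : ℕ}
    (h : PJ (un g hS) z Γ Ψ a b θ m η) :
    PJ g z Γ (fun x => Ψ (S⁻¹ • x)) (S * a) (S * b) θ m η := by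
  refine ⟨h.1.of_un hS, fun x hx => ?_⟩
  have h1 := h.2 _ ((mem_shell_un hS).2 hx)
  rw [norm_smul, Real.norm_of_nonneg (inv_pos.2 hS).le] at h1
  refine Scl.jg_smul (inv_pos.2 hS) (norm_nonneg x) h1 ?_
  filter_upwards [(h.1.of_un hS).par.isOpen.mem_nhds hx] with y hy
  rw [Met.pm_smul' g (par_md h.1.par ((mem_shell_un hS).2 hy)), un, Met.scale_pm]

/-- **the neck at one scale** -/
theorem one_of (h : ONE1 M) : ONE M := by
  intro κ L K η m hκ hL hK hη
  obtain ⟨δ, hδ, H⟩ := h κ L K η m hκ hL hK hη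
  refine ⟨δ, hδ, fun g z b S hS hA hC => ?_⟩
  obtain ⟨Γ, Ψ, hP⟩ := H _ z _ (hA.un hS) (hC.un hS)
  refine ⟨Γ, fun x => Ψ (S⁻¹ • x), ?_⟩
  rw [div_eq_mul_one_div, mul_comm L]
  exact hP.of_un hS

end Gs

end Crest.Agent.N207

end
end

-- ▼ part N207/G/Main

/-!
# Row 207, block G (helper93): `CONE` from `Base` and the rescaling of `ONE1`
-/

set_option autoImplicit false
set_option linter.unusedSectionVars false

open scoped ContDiff Manifold Topology

noncomputable section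

namespace Crest.Agent.N207.G

open Sk Gs

variable {M : Type*} [TopologicalSpace M] [ChartedSpace E4 M] [IsManifold 𝓘(ℝ, E4) ∞ M]
  [T3Space M] [ConnectedSpace M] [MeasurableSpace M] [BorelSpace M] [CompactSpace M]

theorem one1 : ONE1 M := one1_of (deck (shl_of dir long lis) lis)

theorem ent2' {F : Flow M} (B : Base F) : ENT2 F :=
  Ge.ent2 F B (V.hes F) (Ge.gGood' B) (Ge.gSmooth' B) (Ge.gCut B.ok)

theorem cone_scl (S : ONE1 M → ONE M) {F : Flow M} (B : Base F) : CONE F :=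
  cone F B (TR.trans M) (S one1) (Ge.ent1' B) (ent2' B)

/-- **CONE** -/
theorem cone' {F : Flow M} (B : Base F) : CONE F := cone_scl one_of B

end Crest.Agent.N207.G

end
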